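import Crest.Agent.X212.An.Asm

/-!
# Row 212, layer AN: general cells

A cell `σ` has facets `b ∈ wb σ` (the locus `tb b = 0` is the cell `fc σ b`) and walls
`a ∈ wa σ` (the solutions degenerate to face objects when `ta a → 1`).  The functions `ta`, `tb`
are arbitrary invariant `C¹` functions: parameters, `1 -` parameters, moments.
-/

set_option autoImplicit false
set_option linter.unusedSectionVars false
noncomputable section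
open Set Filter Topology Function

namespace Crest.Agent.X212.An
open Mod61

section fn
variable {W : Type} (Q : Prob W) (t : ∀ o, Q.C o → ℝ)

/-- the value of a function at a configuration -/
def val (x : Q.X) : ℝ := t x.1 (Q.pt x.2)

/-- invariant functions -/
structure InvF : Prop where
  sm : ∀ o, ContDiffOn ℝ 1 (t o) (Q.U o)
  g : ∀ o (g : Q.G o), ∀ v ∈ Q.U o, t o (g • v) = t o v
  e : ∀ x y, Q.In x → Q.eqv x y → val Q t x = val Q t y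

/-- the level set of `t` through `x` is cut out regularly -/
def Trv (q : W →₀ ℝ) (x : Q.X) : Prop :=
  Surjective ((fderiv ℝ (Q.F x.1 q) (Q.pt x.2)).prod (fderiv ℝ (t x.1) (Q.pt x.2)))

variable {Q t} {Adm : (W →₀ ℝ) → Prop}

theorem Trv.reg {q : W →₀ ℝ} {x : Q.X} (h : Trv Q t q x) : Q.Reg q x := surj_of_surj_prod h

theorem InvF.at (h : InvF Q t) (hQ : Q.Ax Adm) {x : Q.X} (hx : Q.In x) :
    ContDiffAt ℝ 1 (t x.1) (Q.pt x.2) :=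
  (h.sm x.1).contDiffAt ((hQ.isOpen x.1).mem_nhds (hQ.mem x hx))

theorem InvF.tendsto (h : InvF Q t) (hQ : Q.Ax Adm) {ι : Type} {l : Filter ι} {u : ι → Q.X}
    {x₀ : Q.X} (h0 : Q.In x₀) (hu : ∀ᶠ i in l, Q.In (u i)) (hl : Tendsto u l (Q.Near x₀)) :
    Tendsto (fun i => val Q t (u i)) l (𝓝 (val Q t x₀)) := fun N hN => by
  have h3 := Q.tendsto_near.1 hl _ ((h.at hQ h0).continuousAt.preimage_mem_nhds hN)
  rw [mem_map]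
  filter_upwards [hu, h3] with i h1 ⟨y, hy, he⟩
  show val Q t (u i) ∈ N
  rw [h.e _ _ h1 he]
  exact hy

/-- on a compact set a function that is `< 1` stays away from `1` -/
theorem InvF.lt_of_cpt (h : InvF Q t) (hQ : Q.Ax Adm) {S : Set Q.X} (hS : ∀ x ∈ S, Q.In x)
    (hc : Q.Cpt S) (h1 : ∀ x ∈ S, val Q t x < 1) :
    ∀ᶠ T in 𝓝[<] (1 : ℝ), ∀ x ∈ S, val Q t x < T := by
  refine mem_iff_ultrafilter.2 fun 𝒰 h𝒰 => by_contra fun hn => ?_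
  have h2 : ∀ᶠ T in (𝒰 : Filter ℝ), ∃ x ∈ S, T ≤ val Q t x := by
    filter_upwards [Ultrafilter.compl_mem_iff_notMem.2 hn] with T hT
    simpa only [mem_compl_iff, mem_setOf_eq, not_forall, not_lt, exists_prop] using hT
  obtain ⟨T₀, x₁, -⟩ := h2.exists
  have : Nonempty Q.X := ⟨x₁⟩
  choose! u hu using fun T (hT : ∃ x ∈ S, T ≤ val Q t x) => hT
  obtain ⟨x₀, hx₀, hl⟩ := hc ℝ 𝒰 u (h2.mono fun T hT => (hu T hT).1)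
  exact absurd (le_of_tendsto_of_tendsto (tendsto_id'.2 (h𝒰.trans nhdsWithin_le_nhds))
    (h.tendsto hQ (hS _ hx₀) (h2.mono fun T hT => hS _ (hu T hT).1) hl)
    (h2.mono fun T hT => (hu T hT).2)) (not_le.2 (h1 _ hx₀))

end fn

/-- moduli problems over a complex of cells `Cl` with walls `A` and facets `B` -/
structure Gx (W Cl A B : Type) : Type 1 where
  Q : Cl → Prob W
  wa : Cl → Finset A
  wb : Cl → Finset B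
  ta : ∀ σ, A → ∀ o, (Q σ).C o → ℝ
  tb : ∀ σ, B → ∀ o, (Q σ).C o → ℝ
  fc : Cl → B → Cl
  inc : ∀ σ b, (Q (fc σ b)).X → (Q σ).X

namespace Gx
variable {W Cl A B : Type} (K : Gx W Cl A B)

/-- the wall functions -/
abbrev pa {σ : Cl} (x : (K.Q σ).X) (a : A) : ℝ := val (K.Q σ) (K.ta σ a) x

/-- the facet functions -/
abbrev pb {σ : Cl} (x : (K.Q σ).X) (b : B) : ℝ := val (K.Q σ) (K.tb σ b) x

/-- the solutions of a cell -/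
def M (σ : Cl) (q : W →₀ ℝ) : Set (K.Q σ).X :=
  {x | (K.Q σ).Sol q x ∧ (∀ b ∈ K.wb σ, 0 ≤ K.pb x b) ∧ ∀ a ∈ K.wa σ, K.pa x a < 1}

/-- the count on a cell -/
def z (q : W →₀ ℝ) (σ : Cl) : ℕ := (K.Q σ).cnt (K.M σ q)

/-- the count on the level `ta a = T` -/
def zT (q : W →₀ ℝ) (σ : Cl) (a : A) (T : ℝ) : ℕ :=
  (K.Q σ).cnt {x | x ∈ K.M σ q ∧ K.pa x a = T}

/-- the level set of `ta a` through `x` is cut out regularly -/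
abbrev Tr (q : W →₀ ℝ) {σ : Cl} (x : (K.Q σ).X) (a : A) : Prop := Trv (K.Q σ) (K.ta σ a) q x

/-- the axioms for the cell `σ` and its facets -/
structure Ax (Adm : (W →₀ ℝ) → Prop) (σ : Cl) : Prop where
  ax : (K.Q σ).Ax Adm
  fa : ∀ a ∈ K.wa σ, InvF (K.Q σ) (K.ta σ a)
  fb : ∀ b ∈ K.wb σ, InvF (K.Q σ) (K.tb σ b)
  n : ∀ b ∈ K.wb σ, (K.Q (K.fc σ b)).n = (K.Q σ).n - 1
  inc_eqv : ∀ b ∈ K.wb σ, ∀ x y, (K.Q _).In x → (K.Q _).In y →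
    ((K.Q σ).eqv (K.inc σ b x) (K.inc σ b y) ↔ (K.Q (K.fc σ b)).eqv x y)
  inc_mem : ∀ b ∈ K.wb σ, ∀ q, Adm q → ∀ x ∈ K.M (K.fc σ b) q, K.inc σ b x ∈ K.M σ q
  inc_self : ∀ b ∈ K.wb σ, ∀ x, (K.Q _).In x → K.pb (K.inc σ b x) b = 0
  inc_surj : ∀ b ∈ K.wb σ, ∀ q, Adm q → ∀ y ∈ K.M σ q, K.pb y b = 0 →
    ∃ x ∈ K.M (K.fc σ b) q, K.inc σ b x = y
  inc_reg : ∀ b ∈ K.wb σ, ∀ q, Adm q → ∀ x ∈ K.M (K.fc σ b) q, (K.Q _).Reg q x →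
    Trv (K.Q σ) (K.tb σ b) q (K.inc σ b x)
  inc_a : ∀ b ∈ K.wb σ, ∀ a ∈ K.wa σ,
    (a ∈ K.wa (K.fc σ b) ∧ ∀ x, (K.Q _).In x → K.pa (K.inc σ b x) a = K.pa x a) ∨
      ∀ x, (K.Q _).In x → K.pa (K.inc σ b x) a ≤ 1 / 2
  inc_b : ∀ b ∈ K.wb σ, ∀ b' ∈ K.wb σ, b' ≠ b → ∀ x, (K.Q _).In x → K.pb (K.inc σ b x) b' = 0 →
    ∃ b'' ∈ K.wb (K.fc σ b), K.pb x b'' = 0

variable {K} {Adm : (W →₀ ℝ) → Prop} {σ : Cl} {q : W →₀ ℝ}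

namespace Ax
variable (h : K.Ax Adm σ)
include h

theorem sat_M : (K.Q σ).Sat (K.M σ q) := fun x y e hx =>
  ⟨h.ax.sol_eqv e hx.1, fun b hb => (hx.2.1 b hb).trans_eq ((h.fb b hb).e x y hx.1.1 e),
    fun a ha => ((h.fa a ha).e x y hx.1.1 e).symm.trans_lt (hx.2.2 a ha)⟩

/-- negative index -/
theorem empty (ha : Adm q) (hn : (K.Q σ).n < 0) (hr : ∀ x ∈ K.M σ q, (K.Q σ).Reg q x) :
    K.M σ q = ∅ :=
  eq_empty_of_forall_notMem fun x hx => absurd (h.ax.nonneg ha hx.1 (hr x hx)) (not_le.2 hn)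

theorem cnt_facet (ha : Adm q) {b : B} (hb : b ∈ K.wb σ) {S : Set (K.Q σ).X}
    (hS : ∀ y, y ∈ S ↔ y ∈ K.M σ q ∧ K.pb y b = 0) : K.z q (K.fc σ b) = (K.Q σ).cnt S := by
  refine (cnt_congr (A := K.M (K.fc σ b) q) (A' := S)
    (fun x => ⟨K.inc σ b x, (hS _).2 ⟨h.inc_mem b hb q ha _ x.2, h.inc_self b hb _ x.2.1.1⟩⟩)
    (fun x y => (h.inc_eqv b hb _ _ x.2.1.1 y.2.1.1).symm) fun y => ?_).2
  obtain ⟨h1, h2⟩ := (hS _).1 y.2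
  obtain ⟨x, hx, e⟩ := h.inc_surj b hb q ha y h1 h2
  exact ⟨⟨x, hx⟩, by simp only [e]; exact (K.Q σ).eqv.refl _⟩

/-- **Stokes on a truncated cell.** -/
theorem stokes (ha : Adm q) (hn : (K.Q σ).n = 1) {T : ℝ} (h1 : T < 1)
    (hc : (K.Q σ).Cpt {x | x ∈ K.M σ q ∧ ∀ a ∈ K.wa σ, K.pa x a ≤ T})
    (hr : ∀ x ∈ K.M σ q, (K.Q σ).Reg q x)
    (hlow : ∀ b ∈ K.wb σ, ∀ y ∈ K.M σ q, K.pb y b = 0 → Trv (K.Q σ) (K.tb σ b) q y ∧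
      (∀ b' ∈ K.wb σ, K.pb y b' = 0 → b' = b) ∧ ∀ a ∈ K.wa σ, K.pa y a < T)
    (hup : ∀ a ∈ K.wa σ, ∀ x ∈ K.M σ q, K.pa x a = T →
      K.Tr q x a ∧ ∀ a' ∈ K.wa σ, a' ≠ a → K.pa x a' < T) :
    Even (∑ b ∈ K.wb σ, K.z q (K.fc σ b) + ∑ a ∈ K.wa σ, K.zT q σ a T) := by
  let t : K.wb σ ⊕ K.wa σ → ∀ o, (K.Q σ).C o → ℝ := fun i o v =>
    i.elim (fun b : K.wb σ => K.tb σ b o v) fun a : K.wa σ => T - K.ta σ a o v
  have hmem : ∀ x : (K.Q σ).X, ((K.Q σ).Sol q x ∧ ∀ i, 0 ≤ t i x.1 ((K.Q σ).pt x.2)) ↔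
      x ∈ K.M σ q ∧ ∀ a ∈ K.wa σ, K.pa x a ≤ T := fun x =>
    ⟨fun hx => ⟨⟨hx.1, fun b hb => hx.2 (.inl ⟨b, hb⟩), fun a ha =>
        (sub_nonneg.1 (hx.2 (.inr ⟨a, ha⟩))).trans_lt h1⟩,
        fun a ha => sub_nonneg.1 (hx.2 (.inr ⟨a, ha⟩))⟩,
      fun hx => ⟨hx.1.1, fun i => by
        rcases i with b | a
        · exact hx.1.2.1 b b.2
        · exact sub_nonneg.2 (hx.2 a a.2)⟩⟩
  have key := h.ax.stokes ha hn t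
    (fun i o => by
      rcases i with b | a
      · exact ((h.fb b b.2).sm o).continuousOn
      · exact continuousOn_const.sub ((h.fa a a.2).sm o).continuousOn)
    (fun i o g v hv => by
      rcases i with b | a
      · exact (h.fb b b.2).g o g v hv
      · exact congrArg (T - ·) ((h.fa a a.2).g o g v hv))
    (fun i x y hx e => by
      rcases i with b | a
      · exact (h.fb b b.2).e x y hx e
      · exact congrArg (T - ·) ((h.fa a a.2).e x y hx e))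
    (by simpa only [hmem] using hc)
    (fun x hx hx' => by
      have hm := ((hmem x).1 ⟨hx, hx'⟩).1
      refine ⟨hr x hm, fun i hi => ?_⟩
      rcases i with b | a
      · exact ⟨_, ((h.fb b b.2).at h.ax hx.1).hasStrictFDerivAt one_ne_zero, (hlow b b.2 x hm hi).1⟩
      · refine ⟨_, (((h.fa a a.2).at h.ax hx.1).hasStrictFDerivAt one_ne_zero).const_sub T, ?_⟩
        rintro ⟨f, r⟩
        obtain ⟨u, hu⟩ := (hup a a.2 x hm (sub_eq_zero.1 hi).symm).1 (f, -r)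
        have h2 := congrArg Prod.fst hu
        refine ⟨u, Prod.ext h2 ?_⟩
        have h3 : fderiv ℝ (K.ta σ a x.1) ((K.Q σ).pt x.2) u = -r := congrArg Prod.snd hu
        simp [h3])
    (fun x hx hx' i j hi hj => by
      have hm := ((hmem x).1 ⟨hx, hx'⟩).1
      have e1 : ∀ (b : K.wb σ) (a : K.wa σ), K.pb x b = 0 → K.pa x a = T → False :=
        fun b a h2 h3 => ((hlow b b.2 x hm h2).2.2 a a.2).ne h3
      rcases i with a | a <;> rcases j with b | b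
      · exact congrArg Sum.inl (Subtype.ext ((hlow a a.2 x hm hi).2.1 b b.2 hj).symm)
      · exact (e1 a b hi (sub_eq_zero.1 hj).symm).elim
      · exact (e1 b a hj (sub_eq_zero.1 hi).symm).elim
      · by_contra e
        have e' : (b : A) ≠ a := fun e' => e (congrArg Sum.inr (Subtype.ext e'.symm))
        exact ((hup a a.2 x hm (sub_eq_zero.1 hi).symm).2 b b.2 e').ne (sub_eq_zero.1 hj).symm)
  have h2 := key.2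
  rw [Fintype.sum_sum_type] at h2
  rw [← Finset.sum_coe_sort (K.wb σ), ← Finset.sum_coe_sort (K.wa σ) fun a => K.zT q σ a T]
  convert h2 using 3 with b _ a _
  · refine h.cnt_facet ha b.2 fun y =>
      ⟨fun hy => ⟨((hmem y).1 ⟨hy.1, hy.2.1⟩).1, hy.2.2⟩, fun hy => ?_⟩
    have h3 := (hmem y).2 ⟨hy.1, fun a ha => ((hlow b b.2 y hy.1 hy.2).2.2 a ha).le⟩
    exact ⟨h3.1, h3.2, hy.2⟩
  · refine congrArg _ (Set.ext fun y => ⟨fun hy => ?_, fun hy => ?_⟩)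
    · have h3 := (hmem y).2 ⟨hy.1, fun b hb => by
        by_cases e : b = a
        · rw [e, hy.2]
        · exact ((hup a a.2 y hy.1 hy.2).2 b hb e).le⟩
      exact ⟨h3.1, h3.2, sub_eq_zero.2 hy.2.symm⟩
    · exact ⟨((hmem y).1 ⟨hy.1, hy.2.1⟩).1, (sub_eq_zero.1 hy.2.2).symm⟩

end Ax
end Gx

/-- cells `𝒦`, `G` = good for the lower strata, face objects `Fc σ a` -/
structure Gsm (W Cl A B : Type) : Type 1 extends Gx W Cl A B, Low W where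
  𝒦 : Set Cl
  Fc : Cl → A → Type
  FSol : ∀ {σ a}, (W →₀ ℝ) → Fc σ a → Prop
  feq : ∀ σ a, Setoid (Fc σ a)
  Deg : ∀ {σ a} {ι : Type}, Ultrafilter ι → (ι → (Q σ).X) → Fc σ a → Prop

namespace Gsm
variable {W Cl A B : Type} (K : Gsm W Cl A B)

/-- good for all strata -/
def GG (q : W →₀ ℝ) : Prop := K.G q ∧ ∀ σ ∈ K.𝒦, ∀ x ∈ K.M σ q, (K.Q σ).Reg q x

/-- classes of face objects -/
abbrev FCl (q : W →₀ ℝ) (σ : Cl) (a : A) : Type :=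
  Quotient ((K.feq σ a).comap (Subtype.val : {y : K.Fc σ a // K.FSol q y} → _))

/-- the number of face objects -/
def zf (q : W →₀ ℝ) (σ : Cl) (a : A) : ℕ := Nat.card (K.FCl q σ a)

structure Ax : Prop where
  fin : K.𝒦.Finite
  low : K.toLow.Ax
  cx : ∀ σ ∈ K.𝒦, K.toGx.Ax K.Adm σ
  down : ∀ σ ∈ K.𝒦, ∀ b ∈ K.wb σ, K.fc σ b ∈ K.𝒦
  dens : ∀ σ ∈ K.𝒦, ∀ q, K.Adm q → ∀ x ∈ K.M σ q, (K.Q σ).Reg q x ∨ ∃ J, (K.Q σ).Onto q x J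
  comp : ∀ σ ∈ K.𝒦, ∀ q₀, K.G q₀ → ∀ (ι : Type) (𝒰 : Ultrafilter ι) (q : ι → W →₀ ℝ)
    (u : ι → (K.Q σ).X), St.Cv (𝒰 : Filter ι) q q₀ →
    (∀ᶠ i in (𝒰 : Filter ι), K.Adm (q i) ∧ u i ∈ K.M σ (q i)) →
    (∃ x₀ ∈ K.M σ q₀, Tendsto u 𝒰 ((K.Q σ).Near x₀)) ∨
      ∃ a ∈ K.wa σ, ∃ y : K.Fc σ a, K.FSol q₀ y ∧ K.Deg 𝒰 u y
  deg_one : ∀ σ ∈ K.𝒦, ∀ a ∈ K.wa σ, ∀ (ι : Type) (𝒰 : Ultrafilter ι) u (y : K.Fc σ a),
    K.Deg 𝒰 u y → Tendsto (fun i => K.pa (u i) a) 𝒰 (𝓝 1)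
  deg_lt : ∀ σ ∈ K.𝒦, ∀ a ∈ K.wa σ, ∀ (ι : Type) (𝒰 : Ultrafilter ι) u (y : K.Fc σ a),
    K.Deg 𝒰 u y → ∀ a' ∈ K.wa σ, a' ≠ a → ∃ c < 1, ∀ᶠ i in (𝒰 : Filter ι), K.pa (u i) a' ≤ c
  deg_congr : ∀ σ ∈ K.𝒦, ∀ a ∈ K.wa σ, ∀ (𝒰 : Ultrafilter ℝ) u u' (y : K.Fc σ a), K.Deg 𝒰 u y →
    (∀ᶠ i in (𝒰 : Filter ℝ), (K.Q σ).In (u i) ∧ (K.Q σ).eqv (u i) (u' i)) → K.Deg 𝒰 u' y
  deg_eqv : ∀ σ ∈ K.𝒦, ∀ a ∈ K.wa σ, ∀ q, K.G q → ∀ (𝒰 : Ultrafilter ℝ) u (y y' : K.Fc σ a),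
    (∀ᶠ i in (𝒰 : Filter ℝ), u i ∈ K.M σ q) → K.FSol q y → K.FSol q y' → K.Deg 𝒰 u y →
    (K.Deg 𝒰 u y' ↔ K.feq σ a y y')
  nof : ∀ σ ∈ K.𝒦, (K.Q σ).n ≤ 0 → ∀ a ∈ K.wa σ, ∀ q, K.G q → ∀ y : K.Fc σ a, ¬K.FSol q y
  ffin : ∀ σ ∈ K.𝒦, (K.Q σ).n = 1 → ∀ a ∈ K.wa σ, ∀ q, K.G q → Finite (K.FCl q σ a)
  gl_reg : ∀ σ ∈ K.𝒦, ∀ a ∈ K.wa σ, ∀ q₀, K.G q₀ → ∀ (ι : Type) (𝒰 : Ultrafilter ι)
    (q : ι → W →₀ ℝ) u (y : K.Fc σ a), St.Cv (𝒰 : Filter ι) q q₀ →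
    (∀ᶠ i in (𝒰 : Filter ι), K.Adm (q i) ∧ u i ∈ K.M σ (q i)) → K.FSol q₀ y → K.Deg 𝒰 u y →
    ∀ᶠ i in (𝒰 : Filter ι), K.Tr (q i) (u i) a
  gl_ex : ∀ σ ∈ K.𝒦, ∀ a ∈ K.wa σ, ∀ q, K.G q → ∀ y : K.Fc σ a, K.FSol q y →
    ∀ 𝒰 : Ultrafilter ℝ, (𝒰 : Filter ℝ) ≤ 𝓝[<] 1 → ∃ u,
      (∀ᶠ T in (𝒰 : Filter ℝ), u T ∈ K.M σ q ∧ K.pa (u T) a = T) ∧ K.Deg 𝒰 u y
  gl_uniq : ∀ σ ∈ K.𝒦, ∀ a ∈ K.wa σ, ∀ q, K.G q → ∀ y : K.Fc σ a, K.FSol q y →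
    ∀ 𝒰 : Ultrafilter ℝ, (𝒰 : Filter ℝ) ≤ 𝓝[<] 1 → ∀ u u',
      (∀ᶠ T in (𝒰 : Filter ℝ), u T ∈ K.M σ q ∧ K.pa (u T) a = T) →
      (∀ᶠ T in (𝒰 : Filter ℝ), u' T ∈ K.M σ q ∧ K.pa (u' T) a = T) →
      K.Deg 𝒰 u y → K.Deg 𝒰 u' y → ∀ᶠ T in (𝒰 : Filter ℝ), (K.Q σ).eqv (u T) (u' T)

/-- the top strata -/
def top : St W where
  S := K.𝒦
  X σ := (K.Q σ).X
  Sol σ q x := x ∈ K.M σ q
  P σ := K.Q σ
  pr x := x
  rank _ := 0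
  Adm := K.G

variable {K} {σ : Cl} {q : W →₀ ℝ}
namespace Ax
variable (h : K.Ax)
include h

theorem adm (hq : K.G q) : K.Adm q := h.low.le q hq

theorem top : K.top.Ax where
  fin := h.fin
  ax σ := ax_mono (h.cx σ.1 σ.2).ax h.low.le
  adm := h.low.op
  sol _ _ _ _ hx := hx.1
  dens σ q x ha hx := h.dens σ.1 σ.2 q (h.adm ha) x hx
  comp σ q₀ ha _ ι 𝒰 q u hq hu := by
    have hu' := hu.mono fun i hi => (⟨h.adm hi.1, hi.2⟩ : K.Adm (q i) ∧ u i ∈ K.M σ.1 (q i))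
    rcases h.comp σ.1 σ.2 q₀ ha ι 𝒰 q u hq hu' with h1 | ⟨a, ha', y, h1, h2⟩
    · exact .inr h1
    · exact .inl ((h.gl_reg σ.1 σ.2 a ha' q₀ ha ι 𝒰 q u y hq hu' h1 h2).mono fun i hi => hi.reg)

omit h in
theorem gg_iff : K.GG q ↔ K.top.Adm q ∧ ∀ s, K.top.Good s q :=
  and_congr_right fun _ => ⟨fun h s => h s.1 s.2, fun h σ hσ => h ⟨σ, hσ⟩⟩

/-- **The good perturbations are open and dense.** -/
theorem gg : Low.Ax ⟨K.Adm, K.GG⟩ := by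
  have := h.low.trans (G' := fun q => K.top.Adm q ∧ ∀ s, K.top.Good s q) h.top.low
  simpa only [← gg_iff] using this

/-- negative index -/
theorem empty (hq : K.GG q) (hσ : σ ∈ K.𝒦) (hn : (K.Q σ).n < 0) : K.M σ q = ∅ :=
  (h.cx σ hσ).empty (h.adm hq.1) hn (hq.2 σ hσ)

theorem comp' (hq : K.G q) (hσ : σ ∈ K.𝒦) {ι : Type} (𝒰 : Ultrafilter ι) (u : ι → (K.Q σ).X)
    (hu : ∀ᶠ i in (𝒰 : Filter ι), u i ∈ K.M σ q) :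
    (∃ x₀ ∈ K.M σ q, Tendsto u 𝒰 ((K.Q σ).Near x₀)) ∨
      ∃ a ∈ K.wa σ, ∃ y : K.Fc σ a, K.FSol q y ∧ K.Deg 𝒰 u y :=
  h.comp σ hσ q hq ι 𝒰 _ u (St.cv_const _ q) (hu.mono fun _ hi => ⟨h.adm hq, hi⟩)

theorem cpt (hq : K.G q) (hσ : σ ∈ K.𝒦) (hn : (K.Q σ).n ≤ 0) : (K.Q σ).Cpt (K.M σ q) :=
  fun _ 𝒰 u hu => (h.comp' hq hσ 𝒰 u hu).resolve_right fun ⟨a, ha, y, hy, _⟩ =>
    h.nof σ hσ hn a ha q hq y hy

/-- index zero -/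
theorem finite (hq : K.GG q) (hσ : σ ∈ K.𝒦) (hn : (K.Q σ).n = 0) :
    Finite ((K.Q σ).Cl (K.M σ q)) :=
  (h.cx σ hσ).ax.finite (h.adm hq.1) hn (fun _ hx => hx.1) (h.cx σ hσ).sat_M
    (h.cpt hq.1 hσ hn.le) (hq.2 σ hσ)

theorem tendsto_pa (hσ : σ ∈ K.𝒦) {ι : Type} {l : Filter ι} {u : ι → (K.Q σ).X} {x₀ : (K.Q σ).X}
    (h0 : x₀ ∈ K.M σ q) (hu : ∀ᶠ i in l, u i ∈ K.M σ q) (hl : Tendsto u l ((K.Q σ).Near x₀))
    {a : A} (ha : a ∈ K.wa σ) : Tendsto (fun i => K.pa (u i) a) l (𝓝 (K.pa x₀ a)) :=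
  ((h.cx σ hσ).fa a ha).tendsto (h.cx σ hσ).ax h0.1.1 (hu.mono fun _ hi => hi.1.1) hl

theorem cpt_le (hq : K.G q) (hσ : σ ∈ K.𝒦) {T : ℝ} (hT : T < 1) :
    (K.Q σ).Cpt {x | x ∈ K.M σ q ∧ ∀ a ∈ K.wa σ, K.pa x a ≤ T} := fun ι 𝒰 u hu => by
  rcases h.comp' hq hσ 𝒰 u (hu.mono fun _ hi => hi.1) with ⟨x₀, h1, h2⟩ | ⟨a, ha, y, -, h2⟩
  · exact ⟨x₀, ⟨h1, fun a ha => le_of_tendsto (h.tendsto_pa hσ h1 (hu.mono fun _ hi => hi.1) h2 ha)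
      (hu.mono fun _ hi => hi.2 a ha)⟩, h2⟩
  · exact absurd (le_of_tendsto (h.deg_one σ hσ a ha ι 𝒰 u y h2) (hu.mono fun _ hi => hi.2 a ha))
      (not_le.2 hT)

/-- a family with `ta a → 1` degenerates to a face object -/
theorem deg_of (hq : K.G q) (hσ : σ ∈ K.𝒦) {a : A} (ha : a ∈ K.wa σ) {𝒰 : Ultrafilter ℝ}
    (h𝒰 : (𝒰 : Filter ℝ) ≤ 𝓝[<] 1) {u : ℝ → (K.Q σ).X}
    (hu : ∀ᶠ T in (𝒰 : Filter ℝ), u T ∈ K.M σ q ∧ K.pa (u T) a = T) :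
    ∃ y : K.Fc σ a, K.FSol q y ∧ K.Deg 𝒰 u y := by
  have h1 : Tendsto (fun T => K.pa (u T) a) 𝒰 (𝓝 1) :=
    (tendsto_id'.2 (h𝒰.trans nhdsWithin_le_nhds)).congr' (hu.mono fun _ hT => hT.2.symm)
  rcases h.comp' hq hσ 𝒰 u (hu.mono fun _ hi => hi.1) with ⟨x₀, h2, h3⟩ | ⟨b, hb, y, h2, h3⟩
  · exact absurd (tendsto_nhds_unique (h.tendsto_pa hσ h2 (hu.mono fun _ hi => hi.1) h3 ha) h1)
      (h2.2.2 a ha).ne
  · by_cases e : a = b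
    · subst e; exact ⟨y, h2, h3⟩
    · obtain ⟨c, h4, h5⟩ := h.deg_lt σ hσ b hb ℝ 𝒰 u y h3 a ha e
      exact absurd (le_of_tendsto h1 h5) (not_le.2 h4)

omit h in
theorem ev_of {a : A} {𝒰 : Ultrafilter ℝ} {p : ℝ → (K.Q σ).X → Prop}
    (hp : ∀ u : ℝ → (K.Q σ).X, (∀ᶠ T in (𝒰 : Filter ℝ), u T ∈ K.M σ q ∧ K.pa (u T) a = T) →
      ∀ᶠ T in (𝒰 : Filter ℝ), p T (u T)) :
    ∀ᶠ T in (𝒰 : Filter ℝ), ∀ x ∈ K.M σ q, K.pa x a = T → p T x := by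
  by_contra hn
  have h1 : ∀ᶠ T in (𝒰 : Filter ℝ), ∃ x, (x ∈ K.M σ q ∧ K.pa x a = T) ∧ ¬p T x := by
    filter_upwards [Ultrafilter.eventually_not.2 hn] with T hT
    simpa only [not_forall, exists_prop, and_assoc] using hT
  obtain ⟨T₀, x₁, -⟩ := h1.exists
  have : Nonempty (K.Q σ).X := ⟨x₁⟩
  choose! u hu using fun T (hT : ∃ x, (x ∈ K.M σ q ∧ K.pa x a = T) ∧ ¬p T x) => hT
  obtain ⟨T, h2, h3⟩ := (h1.and (hp u (h1.mono fun T hT => (hu T hT).1))).exists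
  exact (hu T h2).2 h3

theorem up (hq : K.G q) (hσ : σ ∈ K.𝒦) {a : A} (ha : a ∈ K.wa σ) : ∀ᶠ T in 𝓝[<] (1 : ℝ),
    ∀ x ∈ K.M σ q, K.pa x a = T → K.Tr q x a ∧ ∀ b ∈ K.wa σ, b ≠ a → K.pa x b < T := by
  refine mem_iff_ultrafilter.2 fun 𝒰 h𝒰 => ev_of fun u hu => ?_
  obtain ⟨y, h1, h2⟩ := h.deg_of hq hσ ha h𝒰 hu
  refine (h.gl_reg σ hσ a ha q hq ℝ 𝒰 _ u y (St.cv_const _ q)
    (hu.mono fun _ hi => ⟨h.adm hq, hi.1⟩) h1 h2).and ((eventually_all_finset _).2 fun b hb => ?_)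
  by_cases e : b = a
  · exact Eventually.of_forall fun _ e' => absurd e e'
  obtain ⟨c, h3, h4⟩ := h.deg_lt σ hσ a ha ℝ 𝒰 u y h2 b hb e
  filter_upwards [h4, (h𝒰.trans nhdsWithin_le_nhds) (Ioi_mem_nhds h3)] with T h5 h6 _
  exact h5.trans_lt h6

/-- near the end the level count is the number of face objects -/
theorem zT_eq (hq : K.G q) (hσ : σ ∈ K.𝒦) (hn : (K.Q σ).n = 1) {a : A} (ha : a ∈ K.wa σ) :
    ∀ᶠ T in 𝓝[<] (1 : ℝ), K.zT q σ a T = K.zf q σ a := by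
  refine mem_iff_ultrafilter.2 fun 𝒰 h𝒰 => ?_
  have := h.ffin σ hσ hn a ha q hq
  choose u hu hd using fun c : K.FCl q σ a => h.gl_ex σ hσ a ha q hq c.out.1 c.out.2 𝒰 h𝒰
  have h1 : ∀ᶠ T in (𝒰 : Filter ℝ), ∀ c c', (K.Q σ).eqv (u c T) (u c' T) → c = c' := by
    refine eventually_all.2 fun c => eventually_all.2 fun c' => ?_
    by_cases e : ∀ᶠ T in (𝒰 : Filter ℝ), (K.Q σ).eqv (u c T) (u c' T)
    · have h2 := h.deg_congr σ hσ a ha 𝒰 _ _ _ (hd c) (((hu c).mono fun _ hT => hT.1.1.1).and e)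
      have h3 := (h.deg_eqv σ hσ a ha q hq 𝒰 _ _ _ ((hu c').mono fun _ hT => hT.1)
        c.out.2 c'.out.2 h2).1 (hd c')
      exact Eventually.of_forall fun _ _ => Quotient.out_equiv_out.1 h3
    · exact (Ultrafilter.eventually_not.2 e).mono fun T hT h' => (hT h').elim
  have h2 : ∀ᶠ T in (𝒰 : Filter ℝ), ∀ x ∈ K.M σ q, K.pa x a = T →
      ∃ c, (K.Q σ).eqv (u c T) x := ev_of fun v hv => by
    obtain ⟨y, h3, h4⟩ := h.deg_of hq hσ ha h𝒰 hv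
    let c : K.FCl q σ a := Quotient.mk _ ⟨y, h3⟩
    have h5 : K.feq σ a y c.out.1 := (K.feq σ a).symm (Quotient.mk_out (s := (K.feq σ a).comap _) _)
    exact (h.gl_uniq σ hσ a ha q hq _ c.out.2 𝒰 h𝒰 _ _ (hu c) hv (hd c)
      ((h.deg_eqv σ hσ a ha q hq 𝒰 _ _ _ (hv.mono fun _ hT => hT.1) h3 c.out.2 h4).2 h5)).mono
      fun T hT => ⟨c, hT⟩
  filter_upwards [h1, h2, eventually_all.2 hu] with T h3 h4 h5
  refine (Nat.card_congr (Equiv.ofBijective (fun c : K.FCl q σ a =>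
    (Quotient.mk _ ⟨u c T, h5 c⟩ : (K.Q σ).Cl {x | x ∈ K.M σ q ∧ K.pa x a = T}))
    ⟨fun c c' e => h3 c c' (by have := Quotient.exact e; exact this), fun m => ?_⟩)).symm
  obtain ⟨x, rfl⟩ := Quotient.mk_surjective m
  obtain ⟨c, hc⟩ := h4 x x.2.1 x.2.2
  exact ⟨c, Quotient.sound hc⟩

/-- near the end the facets lie below the level -/
theorem lo (hq : K.GG q) (hσ : σ ∈ K.𝒦) (hn : (K.Q σ).n = 1) {b : B} (hb : b ∈ K.wb σ) :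
    ∀ᶠ T in 𝓝[<] (1 : ℝ), ∀ y ∈ K.M σ q, K.pb y b = 0 → Trv (K.Q σ) (K.tb σ b) q y ∧
      (∀ b' ∈ K.wb σ, K.pb y b' = 0 → b' = b) ∧ ∀ a ∈ K.wa σ, K.pa y a < T := by
  have hx := h.cx σ hσ
  have hτ := h.down σ hσ b hb
  have hx' := h.cx _ hτ
  have ha := h.adm hq.1
  have h1 := (eventually_all_finset (K.wa (K.fc σ b))).2 fun a ha' =>
    (hx'.fa a ha').lt_of_cpt hx'.ax (fun _ hy => hy.1.1)
      (h.cpt hq.1 hτ (by rw [hx.n b hb]; omega)) fun _ hy => hy.2.2 a ha'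
  filter_upwards [h1, Ioo_mem_nhdsLT (show (1 / 2 : ℝ) < 1 by norm_num)] with T h2 h3 y hy h4
  obtain ⟨x, h5, rfl⟩ := hx.inc_surj b hb q ha y hy h4
  refine ⟨hx.inc_reg b hb q ha x h5 (hq.2 _ hτ x h5), fun b' hb' h6 => by_contra fun e => ?_,
    fun a ha' => ?_⟩
  · obtain ⟨b'', h7, h8⟩ := hx.inc_b b hb b' hb' e x h5.1.1 h6
    obtain ⟨x', h9, -⟩ := hx'.inc_surj b'' h7 q ha x h5 h8
    rw [h.empty hq (h.down _ hτ b'' h7) (by rw [hx'.n b'' h7, hx.n b hb]; omega)] at h9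
    exact h9
  · rcases hx.inc_a b hb a ha' with ⟨h7, h8⟩ | h7
    · rw [h8 x h5.1.1]; exact h2 a h7 x h5
    · exact (h7 x h5.1.1).trans_lt h3.1

/-- **Stokes.** -/
theorem stokes (hq : K.GG q) (hσ : σ ∈ K.𝒦) (hn : (K.Q σ).n = 1) :
    Even (∑ b ∈ K.wb σ, K.z q (K.fc σ b) + ∑ a ∈ K.wa σ, K.zf q σ a) := by
  have h1 := (eventually_all_finset (K.wb σ)).2 fun b hb => h.lo hq hσ hn hb
  have h2 := (eventually_all_finset (K.wa σ)).2 fun a ha => h.up hq.1 hσ ha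
  have h3 := (eventually_all_finset (K.wa σ)).2 fun a ha => h.zT_eq hq.1 hσ hn ha
  obtain ⟨T, ⟨⟨h4, h5⟩, h6⟩, h7⟩ := (((h1.and h2).and h3).and self_mem_nhdsWithin).exists
  rw [← Finset.sum_congr rfl h6]
  exact (h.cx σ hσ).stokes (h.adm hq.1) hn h7 (h.cpt_le hq.1 hσ h7) (hq.2 σ hσ) h4 h5

end Ax
end Gsm

/-- **One perturbation for finitely many open dense conditions.** -/
theorem Low.exists_all {W I : Type} [Finite I] {L : I → Low W} (h : ∀ i, (L i).Ax)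
    {O : (W →₀ ℝ) → Prop} (hO : St.IsOp O) {q₀ : W →₀ ℝ} (h0 : O q₀)
    (ha : ∀ i q, O q → (L i).Adm q) : ∃ q, O q ∧ ∀ i, (L i).G q :=
  St.exists_all (fun i => (h i).op) hO h0 fun i _ hO' q h1 h2 => (h i).ex _ hO' q (ha i q h1) h2

end Crest.Agent.X212.An
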