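import Crest.Agent.X212.Sob92.Der

/-!
# Row 212, layer AN: the format of the analysis

`M` is a boundaryless smooth manifold for a general model `I` (so products are instances), compact
or not.  The metric is data: a finite spanning family `e a` of smooth vector fields (a Parseval
frame of the cometric `∑ e a ⊗ e a`) and a measure with smooth positive density.
Sections are functions `M → V`, bundles are projector fields `p : M → V →L V`.
-/

set_option autoImplicit false
noncomputable section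
open scoped Manifold ContDiff Topology InnerProductSpace
open MeasureTheory Set Function

namespace Crest.Agent.X212.An

variable {E : Type} [NormedAddCommGroup E] [NormedSpace ℝ E] [FiniteDimensional ℝ E]
  [MeasurableSpace E] [BorelSpace E]
  {HM : Type} [TopologicalSpace HM] {I : ModelWithCorners ℝ E HM}
  {M : Type} [TopologicalSpace M] [ChartedSpace HM M] [IsManifold I ∞ M]
  [MeasurableSpace M] {ι : Type} [Fintype ι]
  {E' : Type} [NormedAddCommGroup E'] [NormedSpace ℝ E'] [FiniteDimensional ℝ E']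
  [MeasurableSpace E'] [BorelSpace E']
  {HM' : Type} [TopologicalSpace HM'] {I' : ModelWithCorners ℝ E' HM'}
  {M' : Type} [TopologicalSpace M'] [ChartedSpace HM' M'] [IsManifold I' ∞ M']
  [MeasurableSpace M'] {ι' : Type} [Fintype ι']
  {N : Type} [NormedAddCommGroup N] [NormedSpace ℝ N]
  {U V W : Type} [NormedAddCommGroup U] [InnerProductSpace ℝ U]
  [NormedAddCommGroup V] [InnerProductSpace ℝ V] [NormedAddCommGroup W] [InnerProductSpace ℝ W]

variable (I) in
/-- smooth functions with values in a normed space -/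
abbrev Sm (f : M → N) : Prop := ContMDiff I 𝓘(ℝ, N) ∞ f

variable (E) in
/-- the reference Lebesgue measure of the model space -/
def leb : Measure E := (Module.finBasis ℝ E).addHaar

variable (I) in
/-- near `x₀` the measure `μ` has the density `ρ` in the chart at `x₀` -/
def HasDens (μ : Measure M) (x₀ : M) (O : Set M) (ρ : E → ℝ) : Prop :=
  IsOpen O ∧ x₀ ∈ O ∧ O ⊆ (extChartAt I x₀).source ∧
    (μ.restrict O).map (extChartAt I x₀) =
      ((leb E).restrict (extChartAt I x₀ '' O)).withDensity fun y => ENNReal.ofReal (ρ y)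

variable (I M ι) in
/-- frame and measure -/
structure Pre where
  e : ι → Π x : M, TangentSpace I x
  μ : Measure M
  sm : ∀ a, ContMDiff I I.tangent ∞ fun x => (⟨x, e a x⟩ : TangentBundle I M)
  span : ∀ x, Submodule.span ℝ (range fun a => e a x) = ⊤
  fin : IsFiniteMeasureOnCompacts μ
  dens : ∀ x₀, ∃ O ρ, HasDens I μ x₀ O ρ ∧ ContDiffOn ℝ ∞ ρ (extChartAt I x₀ '' O) ∧
    ∀ y ∈ extChartAt I x₀ '' O, 0 < ρ y

namespace Pre
variable (F : Pre I M ι)

instance : IsFiniteMeasureOnCompacts F.μ := F.fin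

/-- derivative along the frame field `e a` -/
def D (a : ι) (u : M → N) : M → N := Sob92.dv I (F.e a) u

theorem D_def (a : ι) (u : M → N) : F.D a u = Sob92.dv I (F.e a) u := rfl

/-- iterated derivative; the head of the word is applied first -/
def Dw : List ι → (M → N) → M → N
  | [], u => u
  | a :: w, u => Dw w (F.D a u)

/-- sup bounds of all derivatives of order `≤ k` -/
def CB (k : ℕ) (f : M → N) (C : ℝ) : Prop := ∀ w : List ι, w.length ≤ k → ∀ x, ‖F.Dw w f x‖ ≤ C

/-- smooth, with the sup bounds `C k` in order `k` -/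
def CBs (f : M → N) (C : ℕ → ℝ) : Prop := Sm I f ∧ ∀ k, F.CB k f (C k)

/-- smooth with all derivatives bounded -/
def Cb (f : M → N) : Prop := ∃ C, F.CBs f C

/-- the `L²_k` inner product -/
def ip : ℕ → (M → V) → (M → V) → ℝ
  | 0, u, v => ∫ x, ⟪u x, v x⟫_ℝ ∂F.μ
  | k + 1, u, v => (∫ x, ⟪u x, v x⟫_ℝ ∂F.μ) + ∑ a, ip k (F.D a u) (F.D a v)

/-- the `L²_k` norm -/
def nrm (k : ℕ) (u : M → V) : ℝ := √(F.ip k u u)

/-- cometric in the chart at `x₀` -/
def gram (x₀ x : M) : Matrix (Fin (Module.finrank ℝ E)) (Fin (Module.finrank ℝ E)) ℝ :=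
  Matrix.of fun i j => ∑ a, (Module.finBasis ℝ E).repr (F.D a (extChartAt I x₀) x) i *
    (Module.finBasis ℝ E).repr (F.D a (extChartAt I x₀) x) j

/-- `μ` is the Riemannian measure of the metric for which `e` is a Parseval frame -/
def IsVol : Prop := ∀ x₀, ∃ O, HasDens I F.μ x₀ O
  fun y => (√(F.gram x₀ ((extChartAt I x₀).symm y)).det)⁻¹

theorem sm_D {u : M → N} (hu : Sm I u) (a : ι) : Sm I (F.D a u) := Sob92.dv_smooth (F.sm a) hu

theorem D_add {u v : M → N} (hu : Sm I u) (hv : Sm I v) (a : ι) :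
    F.D a (u + v) = F.D a u + F.D a v := funext fun _ =>
  Sob92.dv_add (hu.mdifferentiableAt (by simp)) (hv.mdifferentiableAt (by simp))

theorem D_smul {u : M → N} (hu : Sm I u) (r : ℝ) (a : ι) : F.D a (r • u) = r • F.D a u :=
  funext fun _ => Sob92.dv_const_smul r (hu.mdifferentiableAt (by simp))

theorem tsupport_D (u : M → N) (a : ι) : tsupport (F.D a u) ⊆ tsupport u := Sob92.tsupport_dv u

theorem hcs_D {u : M → N} (h : HasCompactSupport u) (a : ι) : HasCompactSupport (F.D a u) :=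
  Sob92.dv_hcs h

theorem ip_comm (k : ℕ) (u v : M → V) : F.ip k u v = F.ip k v u := by
  induction k generalizing u v with
  | zero => simp only [ip, real_inner_comm]
  | succ k ih => simp only [ip, real_inner_comm (u _), fun a => ih (F.D a u) (F.D a v)]

theorem ip_nonneg (k : ℕ) (u : M → V) : 0 ≤ F.ip k u u := by
  induction k generalizing u with
  | zero => exact integral_nonneg fun x => real_inner_self_nonneg
  | succ k ih =>
    exact add_nonneg (integral_nonneg fun x => real_inner_self_nonneg)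
      (Finset.sum_nonneg fun a _ => ih _)

theorem integrable_inner [T2Space M] [BorelSpace M] {u v : M → V} (hu : Continuous u)
    (hc : HasCompactSupport u) (hv : Continuous v) :
    Integrable (fun x => ⟪u x, v x⟫_ℝ) F.μ := by
  refine (hu.inner hv).integrable_of_hasCompactSupport ?_
  refine hc.mono fun x hx h => hx ?_
  simp [h]

theorem ip_add [T2Space M] [BorelSpace M] (k : ℕ) {u u' v : M → V} (hu : Sm I u)
    (hc : HasCompactSupport u) (hu' : Sm I u') (hc' : HasCompactSupport u') (hv : Sm I v) :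
    F.ip k (u + u') v = F.ip k u v + F.ip k u' v := by
  have h0 : ∀ {u u' v : M → V}, Sm I u → HasCompactSupport u → Sm I u' → HasCompactSupport u' →
      Sm I v → ∫ x, ⟪(u + u') x, v x⟫_ℝ ∂F.μ =
        ∫ x, ⟪u x, v x⟫_ℝ ∂F.μ + ∫ x, ⟪u' x, v x⟫_ℝ ∂F.μ := by
    intro u u' v hu hc hu' hc' hv
    rw [← integral_add (F.integrable_inner hu.continuous hc hv.continuous)
      (F.integrable_inner hu'.continuous hc' hv.continuous)]
    simp only [Pi.add_apply, inner_add_left]
  induction k generalizing u u' v with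
  | zero => exact h0 hu hc hu' hc' hv
  | succ k ih =>
    simp only [ip]
    rw [h0 hu hc hu' hc' hv]
    have : ∀ a, F.ip k (F.D a (u + u')) (F.D a v) =
        F.ip k (F.D a u) (F.D a v) + F.ip k (F.D a u') (F.D a v) := fun a => by
      rw [F.D_add hu hu', ih (F.sm_D hu a) (F.hcs_D hc a) (F.sm_D hu' a) (F.hcs_D hc' a)
        (F.sm_D hv a)]
    simp only [this, Finset.sum_add_distrib]; ring

theorem ip_smul (k : ℕ) {u : M → V} (hu : Sm I u) (r : ℝ) (v : M → V) :
    F.ip k (r • u) v = r * F.ip k u v := by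
  induction k generalizing u v with
  | zero => simp only [ip, Pi.smul_apply, real_inner_smul_left, integral_const_mul]
  | succ k ih =>
    simp only [ip, Pi.smul_apply, real_inner_smul_left, integral_const_mul, F.D_smul hu,
      fun a => ih (F.sm_D hu a) (F.D a v), ← Finset.mul_sum]
    ring

end Pre

variable (I) in
/-- smooth compactly supported sections of the bundle `p` -/
def Sec (p : M → V →L[ℝ] V) : Submodule ℝ (M → V) where
  carrier := {u | Sm I u ∧ HasCompactSupport u ∧ ∀ x, p x (u x) = u x}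
  add_mem' := fun {u v} hu hv => ⟨hu.1.add hv.1, hu.2.1.add hv.2.1, fun x => by
    simp only [Pi.add_apply, map_add, hu.2.2 x, hv.2.2 x]⟩
  zero_mem' := ⟨contMDiff_const, HasCompactSupport.zero, fun x => by simp⟩
  smul_mem' := fun r u hu => ⟨(contMDiff_const (I' := 𝓘(ℝ, ℝ)) (c := r)).smul hu.1,
    hu.2.1.mono fun x hx h => hx (by simp [h]), fun x => by
    simp only [Pi.smul_apply, map_smul, hu.2.2 x]⟩

/-- the trivial bundle -/
abbrev triv (M V : Type) [NormedAddCommGroup V] [InnerProductSpace ℝ V] : M → V →L[ℝ] V :=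
  fun _ => ContinuousLinearMap.id ℝ V

namespace Pre
variable (F : Pre I M ι)

/-- `Sec I p` with the `L²_k` seminorm -/
@[nolint unusedArguments]
def Sk (_F : Pre I M ι) (_k : ℕ) (p : M → V →L[ℝ] V) : Type := Sec I p

variable [T2Space M] [BorelSpace M] (k j : ℕ) (p : M → V →L[ℝ] V) (q : M → W →L[ℝ] W)
  (r : M → U →L[ℝ] U)

instance : AddCommGroup (F.Sk k p) := inferInstanceAs (AddCommGroup (Sec I p))
instance : Module ℝ (F.Sk k p) := inferInstanceAs (Module ℝ (Sec I p))

/-- the pre-Hilbert structure -/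
@[reducible] def core : PreInnerProductSpace.Core ℝ (F.Sk k p) where
  inner u v := F.ip k (show Sec I p from u).1 (show Sec I p from v).1
  conj_inner_symm u v := by simpa using F.ip_comm k _ _
  re_inner_nonneg u := by simpa using F.ip_nonneg k _
  add_left u v w := F.ip_add k (show Sec I p from u).2.1 (show Sec I p from u).2.2.1
    (show Sec I p from v).2.1 (show Sec I p from v).2.2.1 (show Sec I p from w).2.1
  smul_left u v r := F.ip_smul k (show Sec I p from u).2.1 r _

instance : SeminormedAddCommGroup (F.Sk k p) :=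
  @InnerProductSpace.Core.toSeminormedAddCommGroup ℝ _ _ _ _ (F.core k p)
instance : InnerProductSpace ℝ (F.Sk k p) := InnerProductSpace.ofCore (F.core k p)

/-- the Sobolev space `L²_k` of sections of `p` -/
def H : Type := UniformSpace.Completion (F.Sk k p)

instance : NormedAddCommGroup (F.H k p) :=
  inferInstanceAs (NormedAddCommGroup (UniformSpace.Completion (F.Sk k p)))
instance : InnerProductSpace ℝ (F.H k p) :=
  inferInstanceAs (InnerProductSpace ℝ (UniformSpace.Completion (F.Sk k p)))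
instance : CompleteSpace (F.H k p) :=
  inferInstanceAs (CompleteSpace (UniformSpace.Completion (F.Sk k p)))

/-- a smooth section as an element of `H` -/
def toH : Sec I p →ₗ[ℝ] F.H k p :=
  (UniformSpace.Completion.toComplL (𝕜 := ℝ) (E := F.Sk k p)).toLinearMap

theorem inner_toH (u v : Sec I p) : ⟪F.toH k p u, F.toH k p v⟫_ℝ = F.ip k u.1 v.1 :=
  UniformSpace.Completion.inner_coe (𝕜 := ℝ) (E := F.Sk k p) u v

theorem norm_toH (u : Sec I p) : ‖F.toH k p u‖ = F.nrm k u.1 := by
  rw [norm_eq_sqrt_real_inner, inner_toH, nrm]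

theorem dense_toH : DenseRange (F.toH k p) :=
  UniformSpace.Completion.denseRange_coe (α := F.Sk k p)

variable {k j p q r}

/-- `A` is the continuous extension of the map `T` of functions (two frames or two manifolds) -/
def RepT [T2Space M'] [BorelSpace M'] (F' : Pre I' M' ι') {q' : M' → W →L[ℝ] W}
    (A : F.H k p →L[ℝ] F'.H j q') (T : (M → V) → M' → W) : Prop :=
  ∀ u : Sec I p, ∃ v : Sec I' q', v.1 = T u.1 ∧ A (F.toH k p u) = F'.toH j q' v

/-- the same on one manifold with one frame -/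
abbrev Rep (A : F.H k p →L[ℝ] F.H j q) (T : (M → V) → M → W) : Prop := F.RepT F A T

/-- bilinear version -/
def Rep₂ {l : ℕ} (A : F.H k p →L[ℝ] F.H j q →L[ℝ] F.H l r) (T : (M → V) → (M → W) → M → U) :
    Prop :=
  ∀ (u : Sec I p) (v : Sec I q), ∃ w : Sec I r, w.1 = T u.1 v.1 ∧
    A (F.toH k p u) (F.toH j q v) = F.toH l r w

variable (k j p q r)

open Classical in
/-- the continuous extension of `T` (zero if there is none) -/
def liftT [T2Space M'] [BorelSpace M'] (F' : Pre I' M' ι') (q' : M' → W →L[ℝ] W)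
    (T : (M → V) → M' → W) : F.H k p →L[ℝ] F'.H j q' :=
  if h : ∃ A : F.H k p →L[ℝ] F'.H j q', F.RepT F' A T then h.choose else 0

/-- the same on one manifold with one frame -/
abbrev lift (T : (M → V) → M → W) : F.H k p →L[ℝ] F.H j q := F.liftT k j p F q T

open Classical in
/-- the continuous extension of a bilinear `T` (zero if there is none) -/
def lift₂ (l : ℕ) (T : (M → V) → (M → W) → M → U) : F.H k p →L[ℝ] F.H j q →L[ℝ] F.H l r :=
  if h : ∃ A : F.H k p →L[ℝ] F.H j q →L[ℝ] F.H l r, F.Rep₂ A T then h.choose else 0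

/-- inclusion `H k → H j`, `j ≤ k` -/
def incl : F.H k p →L[ℝ] F.H j p := F.lift k j p p id

/-- multiplication by a coefficient field -/
def mulH (f : M → V →L[ℝ] W) : F.H k p →L[ℝ] F.H k q := F.lift k k p q fun u x => f x (u x)

/-- pointwise bilinear products -/
def bilH (l : ℕ) (β : M → V →L[ℝ] W →L[ℝ] U) : F.H k p →L[ℝ] F.H j q →L[ℝ] F.H l r :=
  F.lift₂ k j p q r l fun u v x => β x (u x) (v x)

/-- first order operator with symbol `σ` and zero order part `B` -/
def op (σ : ι → M → V →L[ℝ] W) (B : M → V →L[ℝ] W) (u : M → V) : M → W :=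
  fun x => ∑ a, σ a x (F.D a u x) + B x (u x)

/-- its extension `H (k+1) → H k` -/
def opH (σ : ι → M → V →L[ℝ] W) (B : M → V →L[ℝ] W) : F.H (k + 1) p →L[ℝ] F.H k q :=
  F.lift (k + 1) k p q (F.op σ B)

open Classical in
/-- the class in `L²` -/
def toL2 : F.H k p →L[ℝ] Lp V 2 F.μ :=
  if h : ∃ A : F.H k p →L[ℝ] Lp V 2 F.μ, ∀ u : Sec I p, A (F.toH k p u) =ᵐ[F.μ] u.1
  then h.choose else 0

open Classical in
/-- evaluation at a point (`k ≥ 4`) -/
def ev (x : M) : F.H k p →L[ℝ] V :=
  if h : ∃ A : F.H k p →L[ℝ] V, ∀ u : Sec I p, A (F.toH k p u) = u.1 x then h.choose else 0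

/-- the continuous representative (`k ≥ 4`) -/
def val (h : F.H k p) : M → V := fun x => F.ev k p x h

section api
variable {F k j p q r} [T2Space M'] [BorelSpace M'] {F' : Pre I' M' ι'} {q' : M' → W →L[ℝ] W}

theorem clm_ext {X : Type*} [NormedAddCommGroup X] [NormedSpace ℝ X] {A B : F.H k p →L[ℝ] X}
    (h : ∀ u, A (F.toH k p u) = B (F.toH k p u)) : A = B :=
  ContinuousLinearMap.ext fun x => congrFun
    ((F.dense_toH k p).equalizer A.continuous B.continuous (funext h)) x

theorem RepT.unique {A B : F.H k p →L[ℝ] F'.H j q'} {T : (M → V) → M' → W}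
    (hA : F.RepT F' A T) (hB : F.RepT F' B T) : A = B := by
  refine clm_ext fun u => ?_
  obtain ⟨v, hv, h1⟩ := hA u
  obtain ⟨w, hw, h2⟩ := hB u
  rw [h1, h2, Subtype.ext (hv.trans hw.symm)]

theorem RepT.liftT_eq {A : F.H k p →L[ℝ] F'.H j q'} {T : (M → V) → M' → W}
    (hA : F.RepT F' A T) : F.liftT k j p F' q' T = A := by
  have h : ∃ A : F.H k p →L[ℝ] F'.H j q', F.RepT F' A T := ⟨A, hA⟩
  rw [liftT, dif_pos h]; exact h.choose_spec.unique hA

/-- a bounded linear map on smooth sections extends -/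
theorem exists_ext {X : Type*} [NormedAddCommGroup X] [NormedSpace ℝ X] [CompleteSpace X]
    (L : Sec I p →ₗ[ℝ] X) {C : ℝ} (hC : 0 ≤ C) (hb : ∀ u, ‖L u‖ ≤ C * F.nrm k u.1) :
    ∃ A : F.H k p →L[ℝ] X, (∀ u, A (F.toH k p u) = L u) ∧ ‖A‖ ≤ C := by
  have hb' : ∀ u, ‖L u‖ ≤ C * ‖F.toH k p u‖ := fun u => by rw [norm_toH]; exact hb u
  refine ⟨L.extendOfNorm (F.toH k p), fun u => ?_, ?_⟩
  · exact LinearMap.extendOfNorm_eq (F.dense_toH k p) ⟨C, hb'⟩ u
  · exact LinearMap.opNorm_extendOfNorm_le (F.dense_toH k p) hC hb'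

/-- the standard way to use `liftT`, `lift`, `incl`, `mulH`, `opH` -/
theorem repT_liftT {T : (M → V) → M' → W} (L : Sec I p →ₗ[ℝ] Sec I' q')
    (hL : ∀ u, (L u).1 = T u.1) {C : ℝ} (hC : 0 ≤ C)
    (hb : ∀ u : Sec I p, F'.nrm j (T u.1) ≤ C * F.nrm k u.1) :
    F.RepT F' (F.liftT k j p F' q' T) T ∧ ‖F.liftT k j p F' q' T‖ ≤ C := by
  obtain ⟨A, hA, hn⟩ := exists_ext (F := F) (k := k) (F'.toH j q' ∘ₗ L) hC fun u => by
    rw [LinearMap.comp_apply, norm_toH, hL]; exact hb u
  have h : F.RepT F' A T := fun u => ⟨L u, hL u, hA u⟩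
  rw [h.liftT_eq]; exact ⟨h, hn⟩

end api

end Pre

variable (I M ι) in
/-- frame and measure with the projector `P a b = ⟪e a, e b⟫`, the brackets and the divergences -/
structure Fr extends Pre I M ι where
  P : ι → ι → M → ℝ
  c : ι → ι → ι → M → ℝ
  dv : ι → M → ℝ
  P_sm : ∀ a b, Sm I (P a b)
  c_sm : ∀ a b l, Sm I (c a b l)
  dv_sm : ∀ a, Sm I (dv a)
  P_symm : ∀ a b x, P a b x = P b a x
  P_e : ∀ a x, ∑ b, P a b x • e b x = e a x
  P_ker : ∀ x (ξ : ι → ℝ), ∑ b, ξ b • e b x = 0 → ∀ a, ∑ b, P a b x * ξ b = 0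
  c_P : ∀ a b l x, ∑ m, P l m x * c a b m x = c a b l x
  br : ∀ a b (f : M → ℝ) x, ContMDiffAt I 𝓘(ℝ, ℝ) 2 f x →
    toPre.D a (toPre.D b f) x - toPre.D b (toPre.D a f) x = ∑ l, c a b l x * toPre.D l f x
  ibp : ∀ a (f : M → ℝ), Sm I f → HasCompactSupport f →
    ∫ x, toPre.D a f x ∂μ = -∫ x, dv a x * f x ∂μ

/-- bounded geometry with the constants `C` -/
structure Fr.Tame (F : Fr I M ι) (C : ℕ → ℝ) : Prop where
  P : ∀ a b, F.CBs (F.P a b) C
  c : ∀ a b l, F.CBs (F.c a b l) C
  dv : ∀ a, F.CBs (F.dv a) C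
  l4 : ∀ f : M → ℝ, Sm I f → HasCompactSupport f → √(∫ x, f x ^ 4 ∂F.μ) ≤ C 0 * F.ip 1 f f
  sup : ∀ f : M → ℝ, Sm I f → HasCompactSupport f → ∀ x, f x ^ 2 ≤ C 0 * F.ip 4 f f
  exh : ∀ K : Set M, IsCompact K → ∃ χ : M → ℝ, F.CBs χ C ∧ HasCompactSupport χ ∧
    (∀ x, 0 ≤ χ x ∧ χ x ≤ 1) ∧ ∀ x ∈ K, χ x = 1

/-- an orthogonal projector field with the bounds `C` -/
structure Pre.IsProj (F : Pre I M ι) (p : M → V →L[ℝ] V) (C : ℕ → ℝ) : Prop where
  cb : F.CBs p C
  idem : ∀ x v, p x (p x v) = p x v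
  symm : ∀ x v w, ⟪p x v, w⟫_ℝ = ⟪v, p x w⟫_ℝ

variable (M ι V W) in
/-- a first order operator from the bundle `p` to the bundle `q` -/
structure Op where
  p : M → V →L[ℝ] V
  q : M → W →L[ℝ] W
  σ : ι → M → V →L[ℝ] W
  B : M → V →L[ℝ] W

namespace Op
variable (F : Fr I M ι) (A : Op M ι V W)

/-- bounds and compatibility with the projectors -/
structure Good (C : ℕ → ℝ) : Prop where
  p : F.IsProj A.p C
  q : F.IsProj A.q C
  σ : ∀ a, F.CBs (A.σ a) C
  B : F.CBs A.B C
  σp : ∀ a x v, A.σ a x (A.p x v) = A.σ a x v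
  qσ : ∀ a x v, A.q x (A.σ a x v) = A.σ a x v
  qB : ∀ x v, A.q x (A.B x v) = A.B x v
  Pσ : ∀ a x, ∑ b, F.P a b x • A.σ b x = A.σ a x

/-- the symbol is a conformal injection: `σ(ξ)* σ(ξ) = |ξ|²` on `p` -/
def CliffL : Prop := ∀ a b x v w,
  ⟪A.σ a x v, A.σ b x w⟫_ℝ + ⟪A.σ b x v, A.σ a x w⟫_ℝ = 2 * F.P a b x * ⟪A.p x v, w⟫_ℝ

/-- action on functions -/
def app (u : M → V) : M → W := F.op A.σ A.B u

/-- action on Sobolev spaces -/
def H [T2Space M] [BorelSpace M] (k : ℕ) : F.H (k + 1) A.p →L[ℝ] F.H k A.q :=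
  F.opH k A.p A.q A.σ A.B

variable [FiniteDimensional ℝ V] [FiniteDimensional ℝ W]

/-- transpose -/
def tr (L : V →L[ℝ] W) : W →L[ℝ] V := (LinearMap.adjoint (L : V →ₗ[ℝ] W)).toContinuousLinearMap

/-- the formal adjoint -/
def adj : Op M ι W V where
  p := A.q
  q := A.p
  σ a x := -tr (A.σ a x)
  B x := A.p x ∘L (tr (A.B x) -
    ∑ a, (F.D a (fun y => tr (A.σ a y)) x + F.dv a x • tr (A.σ a x)))

/-- Dirac type -/
def Cliff : Prop := A.CliffL F ∧ (A.adj F).CliffL F

end Op

/-- a partial diffeomorphism preserving frames and measures (cut and paste) -/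
structure Iso (F : Pre I M ι) (F' : Pre I' M' ι) (φ : OpenPartialHomeomorph M M') : Prop where
  sm : ContMDiffOn I I' ∞ φ φ.source
  sm' : ContMDiffOn I' I ∞ φ.symm φ.target
  e : ∀ a, ∀ x ∈ φ.source, mfderiv I I' φ x (F.e a x) = F'.e a (φ x)
  μ : (F.μ.restrict φ.source).map φ = F'.μ.restrict φ.target

/-- transport of functions, extended by zero -/
def pull (φ : OpenPartialHomeomorph M M') (u : M' → N) : M → N := φ.source.indicator (u ∘ φ)

end Crest.Agent.X212.An
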