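import Crest.Agent.X212.An.Syn
import Crest.Agent.X212.An.Gsm
import Crest.Agent.X212.M.Lit
import Crest.Agent.X212.M.Rel
import Crest.Agent.X212.Nd18.Props
import Crest.Agent.X212.Cmp73.Cv
import Crest.Agent.X212.Cnt93.Main

/-!
# Row 212, layer AN: jobs

A `Job` is a family of perturbed monopole problems over a cube complex of parameters on a world.
`Obc c` are the (ideal, broken) objects on `Z c`, `Sol` the equations, `Str` strong convergence,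
`Dg` degeneration to a face, `z` and `zf` the counts.
-/

set_option autoImplicit false
set_option linter.unusedSectionVars false
noncomputable section
open scoped Manifold ContDiff Topology InnerProductSpace
open MeasureTheory Set Function Filter

namespace Crest.Agent.X212.An
open M Nd18 Wrd81 Cmp73

/-! ### perturbations and local convergence -/

section gen
variable {E : Type} [NormedAddCommGroup E] [NormedSpace ℝ E] [FiniteDimensional ℝ E]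
  [MeasurableSpace E] [BorelSpace E]
  {HM : Type} [TopologicalSpace HM] {I : ModelWithCorners ℝ E HM}
  {M : Type} [TopologicalSpace M] [ChartedSpace HM M] [IsManifold I ∞ M]
  [MeasurableSpace M] {ι : Type} [Fintype ι] {lam : Type} [Fintype lam] {r n : ℕ}

/-- real multiples -/
def Pt.smul (a : ℝ) (τ : Pt M ι lam r n) : Pt M ι lam r n where
  D c x := a • τ.D c x
  C c x := a • τ.C c x
  S c i := (a : ℂ) * τ.S c i

open Classical in
/-- the sum of the terms `τ i h` over the indices with `p i` -/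
def Pt.dsum {K : Type} [Fintype K] (p : K → Prop) (τ : ∀ i, p i → Pt M ι lam r n) :
    Pt M ι lam r n where
  D c x := ∑ i, if h : p i then (τ i h).D c x else 0
  C c x := ∑ i, if h : p i then (τ i h).C c x else 0
  S c j := ∑ i, if h : p i then (τ i h).S c j else 0

/-- one term -/
def tmP (B : Base M ι lam) (F : Fr I M ι) (T : Tm M lam r n) : Pt M ι lam r n :=
  ⟨fun c => c.tD B F T, fun c => c.tC B F T, fun c => c.tS F T⟩

variable (I) in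
/-- smooth convergence on `O` in the gauges `u i` with the phases `ζ i`; `e i` is the frame of the
connection of `c i` -/
structure ULim (B : Base M ι lam) {α : Type} (l : Filter α) (O : Set M)
    (e : α → ι → Π x : M, TangentSpace I x) (c : α → Cfg M ι lam r) (c₀ : Cfg M ι lam r)
    (u : ∀ i, M → CL (c i).m.V c₀.m.V) (ζ : α → Circle) : Prop where
  m : ∀ x ∈ O, ∃ N, IsOpen N ∧ x ∈ N ∧
    ∀ᶠ i in l, MEq I (c i).m c₀.m N id (fun x b a => B.P b a x) B.l (u i)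
  A : ∀ a, Cv I l O (fun i x => (Sob92.dv I (e i a) (u i) x + c₀.W a x ∘L u i x -
    u i x ∘L (c i).W a x) ∘L trn (u i x)) 0
  Φ : Cv I l O (fun i x => cs c₀.m.J (ζ i) (u i x ((c i).Φ x))) c₀.Φ
  z : Tendsto (fun i => ((ζ i : ℂ) ^ 2) • (c i).z) l (𝓝 c₀.z)

/-- convergence of the fields of a cut -/
def CLim {α : Type} (l : Filter α) {N : α → ℕ} {N₀ : ℕ} (J : En (Fin N₀))
    (u : ∀ i, CL (Eu (Fin (N i))) (Eu (Fin N₀))) (ψ : ∀ i, L2c (Fin (N i))) (ψ₀ : L2c (Fin N₀)) :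
    Prop :=
  ∃ η : α → Circle, Tendsto (fun i => (csE J (η i) ∘L u i).compLpL 2 μc (ψ i)) l (𝓝 ψ₀)

end gen

/-! ### cross-sections and necks -/

/-- a cross-section with its neck terms -/
structure Xs (Wi κ lam : Type) [Fintype κ] : Type 1 where
  Y : Mf 3
  [cpt : CompactSpace Y.M]
  C : Cy Y κ lam
  N : ND Y.M (lam ⊕ lam)
  ty : Wi → YW Y.I Y.M →₀ ℝ

attribute [instance] Xs.cpt

variable {Wi : Type} {X : Mf 4} {A κ lam : Type} [Fintype A] [Fintype κ] [Fintype lam]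
  [DecidableEq lam] {M : Mark X A κ} {W : World M} {N : ML M lam}

/-- the background -/
abbrev Xs.D (S : Xs Wi κ lam) : YD S.Y.I S.Y.M κ (lam ⊕ lam) := S.C.yd

/-- the coefficients of the neck terms -/
def Xs.q (S : Xs Wi κ lam) (q : Wi →₀ ℝ) : YW S.Y.I S.Y.M →₀ ℝ := q.sum fun w a => a • S.ty w

/-- the broken cylindrical walls -/
def cylW (c : M.Cl) : Set A := {a | a ∈ c.1 ∧ ¬M.pin a}

/-- the necks of `Z c` at `p`: `none` = finite neck, `some b` = the end on the side `b` -/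
def Act (m c : M.Cl) (a : A) (b : Option Bool) (p : Prm A) : Prop :=
  ¬M.pin a ∧ p ∈ M.Br c.1 ∧ p ∈ M.O c.1 ∧
    b.elim (a ∈ m.1 ∧ a ∈ M.sys.fr c.1 ∧ 1 / 2 ≤ p.2 a) fun _ => a ∈ c.1

/-- the neck is the band of `a` in the arc length parameter -/
structure IsNk {Λ : Lns W N} {m c : M.Cl} {p : Prm A} (a : A) (b : Option Bool) {S : Xs Wi κ lam}
    (g : S.Y.M → (M.bn a).Y.M) (K : Nk S.D (Λ.B m c) (Λ.G m c p)) : Prop where
  lo : K.p = if b = some true then none else some 0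
  hi : K.q = b.elim (some (nl (p.2 a))) fun b => if b then some 0 else none
  ψ : ∀ y s, (if b = some true then 0 else -1) < s → s < (if b = some false then 0 else 1) →
    K.ψ (y, len (p.2 a) (b.getD false) s) = W.nj c a (g y, s)

/-! ### jobs -/

/-- cells: `none` = free coordinate, `some b` = fixed at `0` or `1` -/
abbrev Cel (A' : Type) : Type := A' → Option Bool

/-- the end points -/
def b01 (b : Bool) : ℝ := if b then 1 else 0

variable (Wi) in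
/-- the data of a job -/
structure Job (Λ : Lns W N) (A' h : Type) (r n : ℕ) : Type 1 where
  m : M.Cl
  𝒦 : Set (Cel A')
  hd : A' → Option A
  Θ : (A' → ℝ) → Prm A
  k : ℝ
  tw : Wi → Tm X.M (lam ⊕ lam) r n
  co : Wi → (A' → ℝ) → ℝ
  ct : h → Cut X.M (lam ⊕ lam)
  nb : h → Set X.M
  tc : h → Wi → Tc X.M (lam ⊕ lam) r
  cc : h → Wi → (A' → ℝ) → ℝ
  xs : A → Xs Wi κ lam
  g : ∀ a, (xs a).Y.M ≃ₘ^∞⟮(xs a).Y.I, (M.bn a).Y.I⟯ (M.bn a).Y.M
  ν : A → (A' → ℝ) → ℝ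
  K : ∀ c a b p, Act m c a b p → Nk (xs a).D (Λ.B m c) (Λ.G m c p)

namespace Job
variable {Λ : Lns W N} {A' h : Type} [Fintype A'] [DecidableEq A'] [Fintype h] {r n : ℕ}
  (J : Job Wi Λ A' h r n)

/-- walls of a cell: free hard coordinates -/
def wa (σ : Cel A') : Finset A' := {a | σ a = none ∧ (J.hd a).isSome}

/-- facets of a cell -/
def wb (σ : Cel A') : Finset (A' × Bool) := {b | σ b.1 = none ∧ (b.2 → (J.hd b.1).isNone)}

/-- the facet -/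
def fc (σ : Cel A') (b : A' × Bool) : Cel A' := update σ b.1 (some b.2)

/-- the dimension of a cell -/
def dim (σ : Cel A') : ℕ := Finset.card {a | σ a = none}

/-- the affine span of a cell -/
def sp (σ : Cel A') : Set (A' → ℝ) := {s | ∀ a b, σ a = some b → s a = b01 b}

/-- the closed cell -/
def cl (σ : Cel A') : Set (A' → ℝ) := {s | s ∈ sp σ ∧ ∀ a, s a ∈ Icc (0 : ℝ) 1}

/-- the domain of the family -/
def dom (σ : Cel A') : Set (A' → ℝ) := {s | s ∈ sp σ ∧ ∀ a, (J.hd a).isSome → s a ≤ 1}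

/-- the broken set of the face `a` -/
def cf (a : A') : M.Cl := ⟨{x | J.hd a = some x}, fun x hx y hy hn =>
  (hn (Option.some.inj ((show J.hd a = some x from hx).symm.trans hy))).elim⟩

abbrev B (c : M.Cl) : Base (W.Z c).M (Option κ) (lam ⊕ lam) := Λ.B J.m c
abbrev G (c : M.Cl) (s : A' → ℝ) : Geo (W.Z c).I (W.Z c).M (Option κ) (lam ⊕ lam) :=
  Λ.G J.m c (J.Θ s)

/-- transport of data from `X` to `Z c` -/
def tp (c : M.Cl) : Tp X.M (W.Z c).M (lam ⊕ lam) (lam ⊕ lam) :=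
  Tp.of (W.φ c).toPartialEquiv fun x => Line51.rl (Λ.v J.m c x)

/-- the active necks -/
abbrev Ac (c : M.Cl) (s : A' → ℝ) (i : A × Option Bool) : Prop := Act J.m c i.1 i.2 (J.Θ s)

/-- the gradient terms of the necks -/
def τ0 (c : M.Cl) (s : A' → ℝ) : Pt (W.Z c).M (Option κ) (lam ⊕ lam) r n :=
  Pt.dsum (J.Ac c s) fun i hi => ((J.xs i.1).N.smul (J.ν i.1 s)).q1 (J.K c i.1 i.2 _ hi)

/-- the term with index `w` -/
def τw (c : M.Cl) (s : A' → ℝ) (w : Wi) : Pt (W.Z c).M (Option κ) (lam ⊕ lam) r n :=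
  ((tmP (J.B c) (J.G c s).F ((J.tp c).tm (J.tw w))).smul (J.co w s)).add
    (Pt.dsum (J.Ac c s) fun i hi =>
      fsum (fun T => (J.xs i.1).N.q2 (J.K c i.1 i.2 _ hi) T.1) (J.ν i.1 s • (J.xs i.1).ty w))

/-- the perturbation -/
def τ (c : M.Cl) (q : Wi →₀ ℝ) (s : A' → ℝ) : Pt (W.Z c).M (Option κ) (lam ⊕ lam) r n :=
  (J.τ0 c s).add (fsum (J.τw c s) q)

/-- the cuts on `Z c` -/
abbrev cut (c : M.Cl) (i : h) : Cut (W.Z c).M (lam ⊕ lam) := (J.tp c).cut (J.ct i)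

/-- the perturbation of the row of a cut -/
def σc (c : M.Cl) (q : Wi →₀ ℝ) (s : A' → ℝ) (i : h) : Pc r (J.B c) (J.cut c i) := fun x =>
  q.sum fun w a => (a * J.cc i w s) • x.tc (J.B c) (J.G c s).F (J.cut c i) ((J.tp c).tc (J.tc i w))

/-- the walls that can break -/
def hw : Set A := {x | ∃ a, J.hd a = some x}

/-- the cuts that are not crossed by a broken wall -/
def unc (c : M.Cl) : Set h := {i | Disjoint (J.nb i) (M.sys.cores c.1)}

structure OK : Prop where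
  down : ∀ σ ∈ J.𝒦, ∀ b ∈ J.wb σ, fc σ b ∈ J.𝒦
  soft : ∀ σ ∈ J.𝒦, ∀ a, σ a = some true → J.hd a = none
  inj : ∀ a a' x, J.hd a = some x → J.hd a' = some x → a = a'
  sm : ContDiff ℝ ∞ J.Θ
  par : ∀ σ ∈ J.𝒦, ∀ s ∈ J.dom σ, (J.Θ s).2 ∈ M.sys.Par
  inf : ∀ σ ∈ J.𝒦, ∀ s ∈ J.dom σ, ∀ x, (J.Θ s).2 x = 1 → ∃ a, J.hd a = some x ∧ s a = 1
  lin : ∃ s₀ < (1 : ℝ), ∀ a x, J.hd a = some x → ∀ s, s₀ ≤ s a →
    (J.Θ s).2 x = s a ∧ (¬M.pin x → J.ν x s = 1)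
  mem : ∀ a x, J.hd a = some x → ¬M.pin x → x ∈ J.m.1
  tw : ∀ w, ∃ V : Set A, TmIn X.I (M.sys.cores (J.hw \ V))ᶜ (J.tw w) ∧ ∃ s₀ < (1 : ℝ),
    ∀ σ ∈ J.𝒦, ∀ s ∈ J.dom σ, ∀ a x, J.hd a = some x → x ∈ V → s₀ ≤ s a → J.co w s = 0
  co : ∀ w, ContDiff ℝ ∞ (J.co w)
  nb : ∀ i, IsOpen (J.nb i) ∧ CutIn X.I (J.nb i) (J.ct i)
  dj : Pairwise (Disjoint on J.nb)
  ct : ∀ σ ∈ J.𝒦, ∀ s ∈ J.dom σ, ∀ c : M.Cl, Sys.inf (J.Θ s).2 = c.1 → ∀ i ∈ J.unc c,
    (J.cut c i).OK (J.B c) (J.G c s).F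
  tc : ∀ i w, ∃ V : Set A, XiIn X.I (M.sys.cores (J.hw \ V))ᶜ (J.tc i w).ξ ∧ ∃ s₀ < (1 : ℝ),
    ∀ σ ∈ J.𝒦, ∀ s ∈ J.dom σ, ∀ a x, J.hd a = some x → x ∈ V → s₀ ≤ s a → J.cc i w s = 0
  cc : ∀ i w, ContDiff ℝ ∞ (J.cc i w)
  xs : ∀ a, (J.xs a).C.OK ∧ (J.xs a).N.OK (J.xs a).D
  iso : ∀ a, ¬M.pin a → Cy.Iso (J.xs a).C (N.cy a) (J.g a)
  ν : ∀ a, ContDiff ℝ ∞ (J.ν a)
  ν0 : ∀ a s, J.ν a s ≠ 0 → a ∈ J.m.1 ∧ 3 / 4 ≤ (J.Θ s).2 a
  nk : ∀ c a b p ha, IsNk a b (J.g a) (J.K c a b p ha)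

/-! ### objects -/

/-- objects on `Z c`: parameter, configuration, kept cuts and their fields, limits at the ends,
levels and lengths of the chains, number of bubbles -/
structure Obc (c : M.Cl) where
  s : A' → ℝ
  x : Cfg (W.Z c).M (Option κ) (lam ⊕ lam) r
  H : Set h
  ψ : ∀ i, (J.cut c i).H (J.B c) x.m
  β : ∀ a, Bool → YC (J.xs a).Y.M κ (lam ⊕ lam)
  ζ : A → Bool → Circle
  k : A → ℝ
  j : A → ℕ
  l : ℕ

/-- all objects -/
abbrev Ob : Type := Σ c, J.Obc c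

variable {J} {c : M.Cl}

/-- the density of the level -/
abbrev Obc.kd (y : J.Obc c) : (W.Z c).M → ℝ := y.x.m.kd (J.B c) (J.G c y.s).F y.x.W

/-- the level of the part over `O` -/
def Obc.kap (y : J.Obc c) (O : Set (W.Z c).M) : ℝ := ∫ x in O, y.kd x ∂(J.G c y.s).F.μ

/-- the lost energy -/
def Obc.en (y : J.Obc c) : ℝ := y.l + ∑ a, (cylW c).indicator (fun a => y.k a +
  ((J.xs a).N.lv (J.xs a).D (y.β a false) - (J.xs a).N.lv (J.xs a).D (y.β a true)) /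
    (8 * Real.pi ^ 2)) a

/-- no bubbles and no chains -/
def Obc.Tight (y : J.Obc c) : Prop := y.l = 0 ∧ ∀ a ∈ cylW c, y.j a = 0

/-- solutions over the closed cell `σ` -/
structure Sol (σ : Cel A') (q : Wi →₀ ℝ) (y : J.Obc c) : Prop where
  cell : y.s ∈ cl σ
  inf : Sys.inf (J.Θ y.s).2 = c.1
  sol : y.x.Sol (J.B c) (J.G c y.s) (J.τ c q y.s)
  sub : y.H ⊆ J.unc c
  cut : ∀ i ∈ y.H, (J.cut c i).Sol (J.B c) (J.G c y.s).F (J.σc c q y.s i) y.x (y.ψ i)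
  drop : (J.unc c \ y.H).ncard ≤ y.l
  lim : ∀ a b (ha : Act J.m c a (some b) (J.Θ y.s)),
    (J.K c a _ _ ha).Lim y.x (y.β a b) (y.ζ a b) (bif b then atBot else atTop)
  crit : ∀ a ∈ cylW c, ∀ b, (J.xs a).N.Crit (J.xs a).D (y.β a b)
  brk : ∀ a ∈ cylW c, (J.xs a).N.Brk (J.xs a).D ((J.xs a).q q) (y.β a false) (y.ζ a false)
    (y.β a true) (y.ζ a true) (y.k a) (y.j a)
  int : Integrable y.kd (J.G c y.s).F.μ
  lev : y.x.kap (J.B c) (J.G c y.s) + ∑ a, (cylW c).indicator y.k a + y.l = J.k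

/-- the configuration with the fields of the uncrossed cuts -/
abbrev Obc.cfg (y : J.Obc c) : CfgC (fun i : J.unc c => J.cut c i) (J.B c) r :=
  ⟨y.x, fun i => y.ψ i⟩

/-- isomorphism (used for tight objects) -/
def Iso (y y' : J.Obc c) : Prop := y.s = y'.s ∧ IsoC _ (J.B c) (J.G c y.s).F y.cfg y'.cfg

/-- the frames of `Z c` -/
abbrev fr (J : Job Wi Λ A' h r n) (c : M.Cl) (s : A' → ℝ) := (W.L J.m c).e (J.Θ s)

/-- strong convergence on `Z c` -/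
structure Str {α : Type} (l : Filter α) (y : α → J.Obc c) (y₀ : J.Obc c) : Prop where
  s : Tendsto (fun i => (y i).s) l (𝓝 y₀.s)
  lim : ∃ u ζ, ULim (W.Z c).I (J.B c) l univ (fun i => J.fr c (y i).s) (fun i => (y i).x) y₀.x u ζ ∧
    ∀ k ∈ y₀.H, CLim l y₀.x.m.J (fun i => u i (J.cut c k).x0) (fun i => (y i).ψ k) (y₀.ψ k)
  tail : ∀ a b, ∀ η > 0, ∃ T, ∀ᶠ i in l, ∀ ha : Act J.m c a (some b) (J.Θ (y i).s), ∀ t,
    T ≤ -pm b * t → (J.K c a _ _ ha).Near (y i).x t (y₀.β a b) η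
  dis : ∀ᶠ i in l, (y i).H = y₀.H ∧ (y i).l = y₀.l ∧ ∀ a ∈ cylW c, ((y i).j a = 0 ↔ y₀.j a = 0)
  k : ∀ a ∈ cylW c, Tendsto (fun i => (y i).k a) l (𝓝 (y₀.k a))
  en : Tendsto (fun i => (y i).en) l (𝓝 y₀.en)
  kap : ∀ π, M.sys.Piece c.1 π → Tendsto (fun i => (y i).kap (W.pc c π)) l (𝓝 (y₀.kap (W.pc c π)))

/-- the inclusion of `Z c` into the unbroken manifold (for cylindrical walls) -/
def up (c : M.Cl) (z : (W.Z c).M) : (W.Z M.c0).M := W.φ M.c0 ((W.φ c).toPartialEquiv.symm z)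

/-- the frames of the unbroken manifold seen on `Z c` -/
abbrev fu (J : Job Wi Λ A' h r n) (c : M.Cl) (s : A' → ℝ) (a : Option κ) :=
  Met55.pbv (W.Z c).I (W.Z M.c0).I (up c) (J.fr M.c0 s a)

/-- degeneration of unbroken objects without loss of energy -/
structure Dg {α : Type} (l : Filter α) (y : α → J.Obc M.c0) (y₀ : J.Obc c) : Prop where
  s : Tendsto (fun i => (y i).s) l (𝓝 y₀.s)
  lim : ∃ u ζ, ULim (W.Z c).I (J.B c) l univ (fun i => J.fu c (y i).s)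
      (fun i => pb (up c) (y i).x) y₀.x u ζ ∧
    ∀ k ∈ y₀.H, CLim (N := fun i => (y i).x.m.N) l y₀.x.m.J (fun i => u i (J.cut c k).x0)
      (fun i => (y i).ψ k) (y₀.ψ k)
  tight : ∀ᶠ i in l, (y i).l = 0
  neck : ∀ a ∈ cylW c, ∀ η > 0, ∃ T, ∀ᶠ i in l, ∃ ha : Act J.m M.c0 a none (J.Θ (y i).s),
    ∀ t ∈ Icc T (nl ((J.Θ (y i).s).2 a) - T), (J.K _ a _ _ ha).Near (y i).x t (y₀.β a false) η

/-! ### counts -/

variable (J)

/-- tight solutions on `Z c` -/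
abbrev TS (σ : Cel A') (q : Wi →₀ ℝ) (c : M.Cl) : Type := {y : J.Obc c // Sol σ q y ∧ y.Tight}

/-- the number of classes of tight solutions on `Z c` -/
def zc (q : Wi →₀ ℝ) (σ : Cel A') (c : M.Cl) : ℕ :=
  Nat.card (Quot fun y y' : J.TS σ q c => Iso y.1 y'.1)

/-- the count of a cell -/
abbrev z (q : Wi →₀ ℝ) (σ : Cel A') : ℕ := J.zc q σ M.c0

/-- the count of the face `a` of a cell -/
abbrev zf (q : Wi →₀ ℝ) (σ : Cel A') (a : A') : ℕ := J.zc q σ (J.cf a)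

/-- LEAF COMP (73: bubbles, pinches; 64/89: necks; 66/14: cuts, integrality) -/
def Comp (Adm : (Wi →₀ ℝ) → Prop) : Prop :=
  ∀ σ ∈ J.𝒦, ∀ q₀, Adm q₀ → ∀ (α : Type) (𝒰 : Ultrafilter α) (q : α → Wi →₀ ℝ) (c : M.Cl)
    (y : α → J.Obc c), St.Cv (𝒰 : Filter α) q q₀ →
    (∀ᶠ i in (𝒰 : Filter α), Adm (q i) ∧ Sol σ (q i) (y i)) →
    (∃ y₀ : J.Obc c, Sol σ q₀ y₀ ∧ (Str 𝒰 y y₀ ∨
      ¬y₀.Tight ∧ ∃ ε > 0, ∀ᶠ i in (𝒰 : Filter α), (y i).en + ε ≤ y₀.en)) ∨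
    ∃ (c₀ : M.Cl) (y₀ : J.Obc c₀), c.1 ⊂ c₀.1 ∧ Sol σ q₀ y₀ ∧
      ∀ e : c = M.c0, c₀.1.Subsingleton → c₀.1 ⊆ cylW c₀ → y₀.Tight →
        Dg 𝒰 (fun i => e ▸ y i) y₀

end Job
end Crest.Agent.X212.An
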