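import Crest.Agent.X212.An.Defs
import Crest.Agent.X212.Wz78.Core
import Crest.Agent.X212.Wrd81.Word

/-!
# Row 212, layer AN: the format of the gauge theory

An object is a spin^u module with determinant line `Λ`: a Clifford module `V = V⁺ ⊕ V⁻` of real
rank 16 with a complex structure `J` and antilinear maps `j s`, `s ∈ Λ`.  Pointwise
`V = (ℍ ⊕ ℍ) ⊗ ℂ`; the bundle `g` is the skew commutant of `ρ, J, j`.
-/

set_option autoImplicit false
set_option linter.unusedSectionVars false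
noncomputable section
open scoped Manifold ContDiff Topology InnerProductSpace
open MeasureTheory Set Function

namespace Crest.Agent.X212.An
open Wz78 (nab curv dir lap Pr Cl Con CC)
open Wrd81 (wd)

/-! ### linear algebra -/

abbrev Eu (κ : Type) : Type := EuclideanSpace ℝ κ
/-- continuous linear maps, with the instances of normed spaces (use it for Euclidean spaces) -/
abbrev CL (V W : Type) [NormedAddCommGroup V] [NormedSpace ℝ V] [NormedAddCommGroup W]
    [NormedSpace ℝ W] : Type := V →L[ℝ] W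
abbrev En (κ : Type) [Fintype κ] : Type := CL (Eu κ) (Eu κ)
/-- endomorphisms with the Hilbert-Schmidt inner product -/
abbrev HS (κ : Type) : Type := Eu (κ × κ)
/-- `V`-valued tensors with frame indices `α` -/
abbrev Fm (α V : Type) : Type := PiLp 2 fun _ : α => V

section lin
variable {κ : Type} [Fintype κ] [DecidableEq κ]

/-- the endomorphism of a Hilbert-Schmidt vector -/
def opL : CL (HS κ) (En κ) := LinearMap.toContinuousLinearMap
  { toFun := fun ξ => Matrix.toEuclideanCLM (n := κ) (𝕜 := ℝ) (Matrix.of fun i k => ξ (i, k))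
    map_add' := fun ξ η => by rw [← map_add]; rfl
    map_smul' := fun r ξ => by rw [RingHom.id_apply, ← map_smul]; rfl }

/-- the Hilbert-Schmidt vector of an endomorphism -/
def hsL : CL (En κ) (HS κ) := LinearMap.toContinuousLinearMap
  { toFun := fun T => WithLp.toLp 2 fun ik => T (EuclideanSpace.single ik.2 1) ik.1
    map_add' := fun S T => by ext; simp
    map_smul' := fun r T => by ext; simp }

/-- the commutator with `A` on Hilbert-Schmidt vectors -/
def adc (A : En κ) : En (κ × κ) :=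
  hsL ∘L (ContinuousLinearMap.mul ℝ (En κ) A - (ContinuousLinearMap.mul ℝ (En κ)).flip A) ∘L opL

/-- `w ↦ ⟪v, w⟫ u` -/
def rk1 (u v : Eu κ) : En κ := (innerSL ℝ v).smulRight u

omit [DecidableEq κ] in
/-- skew endomorphisms -/
def Skw (A : En κ) : Prop := ∀ v w, ⟪A v, w⟫_ℝ = -⟪v, A w⟫_ℝ

omit [DecidableEq κ] in
/-- symmetric endomorphisms -/
def Sym (A : En κ) : Prop := ∀ v w, ⟪A v, w⟫_ℝ = ⟪v, A w⟫_ℝ

omit [DecidableEq κ] in
/-- complex scalars acting through `J` -/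
def cs (J : En κ) (c : ℂ) (v : Eu κ) : Eu κ := c.re • v + c.im • J v

omit [DecidableEq κ] in
/-- the hermitian product, complex linear in the second slot -/
def hm (J : En κ) (v w : Eu κ) : ℂ := ⟨⟪v, w⟫_ℝ, -⟪v, J w⟫_ℝ⟩

end lin

variable {E : Type} [NormedAddCommGroup E] [NormedSpace ℝ E] [FiniteDimensional ℝ E]
  [MeasurableSpace E] [BorelSpace E]
  {HM : Type} [TopologicalSpace HM] {I : ModelWithCorners ℝ E HM}
  {M : Type} [TopologicalSpace M] [ChartedSpace HM M] [IsManifold I ∞ M]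
  [MeasurableSpace M] {ι : Type} [Fintype ι] {lam : Type} [Fintype lam]
  {E' : Type} [NormedAddCommGroup E'] [NormedSpace ℝ E'] [FiniteDimensional ℝ E']
  [MeasurableSpace E'] [BorelSpace E']
  {HM' : Type} [TopologicalSpace HM'] {I' : ModelWithCorners ℝ E' HM'}
  {M' : Type} [TopologicalSpace M'] [ChartedSpace HM' M'] [IsManifold I' ∞ M']
  [MeasurableSpace M'] {ι' : Type} [Fintype ι'] {lam' : Type} [Fintype lam']

/-! ### background -/

variable (M ι lam) in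
/-- metric independent background: `T₀ = range P`, its orientation, the line `Λ` -/
structure Base where
  P : ι → ι → M → ℝ
  o : ι → ι → ι → ι → M → ℝ
  l : M → En lam
  il : En lam

variable (I) in
structure Base.OK (B : Base M ι lam) : Prop where
  sP : ∀ a b, Sm I (B.P a b)
  so : ∀ a b c d, Sm I (B.o a b c d)
  sl : Sm I B.l
  pr : ∀ x, Pr fun a b => B.P a b x
  rk : ∀ x, ∑ a, B.P a a x = 4
  o12 : ∀ a b c d x, B.o a b c d x = -B.o b a c d x
  o23 : ∀ a b c d x, B.o a b c d x = -B.o a c b d x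
  o34 : ∀ a b c d x, B.o a b c d x = -B.o a b d c x
  oP : ∀ a b c d x, ∑ k, B.P a k x * B.o k b c d x = B.o a b c d x
  onm : ∀ x, ∑ a, ∑ b, ∑ c, ∑ d, B.o a b c d x ^ 2 = 24
  lsym : ∀ x, Sym (B.l x)
  lidem : ∀ x, B.l x * B.l x = B.l x
  lrk : ∀ x, LinearMap.trace ℝ _ (B.l x : Eu lam →ₗ[ℝ] Eu lam) = 2
  ilsq : B.il * B.il = -1
  ilsk : Skw B.il
  ill : ∀ x, B.il * B.l x = B.l x * B.il

variable (I M ι lam) in
/-- the metric (a frame) and the connection of `Λ` -/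
structure Geo where
  F : Fr I M ι
  a : ι → M → En lam

structure Geo.OK (G : Geo I M ι lam) (B : Base M ι lam) : Prop where
  P : G.F.P = B.P
  vol : G.F.IsVol
  con : Con I B.P G.a
  sk : ∀ a x, Skw (G.a a x)
  il : ∀ a x, B.il * G.a a x = G.a a x * B.il
  par : ∀ a x, G.F.D a B.l x + (G.a a x * B.l x - B.l x * G.a a x) = 0

/-- Levi-Civita coefficients (Koszul formula) -/
def Fr.Gam (F : Fr I M ι) (a b k : ι) (x : M) : ℝ :=
  (F.D a (F.P b k) x + F.D b (F.P a k) x - F.D k (F.P a b) x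
    + F.c a b k x - F.c a k b x - F.c b k a x) / 2

/-- the bounded smooth solution of `(1 + ∇*∇) u = s` -/
def Fr.IsRes {V : Type} [NormedAddCommGroup V] [NormedSpace ℝ V] (F : Fr I M ι)
    (A : ι → M → V →L[ℝ] V) (s u : M → V) : Prop :=
  Sm I u ∧ (∃ C, ∀ x, ‖u x‖ ≤ C) ∧ ∀ x, u x + lap I F.e F.dv A u x = s x

open Classical in
/-- the resolvent on functions -/
def Fr.res {V : Type} [NormedAddCommGroup V] [NormedSpace ℝ V] (F : Fr I M ι)
    (A : ι → M → V →L[ℝ] V) (s : M → V) : M → V :=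
  if h : ∃ u, F.IsRes A s u then h.choose else 0

section forms
variable {V : Type} [NormedAddCommGroup V] [InnerProductSpace ℝ V] (B : Base M ι lam)

/-- a matrix of scalars acting on the frame indices -/
def idx {α : Type} [Fintype α] (S : α → α → ℝ) (T : V →L[ℝ] V) : CL (Fm α V) (Fm α V) :=
  (PiLp.continuousLinearEquiv 2 ℝ fun _ : α => V).symm.toContinuousLinearMap ∘L
    ContinuousLinearMap.pi fun a => ∑ b, S a b • (T ∘L PiLp.proj 2 (fun _ : α => V) b)

/-- the Hodge star on the indices of two-forms -/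
def Base.st (x : M) (s t : ι × ι) : ℝ := B.o s.1 s.2 t.1 t.2 x / 2

/-- the projector onto two-forms -/
def Base.a2 (x : M) (s t : ι × ι) : ℝ :=
  (B.P s.1 t.1 x * B.P s.2 t.2 x - B.P s.1 t.2 x * B.P s.2 t.1 x) / 2

/-- the projector onto self-dual two-forms -/
def Base.sd (x : M) (s t : ι × ι) : ℝ := (B.a2 x s t + B.st x s t) / 2

end forms

/-! ### modules -/

variable (M ι lam) in
/-- the data of a spin^u module -/
structure Md where
  N : ℕ
  J : En (Fin N)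
  p : M → En (Fin N)
  ρ : ι → M → En (Fin N)
  j : M → CL (Eu lam) (En (Fin N))

namespace Md
variable (m : Md M ι lam) (B : Base M ι lam)

abbrev V : Type := Eu (Fin m.N)
abbrev A : Type := HS (Fin m.N)
abbrev Cn : Type := ι → M → En (Fin m.N)

variable (I) in
structure OK : Prop where
  Jsq : m.J * m.J = -1
  Jsk : Skw m.J
  sp : Sm I m.p
  sρ : ∀ a, Sm I (m.ρ a)
  sj : Sm I m.j
  psym : ∀ x, Sym (m.p x)
  pidem : ∀ x, m.p x * m.p x = m.p x
  prk : ∀ x, LinearMap.trace ℝ _ (m.p x : m.V →ₗ[ℝ] m.V) = 16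
  Jp : ∀ x, m.J * m.p x = m.p x * m.J
  cl : ∀ x, Cl (fun a b => B.P a b x) (m.p x) fun a => m.ρ a x
  ρsk : ∀ a x, Skw (m.ρ a x)
  Jρ : ∀ a x, m.J * m.ρ a x = m.ρ a x * m.J
  jsym : ∀ x s, Sym (m.j x s)
  jJ : ∀ x s, m.j x s * m.J = -(m.J * m.j x s)
  jil : ∀ x s, m.j x (B.il s) = m.J * m.j x s
  jl : ∀ x s, m.j x (B.l x s) = m.j x s
  jsq : ∀ x s, m.j x s * m.j x s = ‖B.l x s‖ ^ 2 • m.p x
  pj : ∀ x s, m.p x * m.j x s = m.j x s
  jρ : ∀ a x s, m.j x s * m.ρ a x = m.ρ a x * m.j x s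

/-- the Clifford volume element -/
def om (x : M) : En (Fin m.N) :=
  (1 / 24 : ℝ) • ∑ a, ∑ b, ∑ c, ∑ d, B.o a b c d x • (m.ρ a x * m.ρ b x * m.ρ c x * m.ρ d x)

/-- the projector onto `V⁺` (where `Λ⁺` acts) -/
def pp (x : M) : En (Fin m.N) := (1 / 2 : ℝ) • (m.p x - m.om B x)

/-- the projector onto `V⁻` -/
def pm (x : M) : En (Fin m.N) := (1 / 2 : ℝ) • (m.p x + m.om B x)

/-- the fibre of `g` -/
def gS (x : M) : Submodule ℝ m.A where
  carrier := {ξ | Skw (opL ξ) ∧ m.p x * opL ξ = opL ξ ∧ m.J * opL ξ = opL ξ * m.J ∧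
    (∀ a, m.ρ a x * opL ξ = opL ξ * m.ρ a x) ∧ ∀ s, m.j x s * opL ξ = opL ξ * m.j x s}
  add_mem' := fun {ξ η} h k => ⟨fun v w => by
      simp only [map_add, add_apply, inner_add_left, inner_add_right, h.1 v w,
        k.1 v w]; ring,
    by rw [map_add, mul_add, h.2.1, k.2.1], by rw [map_add, mul_add, add_mul, h.2.2.1, k.2.2.1],
    fun a => by rw [map_add, mul_add, add_mul, h.2.2.2.1, k.2.2.2.1],
    fun s => by rw [map_add, mul_add, add_mul, h.2.2.2.2, k.2.2.2.2]⟩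
  zero_mem' := ⟨fun v w => by simp, by simp, by simp, fun a => by simp, fun s => by simp⟩
  smul_mem' := fun r ξ h => ⟨fun v w => by
      simp only [map_smul, smul_apply, inner_smul_left, inner_smul_right,
        h.1 v w]; simp,
    by rw [map_smul, mul_smul_comm, h.2.1], by rw [map_smul, mul_smul_comm, smul_mul_assoc, h.2.2.1],
    fun a => by rw [map_smul, mul_smul_comm, smul_mul_assoc, h.2.2.2.1],
    fun s => by rw [map_smul, mul_smul_comm, smul_mul_assoc, h.2.2.2.2]⟩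

/-- the projector onto `g` -/
def pg (x : M) : CL m.A m.A := (m.gS x).starProjection

/-- the projector onto `T₀ ⊗ g` -/
def p1 (x : M) : CL (Fm ι m.A) (Fm ι m.A) := idx (fun a b => B.P a b x) (m.pg x)

/-- the projector onto `Λ⁺ ⊗ g` -/
def p2 (x : M) : CL (Fm (ι × ι) m.A) (Fm (ι × ι) m.A) := idx (B.sd x) (m.pg x)

/-- admissible connections: Clifford, unitary, with determinant the connection of `Λ` -/
structure IsConn (G : Geo I M ι lam) (W : m.Cn) : Prop where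
  cc : CC I G.F.e B.P G.F.Gam m.p m.ρ W
  sk : ∀ a x, Skw (W a x)
  J : ∀ a x, m.J * W a x = W a x * m.J
  j : ∀ a x s, G.F.D a m.j x s + (W a x * m.j x s - m.j x s * W a x) = m.j x (G.a a x s)

/-- adding a `g`-valued one-form -/
def addC (W : m.Cn) (α : M → Fm ι m.A) : m.Cn := fun a x => W a x + opL (α x a)

/-- the induced connection on endomorphisms -/
def adW (W : m.Cn) : ι → M → En (Fin m.N × Fin m.N) := fun a x => adc (W a x)

/-- the `g`-part of the curvature -/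
def Fg (F : Fr I M ι) (W : m.Cn) (x : M) : Fm (ι × ι) m.A :=
  WithLp.toLp 2 fun s => m.pg x (hsL (curv I F.e F.c W s.1 s.2 x))

/-- the `g`-part of `u ⊗ v*` -/
def q (x : M) (u v : m.V) : m.A := m.pg x (hsL (rk1 u v))

/-- the bilinear moment map; `mu x Φ Φ` is the quadratic term -/
def mu (x : M) (u v : m.V) : Fm (ι × ι) m.A :=
  m.p2 B x (WithLp.toLp 2 fun s => m.q x u (m.ρ s.1 x (m.ρ s.2 x v)))

/-- the density of `κ = -p₁/4` -/
def kd (F : Fr I M ι) (W : m.Cn) (x : M) : ℝ :=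
  -(128 * Real.pi ^ 2)⁻¹ *
    ⟪m.Fg F W x, idx (B.st x) (ContinuousLinearMap.id ℝ m.A) (m.Fg F W x)⟫_ℝ

/-- the level `κ = -p₁/4` -/
def kap (F : Fr I M ι) (W : m.Cn) : ℝ := ∫ x, m.kd B F W x ∂F.μ

end Md

/-! ### configurations and abstract perturbations -/

variable (M ι lam) in
/-- configurations; `z` has weight two -/
structure Cfg (r : ℕ) where
  m : Md M ι lam
  W : m.Cn
  Φ : M → m.V
  z : EuclideanSpace ℂ (Fin r)

variable (M ι lam) in
/-- a perturbation with `n` scalar equations -/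
structure Pt (r n : ℕ) where
  D : (c : Cfg M ι lam r) → M → c.m.V
  C : (c : Cfg M ι lam r) → M → Fm (ι × ι) c.m.A
  S : Cfg M ι lam r → Fin n → ℂ

namespace Cfg
variable {r n : ℕ} (c : Cfg M ι lam r) (B : Base M ι lam) (G : Geo I M ι lam)

/-- admissible configurations (for `r = 0` there is no `z`) -/
structure Adm : Prop where
  ok : c.m.OK I B
  conn : c.m.IsConn B G c.W
  sm : Sm I c.Φ
  pos : ∀ x, c.m.pp B x (c.Φ x) = c.Φ x
  z : r = 0 ∨ ‖c.z‖ = 1

/-- the Dirac equation -/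
def eD (τ : Pt M ι lam r n) (x : M) : c.m.V := dir I G.F.e c.m.ρ c.W c.Φ x - τ.D c x

/-- the curvature equation -/
def eC (τ : Pt M ι lam r n) (x : M) : Fm (ι × ι) c.m.A :=
  c.m.p2 B x (c.m.Fg G.F c.W x) - c.m.mu B x (c.Φ x) (c.Φ x) - τ.C c x

structure Sol (τ : Pt M ι lam r n) : Prop extends c.Adm B G where
  D : ∀ x, c.eD G τ x = 0
  C : ∀ x, c.eC B G τ x = 0
  S : ∀ i, τ.S c i = 0

/-- the level of a configuration -/
def kap : ℝ := c.m.kap B G.F c.W

end Cfg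

/-! ### words -/

variable (M) in
/-- letters of spinor words; `cl g` is Clifford multiplication by `dg` -/
inductive Lt
  | mul (f : M → ℝ)
  | cl (g : M → ℝ)
  | im
  | G

variable (M) in
abbrev SW : Type := List (Lt M)

variable (M) in
/-- letters of adjoint words -/
inductive La
  | mul (f : M → ℝ)
  | G

variable (M) in
/-- seeds of adjoint words; `cv f g h` is `G G (f • F(dg, dh))` -/
inductive Sd
  | q (u v : SW M)
  | cv (f g h : M → ℝ)

variable (M) in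
structure AW where
  s : Sd M
  l : List (La M)

variable (M lam) in
/-- weight two scalars `∫ h(j s u, v)` -/
structure Sg where
  s : M → Eu lam
  u : SW M
  v : SW M

variable (M lam) in
/-- bounded weight two coefficients -/
inductive Co (r : ℕ)
  | z (i : Fin r)
  | s (g : Sg M lam) (L : List (Sg M lam))

variable (M lam) in
/-- elementary terms; `ad g h ξ` is `(dg ∧ dh)⁺ ⊗ ξ` -/
inductive Tm (r n : ℕ)
  | lin (u : SW M)
  | anti (d : Co M lam r) (s : M → Eu lam) (u : SW M)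
  | ad (g h : M → ℝ) (ξ : AW M)
  | adj (d : Co M lam r) (s : M → Eu lam) (g h : M → ℝ) (u v : SW M) (l : List (La M))
  | adn (f g h : M → ℝ) (φ : ℝ → ℝ) (L : List (AW M))
  | cut (i : Fin n) (w : ℂ) (g : Sg M lam)
  | cz (i : Fin n) (w : ℂ) (k : Fin r)

section ok
variable (F : Fr I M ι)

/-- smooth with bounded derivatives of all orders `≥ 1` -/
def Fr.Cd (g : M → ℝ) : Prop := Sm I g ∧ ∀ a, F.Cb (F.D a g)

def Lt.OK : Lt M → Prop
  | .mul f => F.Cb f
  | .cl g => F.Cd g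
  | _ => True

def SW.OK (w : SW M) : Prop := ∀ t ∈ w, Lt.OK F t

def La.OK : La M → Prop
  | .mul f => F.Cb f
  | .G => True

def Sd.OK : Sd M → Prop
  | .q u v => SW.OK F u ∧ SW.OK F v
  | .cv f g h => F.Cb f ∧ F.Cd g ∧ F.Cd h

def AW.OK (ξ : AW M) : Prop := ξ.s.OK F ∧ ∀ t ∈ ξ.l, La.OK F t

def Sg.OK (g : Sg M lam) : Prop :=
  Sm I g.s ∧ HasCompactSupport g.s ∧ SW.OK F g.u ∧ SW.OK F g.v

def Co.OK {r : ℕ} : Co M lam r → Prop
  | .z _ => True
  | .s g L => g.OK F ∧ ∀ g' ∈ L, Sg.OK F g'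

/-- smooth bounded coefficients -/
def Tm.OK {r n : ℕ} : Tm M lam r n → Prop
  | .lin u => SW.OK F u
  | .anti d s u => d.OK F ∧ F.Cb s ∧ SW.OK F u
  | .ad g h ξ => F.Cd g ∧ F.Cd h ∧ ξ.OK F
  | .adj d s g h u v l => d.OK F ∧ F.Cb s ∧ F.Cd g ∧ F.Cd h ∧ SW.OK F u ∧ SW.OK F v ∧
      ∀ t ∈ l, La.OK F t
  | .adn f g h φ L => F.Cb f ∧ F.Cd g ∧ F.Cd h ∧ ContDiff ℝ ∞ φ ∧
      (∃ C, ∀ t, 0 ≤ t → φ t ^ 2 * t ≤ C) ∧ ∀ ξ ∈ L, AW.OK F ξ
  | .cut _ _ g => g.OK F
  | .cz _ _ _ => True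

end ok

namespace Cfg
variable {r n : ℕ} (c : Cfg M ι lam r) (B : Base M ι lam) (F : Fr I M ι)

def lt : Lt M → (M → c.m.V) → M → c.m.V
  | .mul f, u => fun x => f x • u x
  | .cl g, u => fun x => ∑ a, F.D a g x • c.m.ρ a x (u x)
  | .im, u => fun x => c.m.J (u x)
  | .G, u => F.res c.W u

/-- value of a spinor word -/
def sw (w : SW M) : M → c.m.V := wd (c.lt F) c.Φ w

def la : La M → (M → c.m.A) → M → c.m.A
  | .mul f, u => fun x => f x • u x
  | .G, u => F.res (c.m.adW c.W) u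

def sd : Sd M → M → c.m.A
  | .q u v => fun x => c.m.q x (c.sw F u x) (c.sw F v x)
  | .cv f g h => F.res (c.m.adW c.W) (F.res (c.m.adW c.W) fun x =>
      ∑ s : ι × ι, (f x * F.D s.1 g x * F.D s.2 h x) • c.m.Fg F c.W x s)

/-- value of an adjoint word -/
def aw (ξ : AW M) : M → c.m.A := wd (c.la F) (c.sd F ξ.s) ξ.l

/-- value of a sum of adjoint words -/
def aws (L : List (AW M)) : M → c.m.A := fun x => (L.map fun ξ => c.aw F ξ x).sum

/-- value of a weight two scalar -/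
def sg (g : Sg M lam) : ℂ := ∫ x, hm c.m.J (c.m.j x (g.s x) (c.sw F g.u x)) (c.sw F g.v x) ∂F.μ

def co : Co M lam r → ℂ
  | .z i => c.z i
  | .s g L => c.sg F g / (√(1 + ‖c.sg F g‖ ^ 2 + (L.map fun g' => ‖c.sg F g'‖ ^ 2).sum) : ℝ)

/-- the weight zero seed `q (d • j s u) v` -/
def qj (d : Co M lam r) (s : M → Eu lam) (u v : SW M) : M → c.m.A := fun y =>
  c.m.q y (cs c.m.J (c.co F d) (c.m.j y (s y) (c.sw F u y))) (c.sw F v y)

def tD : Tm M lam r n → M → c.m.V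
  | .lin u => fun x => c.m.pm B x (c.sw F u x)
  | .anti d s u => fun x => c.m.pm B x (cs c.m.J (c.co F d) (c.m.j x (s x) (c.sw F u x)))
  | _ => 0

def tC : Tm M lam r n → M → Fm (ι × ι) c.m.A
  | .ad g h ξ => fun x =>
      c.m.p2 B x (WithLp.toLp 2 fun s => (F.D s.1 g x * F.D s.2 h x) • c.aw F ξ x)
  | .adj d s g h u v l => fun x => c.m.p2 B x (WithLp.toLp 2 fun t =>
      (F.D t.1 g x * F.D t.2 h x) • wd (c.la F) (c.qj F d s u v) l x)
  | .adn f g h φ L => fun x => c.m.p2 B x (WithLp.toLp 2 fun s =>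
      (f x * F.D s.1 g x * F.D s.2 h x * φ (‖c.aws F L x‖ ^ 2)) • c.aws F L x)
  | _ => 0

def tS : Tm M lam r n → Fin n → ℂ
  | .cut i w g => Pi.single i (w * c.sg F g)
  | .cz i w k => Pi.single i (w * c.z k)
  | _ => 0

end Cfg

/-- the perturbation `∑ w k • T k` -/
def wpt {r n : ℕ} {K : Type} [Fintype K] (B : Base M ι lam) (F : Fr I M ι)
    (T : K → Tm M lam r n) (w : K → ℝ) : Pt M ι lam r n where
  D c x := ∑ k, w k • c.tD B F (T k) x
  C c x := ∑ k, w k • c.tC B F (T k) x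
  S c i := ∑ k, (w k : ℂ) * c.tS F (T k) i

/-- sum of perturbations -/
def Pt.add {r n : ℕ} (τ τ' : Pt M ι lam r n) : Pt M ι lam r n where
  D c x := τ.D c x + τ'.D c x
  C c x := τ.C c x + τ'.C c x
  S c i := τ.S c i + τ'.S c i

/-! ### equivalences over a partial diffeomorphism -/

/-- transpose of a map between Euclidean spaces -/
abbrev trn {κ κ' : Type} [Fintype κ] [Fintype κ'] (u : CL (Eu κ) (Eu κ')) : CL (Eu κ') (Eu κ) :=
  ContinuousLinearMap.adjoint u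

/-- equivalence of backgrounds: `φ` with a rotation `U` of the frame and an isomorphism `v` of
the lines -/
structure GEq (B : Base M ι lam) (G : Geo I M ι lam) (B' : Base M' ι' lam')
    (G' : Geo I' M' ι' lam') (φ : OpenPartialHomeomorph M M') (U : M → ι' → ι → ℝ)
    (v : M → CL (Eu lam) (Eu lam')) : Prop where
  sm : ContMDiffOn I I' ∞ φ φ.source
  sm' : ContMDiffOn I' I ∞ φ.symm φ.target
  sU : ∀ b a, ContMDiffOn I 𝓘(ℝ, ℝ) ∞ (fun x => U x b a) φ.source
  sv : ContMDiffOn I 𝓘(ℝ, CL (Eu lam) (Eu lam')) ∞ v φ.source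
  UU : ∀ x ∈ φ.source, ∀ a a', ∑ b, U x b a * U x b a' = B.P a a' x
  UU' : ∀ x ∈ φ.source, ∀ b b', ∑ a, U x b a * U x b' a = B'.P b b' (φ x)
  e : ∀ x ∈ φ.source, ∀ b, mfderiv I I' φ x (∑ a, U x b a • G.F.e a x) = G'.F.e b (φ x)
  μ : (G.F.μ.restrict φ.source).map φ = G'.F.μ.restrict φ.target
  o : ∀ x ∈ φ.source, ∀ b₁ b₂ b₃ b₄, B'.o b₁ b₂ b₃ b₄ (φ x) =
    ∑ a₁, ∑ a₂, ∑ a₃, ∑ a₄, U x b₁ a₁ * U x b₂ a₂ * U x b₃ a₃ * U x b₄ a₄ * B.o a₁ a₂ a₃ a₄ x
  vv : ∀ x ∈ φ.source, trn (v x) ∘L v x = B.l x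
  vv' : ∀ x ∈ φ.source, v x ∘L trn (v x) = B'.l (φ x)
  il : ∀ x ∈ φ.source, v x ∘L B.il = B'.il ∘L v x
  par : ∀ x ∈ φ.source, ∀ a,
    G.F.D a v x + (∑ b, U x b a • G'.a b (φ x)) ∘L v x - v x ∘L G.a a x = 0

/-- equivalence of modules over the set `O` -/
structure MEq (I : ModelWithCorners ℝ E HM) (m : Md M ι lam) (m' : Md M' ι' lam') (O : Set M)
    (φ : M → M') (U : M → ι' → ι → ℝ) (v : M → CL (Eu lam) (Eu lam'))
    (u : M → CL m.V m'.V) : Prop where
  su : ContMDiffOn I 𝓘(ℝ, CL m.V m'.V) ∞ u O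
  uu : ∀ x ∈ O, trn (u x) ∘L u x = m.p x
  uu' : ∀ x ∈ O, u x ∘L trn (u x) = m'.p (φ x)
  J : ∀ x ∈ O, u x ∘L m.J = m'.J ∘L u x
  ρ : ∀ x ∈ O, ∀ b, m'.ρ b (φ x) ∘L u x = u x ∘L ∑ a, U x b a • m.ρ a x
  j : ∀ x ∈ O, ∀ s, m'.j (φ x) (v x s) ∘L u x = u x ∘L m.j x s

/-- `u` is parallel over `O` -/
def Par (F : Fr I M ι) {m : Md M ι lam} {m' : Md M' ι' lam'} (W : m.Cn) (W' : m'.Cn) (O : Set M)
    (φ : M → M') (U : M → ι' → ι → ℝ) (u : M → CL m.V m'.V) : Prop :=
  ∀ x ∈ O, ∀ a, F.D a u x + (∑ b, U x b a • W' b (φ x)) ∘L u x - u x ∘L W a x = 0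

/-- equivalence of configurations over `O`, with the phase `ζ` (`z` has weight two) -/
structure CEq {r : ℕ} (F : Fr I M ι) (c : Cfg M ι lam r) (c' : Cfg M' ι' lam' r) (O : Set M)
    (φ : M → M') (U : M → ι' → ι → ℝ) (v : M → CL (Eu lam) (Eu lam'))
    (u : M → CL c.m.V c'.m.V) (ζ : Circle) : Prop where
  m : MEq I c.m c'.m O φ U v u
  W : Par F c.W c'.W O φ U u
  Φ : ∀ x ∈ O, c'.Φ (φ x) = cs c'.m.J ζ (u x (c.Φ x))
  z : c'.z = ((ζ : ℂ) ^ 2) • c.z

/-- isomorphism of configurations over one background -/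
def Cfg.Iso {r : ℕ} (B : Base M ι lam) (F : Fr I M ι) (c c' : Cfg M ι lam r) : Prop :=
  ∃ u ζ, CEq F c c' univ id (fun x b a => B.P b a x) B.l u ζ

/-- the set of isomorphism classes of solutions of level `k` in a family over `Q` -/
def Mod {r n : ℕ} {T : Type} (Q : Set T) (B : Base M ι lam) (G : T → Geo I M ι lam)
    (τ : T → Pt M ι lam r n) (k : ℝ) : Type :=
  Quot fun x y : {x : T × Cfg M ι lam r //
      x.1 ∈ Q ∧ x.2.Sol B (G x.1) (τ x.1) ∧ x.2.kap B (G x.1) = k} =>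
    x.1.1 = y.1.1 ∧ Cfg.Iso B (G x.1.1).F x.1.2 y.1.2

/-- the count modulo two -/
def cnt {r n : ℕ} {T : Type} (Q : Set T) (B : Base M ι lam) (G : T → Geo I M ι lam)
    (τ : T → Pt M ι lam r n) (k : ℝ) : ZMod 2 := (Nat.card (Mod Q B G τ k) : ZMod 2)

end Crest.Agent.X212.An
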