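import Crest.Agent.X212.An.Prt
import Crest.Agent.X212.Cyl58.Cps
import Crest.Agent.X212.Cht98.Nk
import Crest.Agent.X212.Prm93.Bk

/-!
# Row 212, layer AN: the standard strata of the ideal objects

A stratum fixes the pieces with spinor (`F`), the irreducible pieces without spinor (`I`), the kept
cuts, tightness and the lost energy.  Its parts: all pieces of `F` together, and each piece of `I`
for the job without spinor.  `Mds.ax` reduces `Stra.Ax` to PART, small leaves and `Kill`.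
-/

set_option autoImplicit false
set_option linter.unusedSectionVars false
noncomputable section
open scoped Manifold ContDiff Topology InnerProductSpace
open MeasureTheory Set Function Filter

namespace Crest.Agent.X212.An
open M Nd18 Mod61 Wrd81 Cmp73
open Nk89 (RNear)

/-! ### restriction of limits -/

section gen
variable {E : Type} [NormedAddCommGroup E] [NormedSpace ℝ E] [FiniteDimensional ℝ E]
  [MeasurableSpace E] [BorelSpace E]
  {HM : Type} [TopologicalSpace HM] {I : ModelWithCorners ℝ E HM} [I.Boundaryless]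
  {M : Type} [TopologicalSpace M] [ChartedSpace HM M] [IsManifold I ∞ M]
  [MeasurableSpace M] {ι : Type} [Fintype ι] {lam : Type} [Fintype lam] {r : ℕ}
  {B : Base M ι lam} {α : Type} {l : Filter α} {O O' : Set M}
  {e : α → ι → Π x : M, TangentSpace I x} {c : α → Cfg M ι lam r} {c₀ : Cfg M ι lam r}
  {u : ∀ i, M → CL (c i).m.V c₀.m.V} {ζ : α → Circle}

theorem ULim.mono (h : ULim I B l O e c c₀ u ζ) (k : O' ⊆ O) : ULim I B l O' e c c₀ u ζ :=
  ⟨fun x hx => h.m x (k hx), fun a => (h.A a).mono le_rfl k, h.Φ.mono le_rfl k, h.z⟩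

theorem ULim.con (h : ULim I B l O e c c₀ u ζ) :
    ULim I B l O e (fun i => (c i).con) c₀.con u ζ :=
  ⟨h.m, h.A, by simp only [cs, Pi.zero_apply, map_zero, smul_zero, add_zero]; exact Cv.const 0,
    by simpa only [Subsingleton.elim (_ • _) (0 : EuclideanSpace ℂ (Fin 0))] using tendsto_const_nhds⟩

/-- non-vanishing of the spinor is open -/
theorem ULim.ne (h : ULim I B l O e c c₀ u ζ) {x : M} (hx : x ∈ O) (h0 : c₀.Φ x ≠ 0) :
    ∀ᶠ i in l, (c i).Φ x ≠ 0 :=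
  ((h.Φ.pt x hx).eventually_ne h0).mono fun i hi k => hi (by simp [k, cs])

theorem Cfg.Adm.con {G : Geo I M ι lam} (h : c₀.Adm B G) : c₀.con.Adm B G :=
  ⟨h.ok, h.conn, contMDiff_const, fun _ => map_zero _, .inl rfl⟩

end gen

section nk
variable {E3 : Type} [NormedAddCommGroup E3] [NormedSpace ℝ E3] [FiniteDimensional ℝ E3]
  [MeasurableSpace E3] [BorelSpace E3]
  {H3 : Type} [TopologicalSpace H3] {I3 : ModelWithCorners ℝ E3 H3} [I3.Boundaryless]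
  {Y : Type} [TopologicalSpace Y] [ChartedSpace H3 Y] [IsManifold I3 ∞ Y] [T2Space Y]
  [CompactSpace Y] [SecondCountableTopology Y] [MeasurableSpace Y] [BorelSpace Y]
  {κ lam : Type} [Fintype κ] [Fintype lam] {r : ℕ} {D : YD I3 Y κ lam}

theorem cls_con {c : Cfg (Y × ℝ) (Option κ) lam r} {β : YC Y κ lam} {u : Y × ℝ → CL c.m.V β.m.V}
    {ζ : Circle} {S : Set ℝ} {k : ℕ} {η : ℝ} (h : D.Cls c β u ζ S k η)
    (h0 : ∀ x : Y × ℝ, x.2 ∈ S → c.Φ x = 0) : D.Cls c.con β u ζ S k η :=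
  ⟨h.op, h.m, h.A, fun w hw x hx => by
    rw [Prm93.Dw_congr (v := YD.dP c β u ζ) w (((isOpen_univ.prod h.op).eventually_mem hx).mono
      fun z hz => by simp [YD.dP, h0 z hz.2])]
    exact h.P w hw x hx⟩

end nk

variable {Wi : Type} {X : Mf 4} {A κ lam : Type} [Fintype A] [Fintype κ] [Fintype lam]
  [DecidableEq lam] {M : Mark X A κ} {W : World M} {N : ML M lam}

theorem mem_un {C : Caps M} {c : M.Cl} {P : Set (Reg A)} {x : (C.Z c).M} :
    x ∈ C.un c P ↔ ∃ π ∈ P, x ∈ C.pc c π := by simp [Caps.un]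

theorem un_one (C : Caps M) (c : M.Cl) (π : Reg A) : C.un c {π} = C.pc c π := biUnion_singleton _ _

/-- an end lies in the adjacent piece -/
theorem IsNk.end_mem {Λ : Lns W N} {m c : M.Cl} {p : Prm A} {a : A} {b : Bool} {S : Xs Wi κ lam}
    {g : S.Y.M → (M.bn a).Y.M} {K : Nk S.D (Λ.B m c) (Λ.G m c p)} (h : IsNk a (some b) g K)
    (ha : Act m c a (some b) p) {π : Reg A} (hπ : M.sys.Piece c.1 π) (hb : π a = some b)
    {z : S.Y.M × ℝ} (hz : z.2 ∈ K.J) : K.ψ z ∈ W.pc c π := by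
  have e : p.2 a = 1 := ha.2.1.2 ha.2.2.2
  have e' : K.J = Jv (Cht98.np 1 b) (Cht98.nq 1 b) := by
    rw [Nk.J, h.lo, h.hi]
    cases b <;> simp [Cht98.np, Cht98.nq]
  obtain ⟨s, ⟨h1, h2⟩, h3⟩ := (Cht98.bijOn_len le_rfl b).surjOn (e' ▸ hz)
  replace h2 := h2.resolve_left (lt_irrefl _)
  have := h.ψ z.1 s (by cases b; exacts [h1.1, h2]) (by cases b; exacts [h2, h1.2])
  rw [e, Option.getD_some, h3] at this
  refine this ▸ .inl ⟨_, hπ.adj a b hb ⟨⟨_, rfl⟩, (M.bn a).j_mem_sd.2 ?_⟩, rfl⟩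
  cases b <;> simpa [pm] using h2

/-- the discrete data of a stratum -/
structure Dt (A h : Type) (E : Set ℝ) where
  F : Set (Reg A)
  I : Set (Reg A)
  H : Set h
  t : Prop
  e : E

theorem Dt.finite {h : Type} [Finite h] {E : Set ℝ} (hE : E.Finite) : Finite (Dt A h E) :=
  have := hE.to_subtype
  .of_injective (fun d => (d.F, d.I, d.H, d.t, d.e)) fun ⟨_, _, _, _, _⟩ ⟨_, _, _, _, _⟩ e => by
    simpa using e

namespace Job
variable {Λ : Lns W N} {A' h : Type} [Fintype A'] [DecidableEq A'] [Fintype h] {r n : ℕ}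
  {J : Job Wi Λ A' h r n} {c : M.Cl} {σ : Cel A'} {q : Wi →₀ ℝ} {Adm : (Wi →₀ ℝ) → Prop}
  {sh : Set A'} {R : Set (Reg A)}

/-- the top objects (`Mdl.top`) -/
def top0 (y : J.Obc M.c0) : Prop := y.l = 0 ∧ ∃ x, y.x.Φ x ≠ 0

/-- the same on `Z c` -/
def Obc.Top (y : J.Obc c) : Prop := c = M.c0 ∧ y.l = 0 ∧ ∃ x, y.x.Φ x ≠ 0

theorem Mdl.top_eq (D : J.Mdl) (h : D.top = top0) (c : M.Cl) : (D.Top : J.Obc c → Prop) = Obc.Top :=
  funext fun y => propext ⟨fun ⟨e, k⟩ => by subst e; rw [h] at k; exact ⟨rfl, k⟩,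
    fun ⟨e, k⟩ => by subst e; exact ⟨rfl, by rw [h]; exact k⟩⟩

/-- the pieces with spinor -/
def Obc.F (R : Set (Reg A)) (y : J.Obc c) : Set (Reg A) := {π ∈ R | y.TF π}

/-- the irreducible pieces without spinor -/
def Obc.I (R : Set (Reg A)) (y : J.Obc c) : Set (Reg A) := {π ∈ R | ¬y.TF π ∧ ¬y.TA π}

variable (J σ c Adm R) in
/-- LEAF POOR: no spinor on the pieces outside `R` -/
def Poor : Prop := ∀ q (y : J.Obc c), Adm q → Sol σ q y → ∀ π, M.sys.Piece c.1 π → π ∉ R → ¬y.TF π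

theorem Obc.zero {y : J.Obc c} {π : Reg A} (h : ¬y.TF π) {x} (hx : x ∈ W.pc c π) : y.x.Φ x = 0 :=
  by_contra fun k => h ⟨x, hx, k⟩

/-- a solution seen by the spinor pieces -/
theorem Sol.onF (hP : J.Poor c σ Adm R) (ha : Adm q) {y : J.Obc c} (h : Sol σ q y) :
    SolOn (J.prt sh σ c (y.F R) (y.F R) y.H) σ q y ∧ In (J.prt sh σ c (y.F R) (y.F R) y.H) y :=
  ⟨⟨h.cell, h.inf, h.sol.toAdm, fun x hx => by
      obtain ⟨π, h1, h2⟩ := Cyl58.exists_pc W.toCaps x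
      exact Obc.zero (fun k => hx (mem_un.2 ⟨π, ⟨by_contra fun k' => hP q y ha h π h1 k' k, k⟩, h2⟩)) h2,
    fun x _ => h.sol.D x, fun x _ => h.sol.C x, h.sol.S, fun i hi => h.cut i hi.1,
    fun a b ha _ => h.lim a b ha, fun a ha b _ => h.crit a ha b, h.int.integrableOn⟩,
    fun _ hπ => hπ.2, fun _ h1 h2 => (h2 h1).elim⟩

/-- a solution seen by a piece without spinor -/
theorem Sol.onI (hJ : J.OK) (hσ : σ ∈ J.𝒦) (hD : J.Dead c)
    {y : J.Obc c} (h : Sol σ q y) {π : Reg A} (hπ : M.sys.Piece c.1 π) (h0 : ¬y.TF π) :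
    SolOn (J.prt sh σ c {π} ∅ y.H) σ q y.noz where
  cell := h.cell
  inf := h.inf
  adm := h.sol.toAdm.con
  off _ _ := rfl
  D _ hx := (mem_un.1 hx).elim fun _ k => k.1.elim
  C x hx := by
    replace hx : x ∈ W.pc c π := un_one W.toCaps c π ▸ hx
    have := h.sol.C x
    simp only [Cfg.eC, (hD σ hσ q y h π hπ h0).1 x hx, Obc.zero h0 hx] at this ⊢
    exact this
  S i := i.elim0
  cut i hi := by
    have := h.cut i hi.1
    rw [Cut.Sol, ← (hD σ hσ q y h π hπ h0).2 i (by simpa using hi.2)] at this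
    exact this
  lim a b ha := by
    rintro ⟨_, rfl, hb⟩
    obtain ⟨u, hu⟩ := h.lim a b ha
    refine ⟨u, fun k η hη => ?_⟩
    obtain ⟨S, h1, h2, h3⟩ := hu k η hη
    exact ⟨S, h1, h2, cls_con h3 fun x hx =>
      Obc.zero h0 ((hJ.nk _ _ _ _ ha).end_mem ha hπ hb (h2 hx))⟩
  crit a ha b _ := h.crit a ha b
  int := h.int.integrableOn

variable {α : Type} {l : Filter α} {y : α → J.Obc c} {y₀ : J.Obc c}

theorem Str.on (h : Str l y y₀) (P P' : Set (Reg A)) : StrOn (J.prt sh σ c P P' y₀.H) l y y₀ :=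
  ⟨h.s, let ⟨u, ζ, h1, h2⟩ := h.lim; ⟨u, ζ, h1.mono (subset_univ _), fun k hk => h2 k hk.1⟩,
    fun a b _ => h.tail a b⟩

theorem Str.onI (hJ : J.OK) (h : Str l y y₀) {π : Reg A} (hπ : M.sys.Piece c.1 π)
    (h0 : ∀ᶠ i in l, ¬(y i).TF π) :
    StrOn (J.prt sh σ c {π} ∅ y₀.H) l (fun i => (y i).noz) y₀.noz where
  s := h.s
  lim := let ⟨u, ζ, h1, h2⟩ := h.lim; ⟨u, ζ, h1.con.mono (subset_univ _), fun k hk => h2 k hk.1⟩
  tail a b := by
    rintro ⟨_, rfl, hb⟩ η hη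
    obtain ⟨T, hT⟩ := h.tail a b η hη
    refine ⟨T, (hT.and h0).mono fun i hi ha t ht => ?_⟩
    obtain ⟨h1, u, ζ, h2⟩ := hi.1 ha t ht
    exact ⟨h1, u, ζ, cls_con h2 fun x hx =>
      Obc.zero hi.2 ((hJ.nk _ _ _ _ ha).end_mem ha hπ hb (h1 hx))⟩

theorem Str.ne (h : Str l y y₀) {x} (h0 : y₀.x.Φ x ≠ 0) : ∀ᶠ i in l, (y i).x.Φ x ≠ 0 :=
  let ⟨_, _, h1, _⟩ := h.lim; h1.ne (mem_univ x) h0

theorem Str.tf (h : Str l y y₀) {π : Reg A} (h0 : y₀.TF π) : ∀ᶠ i in l, (y i).TF π :=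
  let ⟨x, h1, h2⟩ := h0; (h.ne h2).mono fun _ hi => ⟨x, h1, hi⟩

theorem Str.top (h : Str l y y₀) (h0 : y₀.Top) : ∀ᶠ i in l, (y i).Top :=
  let ⟨x, h1⟩ := h0.2.2
  ((h.ne h1).and h.dis).mono fun _ hi => ⟨h0.1, hi.2.2.1.trans h0.2.1, x, hi.1⟩

/-- gluing to an object with spinor gives top objects (`Gl.topf`) -/
theorem Dg.top {y : α → J.Obc M.c0} (h : Dg l y y₀) {π : Reg A} (h0 : y₀.TF π) :
    ∀ᶠ i in l, top0 (y i) :=
  let ⟨x, _, h2⟩ := h0; let ⟨_, _, h1, _⟩ := h.lim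
  ((h1.ne (mem_univ x) h2).and h.tight).mono fun _ hi => ⟨hi.2, _, hi.1⟩

theorem Str.tight (h : Str l y y₀) : ∀ᶠ i in l, ((y i).Tight ↔ y₀.Tight) :=
  h.dis.mono fun _ hi => and_congr (by rw [hi.2.1]) (forall₂_congr hi.2.2)

/-! ### the strata -/

variable (J c) in
/-- models of the parts, with what regularity gives -/
structure Mds : Type 1 where
  R : Set (Reg A)
  MF : Set (Reg A) → Set h → Mo Wi (J.Obc c)
  MI : Reg A → Set h → Mo Wi (J.noz.Obc c)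
  okF : Set (Reg A) → Set h → J.Obc c → Prop
  okI : Reg A → Set h → J.noz.Obc c → Prop

variable (J σ c Adm) in
/-- the energies -/
def En : Set ℝ := {e | ∃ (q : Wi →₀ ℝ) (y : J.Obc c), Adm q ∧ Sol σ q y ∧ y.en = e}

namespace Mds
variable (D : J.Mds c) {E : Set ℝ}

/-- the model of a part -/
def mo (s : Dt A h E) : Option (Reg A) → Mo Wi (J.Obc c)
  | none => D.MF s.F s.H
  | some π => (D.MI π s.H).comap Obc.noz

/-- what regularity of a part gives -/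
def ok (s : Dt A h E) : Option (Reg A) → J.Obc c → Prop
  | none => D.okF s.F s.H
  | some π => fun y => D.okI π s.H y.noz

/-- membership -/
structure Mem (s : Dt A h E) (y : J.Obc c) : Prop where
  F : y.F D.R = s.F
  I : y.I D.R = s.I
  H : y.H = s.H
  t : y.Tight ↔ s.t
  e : y.en = s.e
  nt : ¬y.Top

/-- **the strata** -/
@[reducible] def stra (E : Set ℝ) (Fa : Prop) : J.Stra c where
  S := Dt A h E
  en s := s.e
  wt s := (D.R \ s.F).ncard + (D.R \ (s.F ∪ s.I)).ncard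
  mem := D.Mem
  face s := Fa ∧ s.t ∧ s.F = D.R
  Jp s := {j : Option (Reg A) // j.elim (s.F.Nonempty ∧ s.F ⊆ D.R) (· ∈ s.I ∩ D.R)}
  Ic s j := (D.mo s j.1).Ic
  P s j := (D.mo s j.1).Pb
  rep {s j} i := (D.mo s j.1).rep i

variable (σ Adm) in
/-- LEAF KILL (numerical): regular ideal objects are faces -/
def Kill (Fa : Prop) : Prop := ∀ q (y : J.Obc c), Adm q → Sol σ q y → ¬y.Top →
  ((y.F D.R).Nonempty → D.okF (y.F D.R) y.H y) → (∀ π ∈ y.I D.R, D.okI π y.H y.noz) →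
  Fa ∧ y.Tight ∧ y.F D.R = D.R

variable (σ Adm sh) in
/-- the leaves -/
structure Hyp (Fa : Prop) : Prop where
  ok : J.OK
  mem : σ ∈ J.𝒦
  pc : ∀ π ∈ D.R, M.sys.Piece c.1 π
  dead : J.Dead c
  lin : J.LinCl c
  fin : J.FinE σ c Adm
  poor : J.Poor c σ Adm D.R
  F : ∀ F ⊆ D.R, F.Nonempty → ∀ H, PAx J c σ (J.prt sh σ c F F H) (D.MF F H) Adm (D.okF F H)
  I : ∀ π ∈ D.R, ∀ H, PAx J.noz c σ (J.prt sh σ c {π} ∅ H) (D.MI π H) Adm (D.okI π H)
  kill : D.Kill σ Adm Fa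

variable {D} {Fa : Prop}

theorem Mem.sub {s : Dt A h E} {y : J.Obc c} (h : D.Mem s y) : s.F ⊆ D.R := h.F ▸ sep_subset _ _

theorem Mem.of {y : J.Obc c} (he : y.en ∈ E) (h : ¬y.Top) :
    D.Mem ⟨y.F D.R, y.I D.R, y.H, y.Tight, _, he⟩ y := ⟨rfl, rfl, rfl, .rfl, rfl, h⟩

/-- objects of face strata -/
theorem Mem.face {s : Dt A h E} {y : J.Obc c} (h : D.Mem s y) (f : (D.stra E Fa).face s) :
    y.Tight ∧ ∀ π ∈ D.R, y.TF π := ⟨h.t.2 f.2.1, fun _ hπ => ((h.F.trans f.2.2).ge hπ).2⟩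

/-- regularity of objects of face strata -/
theorem Mem.reg {s : Dt A h E} {y : J.Obc c} (h : D.Mem s y) (f : (D.stra E Fa).face s)
    (hy : Sol σ q y) (hR : D.R.Nonempty) (k : (D.stra E Fa).Reg s q y) :
    (D.MF D.R (J.unc c)).Reg q y := by
  have := k ⟨none, f.2.2 ▸ hR, f.2.2.le⟩
  rwa [← hy.H_eq (h.face f).1.1, h.H, ← f.2.2]

namespace Hyp
variable (H : D.Hyp σ Adm sh Fa)
include H

/-- the models of the parts of a stratum -/
theorem mo (s : Dt A h E) (j : (D.stra E Fa).Jp s) : (D.mo s j.1).Ax Adm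
    (fun q y => Sol σ q y ∧ D.Mem s y) (fun _ 𝒰 y y₀ => Str 𝒰 y y₀) (D.ok s j.1) := by
  obtain ⟨_ | π, hj⟩ := j
  · exact (H.F _ hj.2 hj.1 s.H).comap id
      (fun q y a b => b.2.F ▸ b.2.H ▸ b.1.onF H.poor a)
      (fun _ _ _ _ _ ⟨_, _, b⟩ e => b.2.H ▸ e.on _ _) fun _ => id
  · have k : ∀ y, D.Mem s y → π ∈ y.I D.R := fun y b => b.I ▸ hj.1
    have hπ := H.pc π hj.2
    exact (H.I π hj.2 s.H).comap Obc.noz
      (fun q y a b => ⟨b.2.H ▸ b.1.onI H.ok H.mem H.dead hπ (k y b.2).2.1,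
        fun _ h => h.elim, fun _ h _ => h ▸ (k y b.2).2.2⟩)
      (fun _ _ _ _ a ⟨_, _, b⟩ e => b.2.H ▸ e.onI H.ok hπ (a.mono fun _ ⟨_, _, a⟩ => (k _ a.2).2.1))
      fun _ => id

/-- a regular object of a stratum is a face -/
theorem face {s : Dt A h E} {y : J.Obc c} (ha : Adm q) (hy : Sol σ q y) (hm : D.Mem s y)
    (hr : (D.stra E Fa).Reg s q y) : (D.stra E Fa).face s := by
  have k := fun j => (H.mo s j).ker q y ha ⟨hy, hm⟩ (hr j)
  have := H.kill q y ha hy hm.nt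
    (fun hn => hm.F ▸ hm.H ▸ k ⟨none, hm.F ▸ hn, hm.sub⟩) fun π hπ => hm.H ▸ k ⟨some π, hm.I ▸ hπ, hπ.1⟩
  exact ⟨this.1, hm.t.1 this.2.1, hm.F ▸ this.2.2⟩

theorem lim {s : Dt A h E} {𝒰 : Ultrafilter α} {q₀ : Wi →₀ ℝ} (he : y₀.en ∈ E) (e : Sol σ q₀ y₀)
    (d : ∀ᶠ i in (𝒰 : Filter α), (y i).Ok ∧ D.Mem s (y i)) (f : Str 𝒰 y y₀) :
    D.Mem s y₀ ∨ ∃ s', (D.stra E Fa).wt s < (D.stra E Fa).wt s' ∧ D.Mem s' y₀ := by
  have hm : ∀ᶠ i in (𝒰 : Filter α), D.Mem s (y i) := d.mono fun _ k => k.2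
  have ex : ∀ {P : α → Prop} {Q : Prop}, (∀ᶠ i in (𝒰 : Filter α), P i) →
      (∀ i, D.Mem s (y i) → P i → Q) → Q := fun h1 h2 =>
    let ⟨i, k⟩ := (hm.and h1).exists; h2 i k.1 k.2
  have nt : ¬y₀.Top := fun k => ex (f.top k) fun _ k => k.nt
  have hF : y₀.F D.R ⊆ s.F := fun π k => ex (f.tf k.2) fun _ k1 k2 => k1.F.le ⟨k.1, k2⟩
  have hI : y₀.F D.R ∪ y₀.I D.R ⊆ s.F ∪ s.I := fun π k => by_contra fun k' => by
    have k0 : π ∈ D.R := k.elim And.left And.left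
    refine k.elim (fun k => k' (.inl (hF k))) fun k => k.2.2 (H.lin α 𝒰 y y₀ π (H.pc π k0)
      (e.ok H.ok H.mem) (d.mono fun i hi => ⟨hi.1, by_contra fun k1 => k' ?_⟩) f)
    exact (em _).imp (fun k2 => hi.2.F.le ⟨k0, k2⟩) fun k2 => hi.2.I.le ⟨k0, k2, k1⟩
  have l1 := diff_subset_diff_right (s := D.R) hF
  have l2 := diff_subset_diff_right (s := D.R) hI
  have l3 := ncard_le_ncard l1
  have l4 := ncard_le_ncard l2
  by_cases hw : (D.R \ s.F).ncard + (D.R \ (s.F ∪ s.I)).ncard <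
      (D.R \ y₀.F D.R).ncard + (D.R \ (y₀.F D.R ∪ y₀.I D.R)).ncard
  · have m0 := Mem.of (D := D) he nt
    exact .inr ⟨_, by exact hw, m0⟩
  obtain ⟨i, m1⟩ := hm.exists
  have e1 := eq_of_subset_of_ncard_le l1 (by omega)
  have e2 := eq_of_subset_of_ncard_le l2 (by omega)
  have e3 : y₀.F D.R = s.F := hF.antisymm fun π k => by_contra fun k' =>
    (e1.ge ⟨m1.sub k, k'⟩).2 k
  refine .inl ⟨e3, Subset.antisymm
    (fun π k => (hI (.inr k)).resolve_left fun k' => k.2.1 (e3.ge k').2) fun π k => ?_,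
    ex f.dis fun _ k1 k2 => k2.1.symm.trans k1.H, ex f.tight fun _ k1 k2 => k2.symm.trans k1.t,
    tendsto_nhds_unique f.en (tendsto_const_nhds.congr' (hm.mono fun _ k => k.e.symm)), nt⟩
  have k1 := m1.I.ge k
  have k2 : π ∈ y₀.F D.R ∪ y₀.I D.R := by_contra fun k' => (e2.ge ⟨k1.1, k'⟩).2 (.inr k)
  exact k2.resolve_left fun k' => k1.2.1 (m1.F.ge (hF k')).2

/-- **the strata satisfy the axioms** -/
theorem ax : (D.stra (J.En c σ Adm) Fa).Ax Adm σ Obc.Top Fa where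
  fin := Dt.finite H.fin
  finJ _ := Subtype.finite
  ax s j := (H.mo s j).ax
  cover q y a b e := ⟨_, Mem.of (E := J.En c σ Adm) ⟨q, y, a, b, rfl⟩ e⟩
  ntop _ _ _ _ _ e := e.nt
  en _ _ _ _ _ e := e.e
  sol s j i q y x a b e := (H.mo s j).sol i q y x a ⟨b, e⟩
  dens s j q y a b e := (H.mo s j).dens q y a ⟨b, e⟩
  kill _ _ _ f a b e k := f (H.face a b e k)
  face _ _ _ f _ _ e := ⟨f.1, e.t.2 f.2.1⟩
  fine s q₀ a α 𝒰 q y y₀ b d e f :=
    (H.lim (E := J.En c σ Adm) ⟨q₀, y₀, a, e, rfl⟩ e (d.mono fun _ k => ⟨k.2.1.ok H.ok H.mem, k.2.2⟩) f).imp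
      (fun m => ⟨m, fun j => (H.mo s j).near q₀ a α 𝒰 q y y₀ b d ⟨e, m⟩ f⟩)
      fun ⟨s', k, m⟩ => ⟨s', k, m, fun k' => by
        have k1 : s'.F = D.R := k'.2.2
        simp [k1, diff_eq_empty.2 (subset_union_left (s := D.R))] at k⟩

end Hyp
end Mds
end Job
end Crest.Agent.X212.An
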