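import Crest.Agent.X212.An.Cut
import Crest.Agent.X212.Wrd81.In
import Crest.Agent.X212.Eqv71.Wrd

/-!
# Row 212, layer AN: transport of terms and cuts along a partial diffeomorphism
-/

set_option autoImplicit false
set_option linter.unusedSectionVars false
noncomputable section
open scoped Manifold ContDiff Topology InnerProductSpace
open MeasureTheory Set Function

namespace Crest.Agent.X212.An
open Wrd81 Eqv71

/-- a transport of points, functions and sections -/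
structure Tp (M M' lam lam' : Type) where
  p : M → M'
  f : (M → ℝ) → M' → ℝ
  s : (M → Eu lam) → M' → Eu lam'

namespace Tp
variable {M M' lam lam' : Type} [Fintype lam] [Fintype lam'] (t : Tp M M' lam lam') {r n : ℕ}

def lt : Lt M → Lt M'
  | .mul f => .mul (t.f f)
  | .cl g => .cl (t.f g)
  | .im => .im
  | .G => .G

def la : La M → La M'
  | .mul f => .mul (t.f f)
  | .G => .G

def sd : Sd M → Sd M'
  | .q u v => .q (u.map t.lt) (v.map t.lt)
  | .cv f g h => .cv (t.f f) (t.f g) (t.f h)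

def aw (ξ : AW M) : AW M' := ⟨t.sd ξ.s, ξ.l.map t.la⟩

def sg (g : Sg M lam) : Sg M' lam' := ⟨t.s g.s, g.u.map t.lt, g.v.map t.lt⟩

def co : Co M lam r → Co M' lam' r
  | .z i => .z i
  | .s g L => .s (t.sg g) (L.map t.sg)

def tm : Tm M lam r n → Tm M' lam' r n
  | .lin u => .lin (u.map t.lt)
  | .anti d s u => .anti (t.co d) (t.s s) (u.map t.lt)
  | .ad g h ξ => .ad (t.f g) (t.f h) (t.aw ξ)
  | .adj d s g h u v l =>
      .adj (t.co d) (t.s s) (t.f g) (t.f h) (u.map t.lt) (v.map t.lt) (l.map t.la)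
  | .adn f g h φ L => .adn (t.f f) (t.f g) (t.f h) φ (L.map t.aw)
  | .cut i w g => .cut i w (t.sg g)
  | .cz i w k => .cz i w k

def xi : Xi M lam r → Xi M' lam' r
  | .one => .one
  | .aw ξ => .aw (t.aw ξ)
  | .qj d s u v l => .qj (t.co d) (t.s s) (u.map t.lt) (v.map t.lt) (l.map t.la)

def tc (T : Tc M lam r) : Tc M' lam' r := ⟨T.m, T.n, T.w, t.xi T.ξ⟩

def cut (k : Cut M lam) : Cut M' lam' where
  γ θ s := t.p (k.γ θ s)
  w := k.w.map fun d => (t.f d.1, t.f d.2.1, t.f d.2.2)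
  e := k.e.map fun d => (t.s d.1, t.f d.2.1, t.f d.2.2)

/-- push forward along `φ`, extended by zero -/
def of (φ : PartialEquiv M M') (v : M → CL (Eu lam) (Eu lam')) : Tp M M' lam lam' where
  p := φ
  f g := φ.target.indicator (g ∘ φ.symm)
  s g := φ.target.indicator fun y => v (φ.symm y) (g (φ.symm y))

/-! ### the transported terms correspond -/

section rel
variable (O : Set M) (v : M → CL (Eu lam) (Eu lam'))

structure Rel : Prop where
  f : ∀ g, FR O t.p g (t.f g)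
  s : ∀ g, SR O t.p v g (t.s g)

variable {t O v}

theorem forall₂_map {α β : Type} {R : α → β → Prop} {g : α → β} (h : ∀ a, R a (g a))
    (l : List α) : List.Forall₂ R l (l.map g) :=
  List.forall₂_map_right_iff.2 (List.forall₂_same.2 fun a _ => h a)

theorem rel_of (φ : PartialEquiv M M') (hO : O ⊆ φ.source) : (of φ v).Rel O v where
  f g x hx := by
    show φ.target.indicator (g ∘ φ.symm) (φ x) = g x
    rw [indicator_of_mem (φ.map_source (hO hx)), comp_apply, φ.left_inv (hO hx)]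
  s g x hx := by
    show trn (v x) (φ.target.indicator (fun y => v (φ.symm y) (g (φ.symm y))) (φ x)) = _
    rw [indicator_of_mem (φ.map_source (hO hx)), φ.left_inv (hO hx)]

namespace Rel
variable (h : t.Rel O v)
include h

theorem sw (u : SW M) : SWR O t.p u (u.map t.lt) := forall₂_map (fun a => by
  cases a
  exacts [.mul (h.f _), .cl (h.f _), .im, .G]) u

theorem ll (l : List (La M)) : List.Forall₂ (LaR O t.p) l (l.map t.la) := forall₂_map (fun a => by
  cases a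
  exacts [.mul (h.f _), .G]) l

theorem aw (ξ : AW M) : AWR O t.p ξ (t.aw ξ) := by
  obtain ⟨s, l⟩ := ξ
  refine ⟨?_, h.ll l⟩
  cases s
  exacts [.q (h.sw _) (h.sw _), .cv (h.f _) (h.f _) (h.f _)]

theorem sg (g : Sg M lam) : SgR O t.p v g (t.sg g) := ⟨h.s _, h.sw _, h.sw _⟩

theorem co (d : Co M lam r) : CoR O t.p v d (t.co d) := by
  cases d
  exacts [.z _, .s (h.sg _) (forall₂_map h.sg _)]

theorem tm (T : Tm M lam r n) : TmR O t.p v T (t.tm T) := by
  cases T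
  exacts [.lin (h.sw _), .anti (h.co _) (h.s _) (h.sw _), .ad (h.f _) (h.f _) (h.aw _),
    .adj (h.co _) (h.s _) (h.f _) (h.f _) (h.sw _) (h.sw _) (h.ll _),
    .adn _ (h.f _) (h.f _) (h.f _) (forall₂_map h.aw _), .cut _ _ (h.sg _), .cz _ _ _]

theorem cut [TopologicalSpace M] {k : Cut M lam} (hk : k.supp ⊆ O) : k.Rel (t.cut k) O t.p v :=
  ⟨hk, fun _ _ => rfl, forall₂_map (fun _ => ⟨h.f _, h.f _, h.f _⟩) _,
    forall₂_map (fun _ => ⟨h.s _, h.f _, h.f _⟩) _⟩

end Rel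
end rel
end Tp

/-! ### supports -/

variable {E : Type} [NormedAddCommGroup E] [NormedSpace ℝ E] [FiniteDimensional ℝ E]
  [MeasurableSpace E] [BorelSpace E]
  {HM : Type} [TopologicalSpace HM] {I : ModelWithCorners ℝ E HM} [I.Boundaryless]
  {M : Type} [TopologicalSpace M] [ChartedSpace HM M] [IsManifold I ∞ M]
  [MeasurableSpace M] [T2Space M] [BorelSpace M] [SecondCountableTopology M]
  {E' : Type} [NormedAddCommGroup E'] [NormedSpace ℝ E'] [FiniteDimensional ℝ E']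
  [MeasurableSpace E'] [BorelSpace E']
  {HM' : Type} [TopologicalSpace HM'] {I' : ModelWithCorners ℝ E' HM'} [I'.Boundaryless]
  {M' : Type} [TopologicalSpace M'] [ChartedSpace HM' M'] [IsManifold I' ∞ M']
  [MeasurableSpace M'] [T2Space M'] [BorelSpace M'] [SecondCountableTopology M']
  {ι : Type} [Fintype ι] {lam lam' : Type} [Fintype lam] [Fintype lam'] {r n : ℕ}

section defs
variable (I) (Ω : Set M)

def XiIn : Xi M lam r → Prop
  | .one => True
  | .aw ξ => AwIn I Ω ξ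
  | .qj d s u v l => CoIn I Ω d ∧ Tv I Ω s ∧ SwIn I Ω u ∧ SwIn I Ω v ∧ LlIn I Ω l

/-- the paths and the data of a cut lie in `Ω` -/
structure CutIn (k : Cut M lam) : Prop where
  sub : k.supp ⊆ Ω
  w : ∀ d ∈ k.w, Tf I Ω d.1 ∧ Tf I Ω d.2.1 ∧ Tf I Ω d.2.2
  e : ∀ d ∈ k.e, Tv I Ω d.1 ∧ Tf I Ω d.2.1 ∧ Tf I Ω d.2.2

end defs

theorem XiIn.ok {Ω : Set M} (F : Fr I M ι) {ξ : Xi M lam r} (h : XiIn I Ω ξ) : ξ.OK F := by
  cases ξ
  exacts [trivial, AwIn.ok F h, ⟨h.1.ok F, Sob92.Cb_of_hcs h.2.1.sm h.2.1.hcs, h.2.2.1.ok F,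
    h.2.2.2.1.ok F, h.2.2.2.2.ok F⟩]

namespace Tp
variable (t : Tp M M' lam lam') {Ω : Set M} {Ω' : Set M'}

variable (I I' Ω Ω') in
structure In : Prop where
  p : MapsTo t.p Ω Ω'
  f : ∀ g, Tf I Ω g → Tf I' Ω' (t.f g)
  s : ∀ g, Tv I Ω g → Tv I' Ω' (t.s g)

/-- extension by zero of a compactly supported function -/
theorem push {N : Type} [NormedAddCommGroup N] [NormedSpace ℝ N]
    (φ : PartialDiffeomorph I I' M M' ∞) {g : M → N} {K : Set M} (hK : IsCompact K)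
    (hs : K ⊆ φ.source) (h0 : ∀ x ∉ K, g x = 0) (hg : ContMDiffOn I 𝓘(ℝ, N) ∞ g φ.source) :
    Sm I' (φ.target.indicator (g ∘ φ.toPartialEquiv.symm)) ∧
      HasCompactSupport (φ.target.indicator (g ∘ φ.toPartialEquiv.symm)) ∧
      tsupport (φ.target.indicator (g ∘ φ.toPartialEquiv.symm)) ⊆ φ '' K := by
  have h1 : IsCompact (φ '' K) := hK.image_of_continuousOn (φ.contMDiffOn_toFun.continuousOn.mono hs)
  have h2 : support (φ.target.indicator (g ∘ φ.toPartialEquiv.symm)) ⊆ φ '' K := fun y hy => by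
    by_cases ht : y ∈ φ.target
    · rw [mem_support, indicator_of_mem ht] at hy
      exact ⟨_, by_contra fun hn => hy (h0 _ hn), φ.right_inv ht⟩
    · exact (hy (indicator_of_notMem ht _)).elim
  have h3 := closure_minimal h2 h1.isClosed
  refine ⟨fun y => ?_, h1.of_isClosed_subset isClosed_closure h3, h3⟩
  by_cases ht : y ∈ φ.target
  · refine ((hg.comp φ.contMDiffOn_invFun fun z hz => φ.map_target hz).contMDiffAt
      (φ.open_target.mem_nhds ht)).congr_of_eventuallyEq ?_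
    filter_upwards [φ.open_target.mem_nhds ht] with z hz
    exact indicator_of_mem hz _
  · refine contMDiff_of_tsupport (fun z hz => ?_) y |> fun h => h
    obtain ⟨x, hx, rfl⟩ := h3 hz
    have ht' := φ.map_source (hs hx)
    refine ((hg.comp φ.contMDiffOn_invFun fun z hz => φ.map_target hz).contMDiffAt
      (φ.open_target.mem_nhds ht')).congr_of_eventuallyEq ?_
    filter_upwards [φ.open_target.mem_nhds ht'] with z hz
    exact indicator_of_mem hz _

theorem in_of (φ : PartialDiffeomorph I I' M M' ∞) {v : M → CL (Eu lam) (Eu lam')}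
    (hv : ContMDiffOn I 𝓘(ℝ, CL (Eu lam) (Eu lam')) ∞ v φ.source) (hΩ : Ω ⊆ φ.source) :
    (of φ.toPartialEquiv v).In I I' Ω (φ '' Ω) where
  p := mapsTo_image _ _
  f g hg := by
    obtain ⟨h1, h2, h3⟩ := push φ hg.hcs (hg.sub.trans hΩ)
      (fun _ => image_eq_zero_of_notMem_tsupport) hg.sm.contMDiffOn
    exact ⟨h1, h2, h3.trans (image_mono hg.sub)⟩
  s g hg := by
    obtain ⟨h1, h2, h3⟩ := push φ (g := fun x => v x (g x)) hg.hcs (hg.sub.trans hΩ)
      (fun x hx => by rw [image_eq_zero_of_notMem_tsupport hx, map_zero])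
      (hv.clm_apply hg.sm.contMDiffOn)
    exact ⟨h1, h2, h3.trans (image_mono hg.sub)⟩

variable {t}
namespace In
variable (h : t.In I I' Ω Ω')
include h

theorem sw {u : SW M} (hu : SwIn I Ω u) : SwIn I' Ω' (u.map t.lt) :=
  List.forall_mem_map.2 fun a ha => by
    have := hu a ha
    cases a
    exacts [h.f _ this, h.f _ this, trivial, trivial]

theorem ll {l : List (La M)} (hl : LlIn I Ω l) : LlIn I' Ω' (l.map t.la) :=
  List.forall_mem_map.2 fun a ha => by
    have := hl a ha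
    cases a
    exacts [h.f _ this, trivial]

theorem aw {ξ : AW M} (hξ : AwIn I Ω ξ) : AwIn I' Ω' (t.aw ξ) := by
  obtain ⟨s, l⟩ := ξ
  refine ⟨?_, h.ll hξ.2⟩
  cases s
  exacts [⟨h.sw hξ.1.1, h.sw hξ.1.2⟩, ⟨h.f _ hξ.1.1, h.f _ hξ.1.2.1, h.f _ hξ.1.2.2⟩]

theorem sg {g : Sg M lam} (hg : SgIn I Ω g) : SgIn I' Ω' (t.sg g) :=
  ⟨h.s _ hg.1, h.sw hg.2.1, h.sw hg.2.2⟩

theorem co {d : Co M lam r} (hd : CoIn I Ω d) : CoIn I' Ω' (t.co d) := by
  cases d
  exacts [trivial, ⟨h.sg hd.1, List.forall_mem_map.2 fun g hg => h.sg (hd.2 g hg)⟩]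

theorem tm {T : Tm M lam r n} (hT : TmIn I Ω T) : TmIn I' Ω' (t.tm T) := by
  cases T with
  | lin u =>
    obtain ⟨h1, f, w, rfl⟩ := hT
    exact ⟨h.sw h1, _, _, rfl⟩
  | anti => exact ⟨h.co hT.1, h.s _ hT.2.1, h.sw hT.2.2⟩
  | ad => exact ⟨h.f _ hT.1, h.f _ hT.2.1, h.aw hT.2.2⟩
  | adj => exact ⟨h.co hT.1, h.s _ hT.2.1, h.f _ hT.2.2.1, h.f _ hT.2.2.2.1, h.sw hT.2.2.2.2.1,
      h.sw hT.2.2.2.2.2.1, h.ll hT.2.2.2.2.2.2⟩
  | adn => exact ⟨h.f _ hT.1, h.f _ hT.2.1, h.f _ hT.2.2.1, hT.2.2.2.1, hT.2.2.2.2.1,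
      List.forall_mem_map.2 fun ξ hξ => h.aw (hT.2.2.2.2.2 ξ hξ)⟩
  | cut => exact h.sg hT
  | cz => trivial

theorem xi {ξ : Xi M lam r} (hξ : XiIn I Ω ξ) : XiIn I' Ω' (t.xi ξ) := by
  cases ξ
  exacts [trivial, h.aw hξ,
    ⟨h.co hξ.1, h.s _ hξ.2.1, h.sw hξ.2.2.1, h.sw hξ.2.2.2.1, h.ll hξ.2.2.2.2⟩]

theorem cut {k : Cut M lam} (hk : CutIn I Ω k) : CutIn I' Ω' (t.cut k) where
  sub := by
    rintro _ ⟨y, rfl⟩
    exact h.p (hk.sub ⟨y, rfl⟩)
  w := List.forall_mem_map.2 fun d hd =>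
    ⟨h.f _ (hk.w d hd).1, h.f _ (hk.w d hd).2.1, h.f _ (hk.w d hd).2.2⟩
  e := List.forall_mem_map.2 fun d hd =>
    ⟨h.s _ (hk.e d hd).1, h.f _ (hk.e d hd).2.1, h.f _ (hk.e d hd).2.2⟩

end In
end Tp

end Crest.Agent.X212.An
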