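import Crest.Agent.X212.An.CutR
import Crest.Agent.X212.Wrd81.Fin

/-!
# Row 212, layer AN: the cuts over a gauge theory

`CTh` : cuts with perturbations of their rows.  `CTh.OK.ext` : the extension of the moduli problem
of `Θ : Mod61.Th`, with `ax`, `sol_iff`, `onto`.
-/

set_option autoImplicit false
set_option linter.unusedSectionVars false
noncomputable section
open scoped Manifold ContDiff Topology InnerProductSpace
open MeasureTheory Set Function Filter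

namespace Crest.Agent.X212.An
open Mod61 Eqv71 Hol14 Cnt93

variable {E : Type} [NormedAddCommGroup E] [NormedSpace ℝ E] [FiniteDimensional ℝ E]
  [MeasurableSpace E] [BorelSpace E]
  {HM : Type} [TopologicalSpace HM] {I : ModelWithCorners ℝ E HM} [I.Boundaryless]
  {M : Type} [TopologicalSpace M] [ChartedSpace HM M] [IsManifold I ∞ M]
  [MeasurableSpace M] [T2Space M] [BorelSpace M] [SecondCountableTopology M]
  {ι : Type} [Fintype ι] {lam : Type} [Fintype lam]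
  {T : Type} [NormedAddCommGroup T] [NormedSpace ℝ T]
  {𝔉 : Fam I M ι lam T} {o o' : Ref 𝔉} {r n m k : ℕ} {W : Type} {c : Cut M lam} {x : M}

theorem cl_of {Al : (M → CL o.m.V o.m.V) → Circle → Prop} (Γ : GrpM o r k Al) {y y' : Pnt o r}
    {g₁ g₂ : Γ.G} {u v : o.C r k} (e : y.pt k = g₁ • u) (e' : y'.pt k = g₂ • v) {x : ℕ → o.C r k}
    {g : ℕ → Γ.G} (h1 : Tendsto x atTop (𝓝 u)) (h2 : Tendsto (fun n => g n • x n) atTop (𝓝 v)) :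
    ∃ (φ : ℕ → ℕ) (a : Γ.G), StrictMono φ ∧ a • u = v ∧ Tendsto (g ∘ φ) atTop (𝓝 a) := by
  have p := (Γ.proper y y').smul g₁⁻¹ g₂⁻¹
  rw [inv_smul_eq_iff.2 e, inv_smul_eq_iff.2 e'] at p
  obtain ⟨φ, a, hφ, ha⟩ := p x g h1 h2
  exact ⟨φ, a, hφ, tendsto_nhds_unique (ha.smul (h1.comp hφ.tendsto_atTop))
    (h2.comp hφ.tendsto_atTop), ha⟩

variable (𝔉 r W) in
/-- cuts and the perturbations of their rows -/
structure CTh (h : Type) where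
  k : h → Cut M lam
  σ : ∀ i, W → T → Pc r 𝔉.B (k i)

namespace CTh
variable {hh : Type} [Fintype hh] (Ξ : CTh 𝔉 r W hh) (Θ : Th 𝔉 r n m W)

/-- the perturbation of the row of the cut `i` -/
def tot (q : W →₀ ℝ) (i : hh) (t : T) : Pc r 𝔉.B (Ξ.k i) := fun x =>
  q.sum fun w a => a • Ξ.σ i w t x

theorem ev_tot (q : W →₀ ℝ) (i : hh) (y : Pnt o r) :
    evC (Ξ.tot q i) y = ∑ w ∈ q.support, q w • evC (Ξ.σ i w) y := rfl

/-- points with fields -/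
abbrev X : Type := Σ a, Pnt (Θ.ref a) r × ∀ i, HH (Θ.ref a) (Ξ.k i)

/-- equivalence -/
def Eqv (x x' : Ξ.X Θ) : Prop := x'.2.1.t = x.2.1.t ∧ ∃ w ζ, Θ.Al x.1 x'.1 w ζ ∧
  x.2.1.Eq x'.2.1 w ζ ∧ ∀ i, (Ξ.k i).Eqv (Ξ.k i) 𝔉.B 𝔉.B w (x.2.2 i) (x'.2.2 i)

structure OK : Prop where
  ok : ∀ i, ∀ t ∈ 𝔉.Q, (Ξ.k i).OK 𝔉.B (𝔉.G t).F
  sub : ∀ i, (Ξ.k i).supp ⊆ 𝔉.Om
  rp : ∀ a i w, ∃ f, RepC (Θ.ref a) Θ.k (Ξ.σ i w) f
  nat : ∀ a b i w, NatC (Θ.ref a) (Θ.ref b) (Θ.Al a b) (Ξ.σ i w)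
  cpt : ∀ a i w (y : Pnt (Θ.ref a) r), IsCompactOperator (evC (Ξ.σ i w) y)

variable {Ξ Θ} [CompleteSpace T] {Adm : (W →₀ ℝ) → Prop}

namespace OK
variable (H : Ξ.OK Θ) (h : Θ.OK Adm)
include H

theorem x0 (i : hh) : (Ξ.k i).x0 ∈ 𝔉.Om := H.sub i ⟨(0, 0), rfl⟩

theorem equiv (g : Θ.Gpd) : Equivalence (Ξ.Eqv Θ) where
  refl x := ⟨rfl, _, _, g.refl x.1, x.2.1.eq_refl g.fam, fun _ => eqv_refl (Θ.ref x.1).ok _⟩
  symm := fun {x x'} ⟨ht, w, c, al, e, f⟩ => ⟨ht.symm, _, _,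
    g.symm ⟨x.1, x.2.1⟩ ⟨x'.1, x'.2.1⟩ w c ht e al, e.symm g.fam ht, fun i =>
      eqv_symm (ψ := id) (lmC g.fam ht e) (rel_refl g.fam.B (H.sub i)) rfl (f i)⟩
  trans := fun {x x' x''} ⟨ht, w, c, al, e, f⟩ ⟨ht', w', c', al', e', f'⟩ => ⟨ht'.trans ht, _, _,
    g.trans ⟨x.1, x.2.1⟩ ⟨x'.1, x'.2.1⟩ ⟨x''.1, x''.2.1⟩ w c w' c' ht e ht' e' al al',
    e.trans g.fam ht e' ht', fun i => eqv_trans (φ := id) rfl (e'.m.J _ (H.x0 i))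
      (Θ.ref x''.1).ok.Jsq (f i) (f' i)⟩

/-- the representing maps -/
def sg (a : Θ.O) (i : hh) (w : W) :
    (Θ.ref a).C r Θ.k → CL (HH (Θ.ref a) (Ξ.k i)) (HH (Θ.ref a) (Ξ.k i)) :=
  (H.rp a i w).choose

theorem rep_sg (a : Θ.O) (i : hh) (w : W) : RepC (Θ.ref a) Θ.k (Ξ.σ i w) (H.sg a i w) :=
  (H.rp a i w).choose_spec

/-- **the extension** -/
@[reducible] def ext : Ext h.Q hh where
  K a i := HH (Θ.ref a) (Ξ.k i)
  J a i := JC (Θ.ref a) (Ξ.k i)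
  rep a i :=
    { toFun := fun g : (Θ.Γ a).G => rC _ _ (Ξ.k i) ((Θ.Γ a).u g (Ξ.k i).x0)
      map_one' := ContinuousLinearMap.ext fun v =>
        (congrArg (rC _ _ (Ξ.k i) · v) ((Θ.Γ a).u_one (H.x0 i))).trans (rC_p h.fam v)
      map_mul' := fun g g' : (Θ.Γ a).G => ContinuousLinearMap.ext fun v =>
        (congrArg (rC _ _ (Ξ.k i) · v) ((Θ.Γ a).umul g g' _ (H.x0 i))).trans
          ((itC h.fam ((Θ.Γ a).mx g' (H.x0 i))).rH_rH v).symm }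
  Jsq a _ := JH_JH (cpC h.fam (Θ.ref a))
  repJ a i g := (itC h.fam ((Θ.Γ a).mx g (H.x0 i))).rH_JH
  T0 a i (v : (Θ.ref a).C r Θ.k) := (Ξ.k i).T 𝔉.B (𝔉.G v.2.2.2).F (Θ.ref a).m (Csm97.Wv _ v)
  σ a i w v := -H.sg a i w v
  eqv := ⟨Ξ.Eqv Θ, H.equiv h.toGpd⟩

theorem T_pt (q : W →₀ ℝ) (a : Θ.O) (i : hh) (y : Pnt (Θ.ref a) r) :
    (H.ext h).T a i q (y.pt Θ.k) = evC (tpC 𝔉 r (Ξ.k i)) y - evC (Ξ.tot q i) y := by
  have e : evC (tpC 𝔉 r (Ξ.k i)) y + ∑ w ∈ q.support, q w • -H.sg a i w (y.pt Θ.k) =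
      evC (tpC 𝔉 r (Ξ.k i)) y - evC (Ξ.tot q i) y := by
    simp only [(H.rep_sg a i _).2 y, smul_neg, Finset.sum_neg_distrib, ev_tot, sub_eq_add_neg]
  rw [← e, ← (repC_tp h.fam h.k3 (H.ok i)).2 y]
  rfl

theorem cpt_tot (q : W →₀ ℝ) (a : Θ.O) (i : hh) (y : Pnt (Θ.ref a) r) :
    IsCompactOperator (evC (Ξ.tot q i) y) :=
  cpt_sum (A := fun w => q w • evC (Ξ.σ i w) y) _ fun w _ => (H.cpt a i w y).smul (q w)

theorem fred (q : W →₀ ℝ) (a : Θ.O) (i : hh) (y : Pnt (Θ.ref a) r) :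
    Fred93.Fr ((H.ext h).T a i q (y.pt Θ.k)) 0 := by
  rw [H.T_pt h]
  exact fr_sub h.fam.B (Θ.ref a).ok (H.ok i _ y.ht) (cn0_of (y.ad0 h.fam).conn) (H.cpt_tot q a i y)

/-- the solutions of the extended problem -/
theorem sol_iff (q : W →₀ ℝ) (x : Ξ.X Θ) : (H.ext h).prob.Sol q x ↔
    (Θ.In ⟨x.1, x.2.1⟩ ∧ Θ.Zr q ⟨x.1, x.2.1⟩) ∧ ∀ i, (Ξ.k i).Sol 𝔉.B (𝔉.G x.2.1.t).F
      (Ξ.tot q i x.2.1.t) x.2.1.cfg (x.2.2 i) :=
  ((H.ext h).sol_iff q x).trans (and_congr (h.sol_iff q _) (forall_congr' fun i =>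
    and_congr_right fun _ => (iff_of_eq (congrArg (fun A : CL (HH (Θ.ref x.1) (Ξ.k i))
      (HH (Θ.ref x.1) (Ξ.k i)) => A (x.2.2 i) = 0) (H.T_pt h q x.1 i x.2.1))).trans sub_eq_zero))

theorem cont_rep (a : Θ.O) (i : hh) : Continuous fun g : (Θ.Γ a).G => (H.ext h).rep a i g :=
  (rHL (Θ.ref a).m.J ((Θ.ref a).m.pp 𝔉.B (Ξ.k i).x0)).continuous.comp ((Θ.Γ a).cu _)

set_option maxHeartbeats 1600000 in
/-- **the axioms** -/
theorem ax : (H.ext h).Ax Adm where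
  base := h.ax
  Jsk a _ := JH_skew (cpC h.fam (Θ.ref a))
  iso a i g := norm_rC h.fam ((Θ.Γ a).mx g (H.x0 i))
  sm0 a i := (repC_tp h.fam h.k3 (H.ok i)).1
  smσ a i w := (H.rep_sg a i w).1.neg
  J0 a i _ hv := (repC_tp h.fam h.k3 (H.ok i)).J h.fam (H.sub i) h.k3 (h.refl a)
    (natC_tp h.fam (H.sub i) (H.ok i) _) hv
  Jσ a i w _ hv ψ := (congrArg Neg.neg ((H.rep_sg a i w).J h.fam (H.sub i) h.k3 (h.refl a)
    (H.nat a a i w) hv ψ)).trans (map_neg _ _).symm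
  act0 a i g _ hv := (repC_tp h.fam h.k3 (H.ok i)).act h.fam (H.sub i) h.k3 (Θ.Γ a)
    (natC_tp h.fam (H.sub i) (H.ok i) _) g hv
  actσ a i w g _ hv ψ := (congrArg Neg.neg ((H.rep_sg a i w).act h.fam (H.sub i) h.k3 (Θ.Γ a)
    (H.nat a a i w) g hv ψ)).trans (map_neg _ _).symm
  fred q x i _ _ := H.fred h q x.1 i x.2
  eqv := fun _ _ ⟨ht, w, c, al, e, _⟩ => ⟨ht, w, c, al, e⟩
  orb a y y' ψ ψ' _ _ := by
    refine ⟨fun ⟨ht, w, c, al, e, f⟩ => ?_, fun ⟨g, e, f⟩ => ?_⟩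
    · obtain ⟨g, h1, h2⟩ := (Θ.Γ a).surj y y' w c ht al e
      refine ⟨g, (Θ.Γ a).smul_of_eq h.fam h.k3 e ht h1 h2, fun i => ?_⟩
      have := (eqvC_iff h.fam (H.sub i) ht e).1 (f i)
      rwa [← h1 _ (H.x0 i)] at this
    · have e' := (Θ.Γ a).eq_of_smul h.fam h.k3 e
      exact ⟨(Θ.Γ a).t_eq e, _, _, (Θ.Γ a).al g y y' e, e', fun i =>
        (eqvC_iff h.fam (H.sub i) ((Θ.Γ a).t_eq e) e').2 (f i)⟩
  tr := fun x x' _ ⟨ht, w, c, al, e, f⟩ => by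
    obtain ⟨A, b, -, hA⟩ := h.tr_of (x := ⟨x.1, x.2.1⟩) (x' := ⟨x'.1, x'.2.1⟩) ht al e
    have mv := h.mv ⟨x.1, x.2.1⟩ ⟨x'.1, x'.2.1⟩ w c ht e al
    have me := fun i => (e.mi h.fam ht).me _ (H.x0 i)
    choose η hη using fun i => (eqvC_iff h.fam (H.sub i) ht e).1 (f i)
    refine ⟨_, fun i => RI h.fam (me i) (η i), ?_, fun i => (hη i).symm, hA _ x.2.1.mem_U, ?_,
      fun y => ?_⟩
    · change x'.2.1.pt Θ.k + A (x.2.1.pt Θ.k - x.2.1.pt Θ.k) = x'.2.1.pt Θ.k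
      rw [sub_self, map_zero, add_zero]
    · filter_upwards [(isOpen_U h.fam).mem_nhds x.2.1.mem_U] with v hv i ψ
      simp only [RI_apply, ← Rh_eq h.fam (me i)]
      exact ⟨(repC_tp h.fam h.k3 (H.ok i)).tr h.fam (H.sub i) h.k3 al e ht mv b
        (repC_tp h.fam h.k3 (H.ok i)) (natC_tp h.fam (H.sub i) (H.ok i) _) hv _ _, fun j =>
        (congrArg Neg.neg ((H.rep_sg _ i j).tr h.fam (H.sub i) h.k3 al e ht mv b (H.rep_sg _ i j)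
          (H.nat _ _ i j) hv _ _)).trans (map_neg _ _).symm⟩
    · obtain ⟨y', h1, h2, h3⟩ := e.tr h.fam ht mv y
      exact ⟨y', h3 _ h.k3 A b, fun χ => ⟨h1, w, c, al, h2, fun i =>
        (eqvC_iff h.fam (H.sub i) h1 h2).2 ⟨η i, rfl⟩⟩⟩
  slc q x ha hx := by
    obtain ⟨D, h1, h2, h3, -, h4, h5⟩ := h.slc_of ha hx
    refine ⟨D, h1, h4, h5, fun i => ?_, ?_⟩
    · obtain ⟨s, hs⟩ := h3 (Ξ.k i).x0
      exact ⟨_, (rHL (Θ.ref x.1).m.J ((Θ.ref x.1).m.pp 𝔉.B (Ξ.k i).x0)).hasStrictFDerivAt.comp 0 hs⟩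
    · exact @Ext.tame_of_proper _ _ _ _ (H.ext h) x.1 (Θ.Γ x.1).tG (Θ.Γ x.1).cG (Θ.Γ x.1).sG _ _
        ((Θ.Γ x.1).proper x.2 x.2) (fun g e =>
        ⟨((Θ.Γ x.1).free_iff h.fam h.k3).2 hx.1.1 g e, fun i => rC_triv h.fam
          ((Θ.Γ x.1).mx g (H.x0 i)) ((hx.1.1 _ _ ((Θ.Γ x.1).al g _ _ e)
            ((Θ.Γ x.1).eq_of_smul h.fam h.k3 e)).g _ (H.x0 i))⟩) h2
  cl a x g u v := by
    rintro ⟨g₁, y, -, e⟩ ⟨g₂, y', -, e'⟩ h1 h2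
    obtain ⟨φ, k, hφ, e, hk⟩ := cl_of (Θ.Γ a) e e' h1 h2
    exact ⟨φ, k, hφ, e, fun i => ((H.cont_rep h a i).tendsto k).comp hk⟩

set_option maxHeartbeats 800000 in
/-- **`Onto` from density**; `P i w` : the term `w` acts on the row of the cut `i` only -/
theorem onto {q : W →₀ ℝ} {x : Ξ.X Θ} (hx : (H.ext h).prob.Sol q x)
    (h1 : ∃ J, h.Q.Onto q ⟨x.1, x.2.1⟩ J) {P : hh → W → Prop}
    (h2 : ∀ i w, P i w → (Θ.τ w x.2.1.t).Zr x.2.1.cfg 𝔉.Om 𝔉.Om' ∧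
      ∀ j, j ≠ i → evC (Ξ.σ j w) x.2.1 = 0)
    (h3 : ∀ i (N : Submodule ℝ (HH (Θ.ref x.1) (Ξ.k i))), IsClosed (N : Set (HH (Θ.ref x.1) (Ξ.k i))) →
      (∀ χ, (evC (tpC 𝔉 r (Ξ.k i)) x.2.1 - evC (Ξ.tot q i) x.2.1) χ ∈ N) →
      (∀ w, P i w → evC (Ξ.σ i w) x.2.1 (x.2.2 i) ∈ N) → ∀ χ, χ ∈ N) :
    ∃ J, (H.ext h).prob.Onto q x J := by
  classical
  obtain ⟨a, y, ψ⟩ := x
  obtain ⟨J, h1⟩ := h1
  let A := dgl fun i => (H.ext h).T a i q (y.pt Θ.k)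
  let v : {w // ∃ i, P i w} → ∀ i, HH (Θ.ref a) (Ξ.k i) := fun w i => -H.sg a i w (y.pt Θ.k) (ψ i)
  have hF := (fr_dgl fun i => H.fred h q a i y).1
  have := hF.finite_coker
  obtain ⟨s, hs⟩ := Wrd81.exists_finset_top A.range hF.isClosed_range v fun f => by
    let N := (A.range ⊔ Submodule.span ℝ (range v)).topologicalClosure
    rw [← Finset.univ_sum_single f]
    refine N.sum_mem fun i _ => h3 i (N.comap (LinearMap.single ℝ (fun i => HH (Θ.ref a) (Ξ.k i)) i))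
      ((Submodule.isClosed_topologicalClosure _).preimage
        (continuous_single (A := fun i => HH (Θ.ref a) (Ξ.k i)) i))
      (fun χ => Submodule.le_topologicalClosure _ (Submodule.mem_sup_left
        ⟨Pi.single i χ, funext fun j => ?_⟩)) (fun w hw => Submodule.le_topologicalClosure _
          (Submodule.mem_sup_right (Submodule.neg_mem_iff _ |>.1 (Submodule.subset_span
            ⟨⟨w, i, hw⟩, funext fun j => ?_⟩)))) _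
    · rcases eq_or_ne j i with rfl | e
      · simpa [A] using congrArg (· χ) (H.T_pt h q a j y)
      · simp [A, e]
    · rcases eq_or_ne j i with rfl | e
      · simp [v, (H.rep_sg a j w).2 y]
      · simp [v, e, (H.rep_sg a j w).2 y, (h2 i w hw).2 j e]
  refine ⟨_, (H.ax h).onto hx h1 (J' := s.image Subtype.val) (fun w hw => ?_) fun f => ?_⟩
  · obtain ⟨⟨w, i, hi⟩, -, rfl⟩ := Finset.mem_image.1 hw
    exact (((h.repτ a w).2 y).zero_iff h.fam h.k4).2 (h2 i w hi).1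
  · obtain ⟨_, ⟨χ, rfl⟩, z, hz, e⟩ := Submodule.mem_sup.1 (hs ▸ Submodule.mem_top (x := f))
    obtain ⟨c, hc⟩ := (Submodule.mem_span_range_iff_exists_fun ℝ).1 (Submodule.span_mono
      (t := range fun (w : (s.image Subtype.val : Finset W)) i => -H.sg a i w (y.pt Θ.k) (ψ i))
      (by rintro _ ⟨w, hw, rfl⟩; exact ⟨⟨w, Finset.mem_image_of_mem _ hw⟩, rfl⟩) hz)
    refine ⟨χ, c, fun i => ?_⟩
    rw [← e, ← hc, Pi.add_apply, Finset.sum_apply]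
    rfl

end OK
end CTh
end Crest.Agent.X212.An
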