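import Crest.Agent.X212.An.Gauge
import Crest.Agent.X212.Num57.Cof

/-!
# Row 212, layer AN: the Toeplitz cut

A sphere swept by paths `γ θ` from `x₀` to `x₁`, a rank two complex subbundle `U` of `V⁺` along it
with a quaternionic structure; the holonomy symbol acts on the Hardy space of the fibre at `x₀`.
-/

set_option autoImplicit false
set_option linter.unusedSectionVars false
noncomputable section
open scoped Manifold ContDiff Topology InnerProductSpace ENNReal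
open MeasureTheory Set Function

namespace Crest.Agent.X212.An
open Wrd81 (wd)

/-! ### Hardy spaces -/

abbrev μc : Measure UnitAddCircle := AddCircle.haarAddCircle
abbrev L2c (κ : Type) [Fintype κ] : Type := Lp (Eu κ) 2 μc

open Classical in
/-- a function as a continuous map (zero if it is not continuous) -/
def cm {X Y : Type} [TopologicalSpace X] [TopologicalSpace Y] [Zero Y] (g : X → Y) : C(X, Y) :=
  if h : Continuous g then ⟨g, h⟩ else 0

section hardy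
variable {κ : Type} [Fintype κ]

/-- a complex number as an endomorphism -/
def csE (J : En κ) (c : ℂ) : En κ := c.re • (1 : En κ) + c.im • J

/-- multiplication operators -/
def mulC : CL C(UnitAddCircle, En κ) (CL (L2c κ) (L2c κ)) :=
  (ContinuousLinearMap.id ℝ (En κ)).holderL μc ∞ 2 2 ∘L ContinuousMap.toLp ∞ μc ℝ

/-- the mode `θ ↦ e^{2πinθ} v` -/
def md (J : En κ) (n : ℤ) : CL (Eu κ) (L2c κ) :=
  mulC (cm fun θ => csE J (fourier n θ)) ∘L Lp.constL 2 μc ℝ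

/-- Fourier coefficients -/
def fc (J : En κ) (n : ℤ) : CL (L2c κ) (Eu κ) := ContinuousLinearMap.adjoint (md J n)

/-- the Hardy space of the range of `p` -/
def Hd (J p : En κ) : Submodule ℝ (L2c κ) :=
  (Submodule.span ℝ (⋃ n : ℕ, md J n '' {v | p v = v})).topologicalClosure

instance (J p : En κ) : CompleteSpace (Hd J p) := Submodule.topologicalClosure.completeSpace _

/-- compression to the Hardy space -/
def cpr (J p : En κ) (T : CL (L2c κ) (L2c κ)) : CL (Hd J p) (Hd J p) :=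
  (Hd J p).orthogonalProjectionOnto ∘L T ∘L (Hd J p).subtypeL

/-- Toeplitz operators -/
def tpz (J p : En κ) (g : UnitAddCircle → En κ) : CL (Hd J p) (Hd J p) := cpr J p (mulC (cm g))

/-- `ψ ↦ e_m Ξ ψ̂(n)` -/
def frk (J p : En κ) (m n : ℕ) (Ξ : En κ) : CL (Hd J p) (Hd J p) :=
  cpr J p (md J m ∘L Ξ ∘L fc J n)

open Classical in
/-- transport: the solution of `P' = -A P`, `P 0 = 1` -/
def trp (A : ℝ → En κ) : ℝ → En κ :=
  if h : ∃ P : ℝ → En κ, P 0 = 1 ∧ ∀ s, HasDerivAt P (-(A s * P s)) s then h.choose else 0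

/-- covariant derivative of endomorphisms along a path -/
def cvd (A T : ℝ → En κ) (s : ℝ) : En κ := deriv T s + (A s * T s - T s * A s)

end hardy

variable {E : Type} [NormedAddCommGroup E] [NormedSpace ℝ E] [FiniteDimensional ℝ E]
  [MeasurableSpace E] [BorelSpace E]
  {HM : Type} [TopologicalSpace HM] {I : ModelWithCorners ℝ E HM} [I.Boundaryless]
  {M : Type} [TopologicalSpace M] [ChartedSpace HM M] [IsManifold I ∞ M]
  [MeasurableSpace M] [BorelSpace M] [SecondCountableTopology M] {ι : Type} [Fintype ι] {lam : Type} [Fintype lam]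
  {M' : Type} {ι' : Type} [Fintype ι'] {lam' : Type} [Fintype lam']

/-! ### the data of a cut -/

variable (M lam) in
/-- paths, the form `∑ f dg ∧ dh`, and the section `∑ dg ∧ dh ⊗ s` -/
structure Cut where
  γ : UnitAddCircle → ℝ → M
  w : List ((M → ℝ) × (M → ℝ) × (M → ℝ))
  e : List ((M → Eu lam) × (M → ℝ) × (M → ℝ))

/-- the self-dual part of `dg ∧ dh / 2` -/
def Base.dd (B : Base M ι lam) (F : Fr I M ι) (g h : M → ℝ) (x : M) : Eu (ι × ι) :=
  WithLp.toLp 2 fun s => ∑ t, B.sd x s t * (F.D t.1 g x * F.D t.2 h x)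

/-- Clifford action of two-tensors -/
def Md.c2 (m : Md M ι lam) (x : M) (w : Eu (ι × ι)) : En (Fin m.N) :=
  ∑ s, w s • (m.ρ s.1 x * m.ρ s.2 x)

namespace Cut
variable (k : Cut M lam) (B : Base M ι lam) (F : Fr I M ι) (m : Md M ι lam)

def x0 : M := k.γ 0 0

def om (x : M) : Eu (ι × ι) := (k.w.map fun t => t.1 x • B.dd F t.2.1 t.2.2 x).sum

/-- the projector onto `U` -/
def pi (x : M) : En (Fin m.N) :=
  (1 / 2 : ℝ) • (m.pp B x - (2 * ‖k.om B F x‖)⁻¹ • (m.J * m.c2 x (k.om B F x)))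

def q0 (x : M) : En (Fin m.N) :=
  k.pi B F m x * (k.e.map fun t => m.c2 x (B.dd F t.2.1 t.2.2 x) * m.j x (t.1 x)).sum *
    k.pi B F m x

/-- the quaternionic structure of `U` -/
def qu (x : M) : En (Fin m.N) := (2 / ‖hsL (k.q0 B F m x)‖) • k.q0 B F m x

/-- frame components of the velocity -/
def vel (θ : UnitAddCircle) (s : ℝ) (a : ι) : ℝ :=
  Num57.tl F (k.γ θ s) a (mfderiv 𝓘(ℝ, ℝ) I (k.γ θ) s (1 : ℝ))

def A0 (W : m.Cn) (θ : UnitAddCircle) (s : ℝ) : En (Fin m.N) :=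
  ∑ a, k.vel F θ s a • W a (k.γ θ s)

/-- `π` made parallel -/
def A1 (W : m.Cn) (θ : UnitAddCircle) (s : ℝ) : En (Fin m.N) :=
  k.A0 F m W θ s + ((2 : ℝ) • k.pi B F m (k.γ θ s) - 1) *
    cvd (k.A0 F m W θ) (fun s => k.pi B F m (k.γ θ s)) s

/-- the quaternionic structure made parallel -/
def A2 (W : m.Cn) (θ : UnitAddCircle) (s : ℝ) : En (Fin m.N) :=
  k.A1 B F m W θ s - (1 / 2 : ℝ) • (k.qu B F m (k.γ θ s) *
    cvd (k.A1 B F m W θ) (fun s => k.qu B F m (k.γ θ s)) s)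

/-- the symbol -/
def sym (W : m.Cn) (θ : UnitAddCircle) : En (Fin m.N) :=
  trn (trp (k.A2 B F m W 0) 1) * trp (k.A2 B F m W θ) 1 * k.pi B F m k.x0 +
    (m.pp B k.x0 - k.pi B F m k.x0)

abbrev H : Type := Hd m.J (m.pp B k.x0)

/-- the Toeplitz operator of a connection -/
def T (W : m.Cn) : CL (k.H B m) (k.H B m) := tpz _ _ (k.sym B F m W)

structure OK : Prop where
  sm : ContMDiff 𝓘(ℝ, ℝ × ℝ) I ∞ fun y : ℝ × ℝ => k.γ (y.1 : UnitAddCircle) y.2
  h0 : ∀ θ s, s ≤ 0 → k.γ θ s = k.x0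
  h1 : ∀ θ s, 1 ≤ s → k.γ θ s = k.γ 0 1
  sw : ∀ t ∈ k.w, F.Cb t.1 ∧ F.Cd t.2.1 ∧ F.Cd t.2.2
  se : ∀ t ∈ k.e, F.Cb t.1 ∧ F.Cd t.2.1 ∧ F.Cd t.2.2
  om : ∀ θ s, k.om B F (k.γ θ s) ≠ 0
  q0 : ∀ m : Md M ι lam, m.OK I B → ∀ θ s, k.q0 B F m (k.γ θ s) ≠ 0

/-- the image of the paths -/
def supp : Set M := range (uncurry k.γ)

/-- corresponding cuts -/
structure Rel (k' : Cut M' lam') (O : Set M) (φ : M → M') (v : M → CL (Eu lam) (Eu lam')) :
    Prop where
  sub : k.supp ⊆ O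
  γ : ∀ θ s, k'.γ θ s = φ (k.γ θ s)
  w : List.Forall₂ (fun t t' => EqOn (t'.1 ∘ φ) t.1 O ∧ EqOn (t'.2.1 ∘ φ) t.2.1 O ∧
    EqOn (t'.2.2 ∘ φ) t.2.2 O) k.w k'.w
  e : List.Forall₂ (fun t t' => (∀ x ∈ O, trn (v x) (t'.1 (φ x)) = trn (v x) (v x (t.1 x))) ∧
    EqOn (t'.2.1 ∘ φ) t.2.1 O ∧ EqOn (t'.2.2 ∘ φ) t.2.2 O) k.e k'.e

end Cut

/-! ### terms -/

variable (M lam) in
/-- endomorphisms of the fibre at `x₀` -/
inductive Xi (r : ℕ)
  | one
  | aw (ξ : AW M)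
  | qj (d : Co M lam r) (s : M → Eu lam) (u v : SW M) (l : List (La M))

variable (M lam) in
/-- elementary terms of the row of a cut -/
structure Tc (r : ℕ) where
  m : ℕ
  n : ℕ
  w : ℂ
  ξ : Xi M lam r

def Xi.OK {r : ℕ} (F : Fr I M ι) : Xi M lam r → Prop
  | .one => True
  | .aw ξ => ξ.OK F
  | .qj d s u v l => d.OK F ∧ F.Cb s ∧ SW.OK F u ∧ SW.OK F v ∧ ∀ t ∈ l, La.OK F t

namespace Cfg
variable {r : ℕ} (c : Cfg M ι lam r) (B : Base M ι lam) (F : Fr I M ι)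

def xi : Xi M lam r → M → En (Fin c.m.N)
  | .one => fun _ => 1
  | .aw ξ => fun x => opL (c.aw F ξ x)
  | .qj d s u v l => fun x => opL (wd (c.la F) (c.qj F d s u v) l x)

/-- value of a term -/
def tc (k : Cut M lam) (t : Tc M lam r) : CL (k.H B c.m) (k.H B c.m) :=
  frk _ _ t.m t.n (k.pi B F c.m k.x0 * csE c.m.J t.w * c.xi F t.ξ k.x0 * k.pi B F c.m k.x0)

end Cfg

/-- abstract perturbations of the row of a cut -/
abbrev Pc (r : ℕ) (B : Base M ι lam) (k : Cut M lam) : Type :=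
  (c : Cfg M ι lam r) → CL (k.H B c.m) (k.H B c.m)

/-- the perturbation `∑ w j • T j` -/
def wpc {r : ℕ} {K : Type} [Fintype K] (B : Base M ι lam) (F : Fr I M ι) (k : Cut M lam)
    (T : K → Tc M lam r) (w : K → ℝ) : Pc r B k := fun c => ∑ j, w j • c.tc B F k (T j)

/-- `ψ` solves the row of the cut -/
def Cut.Sol {r : ℕ} (k : Cut M lam) (B : Base M ι lam) (F : Fr I M ι) (σ : Pc r B k)
    (c : Cfg M ι lam r) (ψ : k.H B c.m) : Prop :=
  ‖ψ‖ = 1 ∧ k.T B F c.m c.W ψ = σ c ψ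

/-- `ψ' = η u(x₀) ψ` for a phase `η` -/
def Cut.Eqv (k : Cut M lam) (k' : Cut M' lam') (B : Base M ι lam) (B' : Base M' ι' lam')
    {m : Md M ι lam} {m' : Md M' ι' lam'} (u : M → CL m.V m'.V) (ψ : k.H B m)
    (ψ' : k'.H B' m') : Prop :=
  ∃ η : Circle, (ψ' : L2c (Fin m'.N)) =
    (csE m'.J η ∘L u k.x0).compLpL 2 μc (ψ : L2c (Fin m.N))

section cut
variable {r n : ℕ} {h : Type} (k : h → Cut M lam) (B : Base M ι lam)

/-- configurations with cut fields -/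
abbrev CfgC (r : ℕ) : Type := Σ c : Cfg M ι lam r, ∀ i, (k i).H B c.m

/-- isomorphism over one background -/
def IsoC (F : Fr I M ι) (x y : CfgC k B r) : Prop :=
  ∃ u ζ, CEq F x.1 y.1 univ id (fun x b a => B.P b a x) B.l u ζ ∧
    ∀ i, (k i).Eqv (k i) B B u (x.2 i) (y.2 i)

/-- isomorphism classes of solutions of level `l` in a family over `Q` -/
def ModC {T : Type} (Q : Set T) (G : T → Geo I M ι lam) (τ : T → Pt M ι lam r n)
    (σ : T → ∀ i, Pc r B (k i)) (l : ℝ) : Type :=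
  Quot fun x y : {x : T × CfgC k B r // x.1 ∈ Q ∧ x.2.1.Sol B (G x.1) (τ x.1) ∧
      x.2.1.kap B (G x.1) = l ∧ ∀ i, (k i).Sol B (G x.1).F (σ x.1 i) x.2.1 (x.2.2 i)} =>
    x.1.1 = y.1.1 ∧ IsoC k B (G x.1.1).F x.1.2 y.1.2

def cntC {T : Type} (Q : Set T) (G : T → Geo I M ι lam) (τ : T → Pt M ι lam r n)
    (σ : T → ∀ i, Pc r B (k i)) (l : ℝ) : ZMod 2 := (Nat.card (ModC k B Q G τ σ l) : ZMod 2)

end cut

end Crest.Agent.X212.An
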