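import Crest.Agent.X212.An.Loc

/-!
# Row 212, layer AN: parts of ideal objects

`Mo` : charts with Banach models for a type of objects.  `Prt` : a set of pieces of `Z c` with the
spinor pieces, the live coordinates and the kept cuts.  `SolOn`, `In`, `StrOn` : the equations,
the stratum and the convergence seen by a part.  `J.noz` : the job without spinor.
-/

set_option autoImplicit false
set_option linter.unusedSectionVars false
noncomputable section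
open scoped Manifold ContDiff Topology InnerProductSpace
open MeasureTheory Set Function Filter

namespace Crest.Agent.X212.An
open M Nd18 Mod61 Wrd81 Cmp73
open Nk89 (RNear)

/-! ### models -/

/-- charts, their problems, and the representation of objects by points -/
structure Mo (Wi X : Type) : Type 1 where
  Ic : Type
  Pb : Ic → Prob Wi
  rep : ∀ i, X → (Pb i).X → Prop

namespace Mo
variable {Wi X X' : Type} (D : Mo Wi X)

/-- some representative is regular -/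
def Reg (q : Wi →₀ ℝ) (y : X) : Prop := ∃ i x, D.rep i y x ∧ (D.Pb i).Reg q x

/-- the laws; `ok` is what regularity gives (an inequality for the index) -/
structure Ax (Adm : (Wi →₀ ℝ) → Prop) (Sol : (Wi →₀ ℝ) → X → Prop)
    (Lim : ∀ α : Type, Ultrafilter α → (α → X) → X → Prop) (ok : X → Prop) : Prop where
  ax : ∀ i, (D.Pb i).Ax Adm
  sol : ∀ i q y x, Adm q → Sol q y → D.rep i y x → (D.Pb i).Sol q x
  dens : ∀ q y, Adm q → Sol q y →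
    ∃ i x, D.rep i y x ∧ ((D.Pb i).Reg q x ∨ ∃ S, (D.Pb i).Onto q x S)
  near : ∀ q₀, Adm q₀ → ∀ (α : Type) (𝒰 : Ultrafilter α) (q : α → Wi →₀ ℝ) (y : α → X) y₀,
    St.Cv (𝒰 : Filter α) q q₀ → (∀ᶠ k in (𝒰 : Filter α), Adm (q k) ∧ Sol (q k) (y k)) →
    Sol q₀ y₀ → Lim α 𝒰 y y₀ → ∀ i x₀, D.rep i y₀ x₀ → RNear (D.rep i) 𝒰 y x₀
  ker : ∀ q y, Adm q → Sol q y → D.Reg q y → ok y

/-- pull-back -/
@[reducible] def comap (f : X' → X) : Mo Wi X' := ⟨D.Ic, D.Pb, fun i y => D.rep i (f y)⟩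

variable {D} {Adm : (Wi →₀ ℝ) → Prop} {Sol : (Wi →₀ ℝ) → X → Prop}
  {Lim : ∀ α : Type, Ultrafilter α → (α → X) → X → Prop} {ok : X → Prop}

theorem Ax.comap (h : D.Ax Adm Sol Lim ok) (f : X' → X) {Sol' : (Wi →₀ ℝ) → X' → Prop}
    {Lim' : ∀ α : Type, Ultrafilter α → (α → X') → X' → Prop} {ok' : X' → Prop}
    (h1 : ∀ q y, Adm q → Sol' q y → Sol q (f y))
    (h2 : ∀ α (𝒰 : Ultrafilter α) y y₀, (∀ᶠ k in (𝒰 : Filter α), ∃ q, Adm q ∧ Sol' q (y k)) →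
      (∃ q, Adm q ∧ Sol' q y₀) → Lim' α 𝒰 y y₀ → Lim α 𝒰 (fun k => f (y k)) (f y₀))
    (h3 : ∀ y, ok (f y) → ok' y) : (D.comap f).Ax Adm Sol' Lim' ok' where
  ax := h.ax
  sol i q y x a b := h.sol i q _ x a (h1 q y a b)
  dens q y a b := h.dens q _ a (h1 q y a b)
  near q₀ a α 𝒰 q y y₀ b c d e := h.near q₀ a α 𝒰 q _ _ b (c.mono fun _ k => ⟨k.1, h1 _ _ k.1 k.2⟩)
    (h1 _ _ a d) (h2 α 𝒰 y y₀ (c.mono fun _ k => ⟨_, k⟩) ⟨_, a, d⟩ e)
  ker q y a b c := h3 y (h.ker q _ a (h1 q y a b) c)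

end Mo

/-! ### forgetting the spinor -/

section syn
variable {M lam : Type} [Fintype lam] {r n : ℕ}

/-- the term seen by connections -/
def Tm.noz : Tm M lam r n → Tm M lam 0 0
  | .lin u => .lin u
  | .ad g h ξ => .ad g h ξ
  | .adn f g h φ L => .adn f g h φ L
  | _ => .lin [.mul 0]

/-- the term of a cut seen by connections -/
def Tc.noz : Tc M lam r → Tc M lam 0
  | ⟨m, n, w, .one⟩ => ⟨m, n, w, .one⟩
  | ⟨m, n, w, .aw ξ⟩ => ⟨m, n, w, .aw ξ⟩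
  | ⟨m, n, w, .qj (.s g L) s u v l⟩ => ⟨m, n, w, .qj (.s g L) s u v l⟩
  | ⟨m, n, _, .qj (.z _) _ _ _ _⟩ => ⟨m, n, 0, .one⟩

/-- the connection of a configuration -/
abbrev Cfg.con {ι : Type} [Fintype ι] (c : Cfg M ι lam r) : Cfg M ι lam 0 := ⟨c.m, c.W, 0, 0⟩

theorem Tm.Van.noz {O : Set M} {τ : Tm M lam r n} (h : τ.Van O) : τ.noz.Van O := by
  cases τ
  exacts [h, ⟨0, [], rfl, fun _ _ => rfl⟩, h, ⟨0, [], rfl, fun _ _ => rfl⟩, h,
    ⟨0, [], rfl, fun _ _ => rfl⟩, ⟨0, [], rfl, fun _ _ => rfl⟩]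

/-- the term of a cut vanishes for spinors supported in `O` -/
def Xi.Van (O : Set M) : Xi M lam r → Prop
  | .qj d _ _ _ _ => d.Van O
  | _ => False

theorem Xi.Van.noz {O : Set M} {t : Tc M lam r} (h : t.ξ.Van O) : t.noz.ξ.Van O := by
  rcases t with ⟨m, n, w, _ | _ | ⟨_ | _, _⟩⟩
  exacts [h, h, h.elim, h]

theorem bas_noz {τ : Tm M lam r n} (h : Bas τ) : Bas τ.noz := by
  cases τ
  exacts [trivial, trivial, h, trivial, h, trivial, trivial]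

end syn

variable {Wi : Type} {X : Mf 4} {A κ lam : Type} [Fintype A] [Fintype κ] [Fintype lam]
  [DecidableEq lam] {M : Mark X A κ} {W : World M} {N : ML M lam}

theorem tf_zero (Ω : Set X.M) : Tf X.I Ω 0 :=
  ⟨contMDiff_const, HasCompactSupport.zero, by simp⟩

theorem tmIn_noz {r n : ℕ} {Ω : Set X.M} {τ : Tm X.M lam r n} (h : TmIn X.I Ω τ) :
    TmIn X.I Ω τ.noz := by
  have : TmIn X.I Ω (.lin [.mul 0] : Tm X.M lam 0 0) :=
    ⟨swIn_nil.cons (t := .mul 0) (tf_zero Ω), _, _, rfl⟩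
  cases τ
  exacts [h, this, h, this, h, this, this]

theorem xiIn_noz {r : ℕ} {Ω : Set X.M} {t : Tc X.M lam r} (h : XiIn X.I Ω t.ξ) :
    XiIn X.I Ω t.noz.ξ := by
  rcases t with ⟨m, n, w, _ | _ | ⟨_ | _, _⟩⟩
  exacts [h, h, trivial, h]

/-- the union of pieces -/
def _root_.Crest.Agent.X212.M.Caps.un (C : Caps M) (c : M.Cl) (P : Set (Reg A)) : Set (C.Z c).M :=
  ⋃ π ∈ P, C.pc c π

/-- a part: pieces, spinor pieces, live coordinates, cuts -/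
structure Prt (A A' h : Type) where
  P : Set (Reg A)
  P' : Set (Reg A)
  V : Set A'
  H : Set h

/-- the end of the wall `a` on the side `b` belongs to the part -/
def Prt.En {A A' h : Type} (p : Prt A A' h) (a : A) (b : Bool) : Prop := ∃ π ∈ p.P, π a = some b

namespace Job
variable {Λ : Lns W N} {A' h : Type} [Fintype A'] [DecidableEq A'] [Fintype h] {r n : ℕ}
  (J : Job Wi Λ A' h r n)

/-- the job seen by connections -/
@[reducible] def noz : Job Wi Λ A' h 0 0 :=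
  { J with tw := fun w => (J.tw w).noz, tc := fun i w => (J.tc i w).noz }

/-- parameters over the face `c` of `σ` -/
def Ov (σ : Cel A') (c : M.Cl) (s : A' → ℝ) : Prop := s ∈ J.dom σ ∧ Sys.inf (J.Θ s).2 = c.1

/-- the part is well formed and its data depend on the live coordinates only -/
structure POK (σ : Cel A') (c : M.Cl) (p : Prt A A' h) : Prop where
  pc : ∀ π ∈ p.P, M.sys.Piece c.1 π
  sub : p.P' ⊆ p.P
  fr : ∀ a ∈ p.V, σ a = none ∧ ∀ x, J.hd a = some x → x ∉ c.1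
  nb : ∀ i ∈ p.H, J.nb i ⊆ ⋃ π ∈ p.P, M.sys.U π
  loc : ∀ s s', J.Ov σ c s → J.Ov σ c s' → (∀ a ∈ p.V, s a = s' a) →
    (J.Θ s).1 = (J.Θ s').1 ∧
    (∀ π ∈ p.P, ∀ x ∈ M.sys.inn π, (J.Θ s).2 x = (J.Θ s').2 x ∧ J.ν x s = J.ν x s') ∧
    (∀ w, J.co w s = J.co w s' ∨ (J.tw w).Van (⋃ π ∈ p.P, M.sys.U π)) ∧
    ∀ i ∈ p.H, ∀ w, J.cc i w s = J.cc i w s' ∨ (J.tc i w).ξ.Van (⋃ π ∈ p.P, M.sys.U π)

/-- richness for a part with `z` (or without spinor) -/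
structure PRich (σ : Cel A') (c : M.Cl) (p : Prt A A' h) : Prop where
  z : r = 0 → p.P' = ∅ ∧ n = 0
  T : ∀ s ∈ cl σ, Sys.inf (J.Θ s).2 = c.1 → ∀ π ∈ p.P, J.RichT s π
  S : ∀ s ∈ cl σ, Sys.inf (J.Θ s).2 = c.1 → J.RichS s
  C : ∀ s ∈ cl σ, Sys.inf (J.Θ s).2 = c.1 → ∀ π ∈ p.P, ∀ i ∈ p.H, J.nb i ⊆ M.sys.U π →
    J.RichC s π i

/-- the live coordinates of the pieces `P` -/
def lv (sh : Set A') (σ : Cel A') (c : M.Cl) (P : Set (Reg A)) : Set A' :=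
  {a | σ a = none ∧ (∀ x, J.hd a = some x → x ∉ c.1) ∧
    (a ∈ sh ∨ ∃ π ∈ P, ∃ x ∈ M.sys.inn π, J.hd a = some x)}

/-- the cuts of `H` inside the pieces `P` -/
def cs (P : Set (Reg A)) (H : Set h) : Set h := {i ∈ H | J.nb i ⊆ ⋃ π ∈ P, M.sys.U π}

/-- the standard part -/
def prt (sh : Set A') (σ : Cel A') (c : M.Cl) (P P' : Set (Reg A)) (H : Set h) : Prt A A' h :=
  ⟨P, P', J.lv sh σ c P, J.cs P H⟩

variable {J} {c : M.Cl} {σ : Cel A'} {q : Wi →₀ ℝ}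

/-- the spinor does not vanish on the piece -/
def Obc.TF (y : J.Obc c) (π : Reg A) : Prop := ∃ x ∈ W.pc c π, y.x.Φ x ≠ 0

/-- a parallel line, or flat -/
def Obc.TA (y : J.Obc c) (π : Reg A) : Prop := Lin (J.G c y.s).F y.x (W.pc c π) ∨
  ∀ z ∈ W.pc c π, y.x.m.Fg (J.G c y.s).F y.x.W z = 0

/-- the equations of a part -/
structure SolOn (p : Prt A A' h) (σ : Cel A') (q : Wi →₀ ℝ) (y : J.Obc c) : Prop where
  cell : y.s ∈ cl σ
  inf : Sys.inf (J.Θ y.s).2 = c.1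
  adm : y.x.Adm (J.B c) (J.G c y.s)
  off : ∀ x ∉ W.un c p.P', y.x.Φ x = 0
  D : ∀ x ∈ W.un c p.P', y.x.eD (J.G c y.s) (J.τ c q y.s) x = 0
  C : ∀ x ∈ W.un c p.P, y.x.eC (J.B c) (J.G c y.s) (J.τ c q y.s) x = 0
  S : ∀ i, (J.τ c q y.s).S y.x i = 0
  cut : ∀ i ∈ p.H, (J.cut c i).Sol (J.B c) (J.G c y.s).F (J.σc c q y.s i) y.x (y.ψ i)
  lim : ∀ a b (ha : Act J.m c a (some b) (J.Θ y.s)), p.En a b →
    (J.K c a _ _ ha).Lim y.x (y.β a b) (y.ζ a b) (bif b then atBot else atTop)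
  crit : ∀ a ∈ cylW c, ∀ b, p.En a b → (J.xs a).N.Crit (J.xs a).D (y.β a b)
  int : IntegrableOn y.kd (W.un c p.P) (J.G c y.s).F.μ

/-- the stratum of a part -/
structure In (p : Prt A A' h) (y : J.Obc c) : Prop where
  sp : ∀ π ∈ p.P', y.TF π
  ir : ∀ π ∈ p.P, π ∉ p.P' → ¬y.TA π

/-- the convergence seen by a part -/
structure StrOn (p : Prt A A' h) {α : Type} (l : Filter α) (y : α → J.Obc c) (y₀ : J.Obc c) :
    Prop where
  s : Tendsto (fun i => (y i).s) l (𝓝 y₀.s)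
  lim : ∃ u ζ, ULim (W.Z c).I (J.B c) l (W.un c p.P) (fun i => J.fr c (y i).s)
      (fun i => (y i).x) y₀.x u ζ ∧
    ∀ k ∈ p.H, CLim l y₀.x.m.J (fun i => u i (J.cut c k).x0) (fun i => (y i).ψ k) (y₀.ψ k)
  tail : ∀ a b, p.En a b → ∀ η > 0, ∃ T, ∀ᶠ i in l, ∀ ha : Act J.m c a (some b) (J.Θ (y i).s), ∀ t,
    T ≤ -pm b * t → (J.K c a _ _ ha).Near (y i).x t (y₀.β a b) η

variable (J c σ) in
/-- **LEAF PART**: a model of the part `p`; regular objects satisfy `ok` -/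
abbrev PAx (p : Prt A A' h) (D : Mo Wi (J.Obc c)) (Adm : (Wi →₀ ℝ) → Prop) (ok : J.Obc c → Prop) :
    Prop :=
  D.Ax Adm (fun q y => SolOn p σ q y ∧ In p y) (fun _ 𝒰 y y₀ => StrOn p 𝒰 y y₀) ok

/-- the object without spinor -/
abbrev Obc.noz (y : J.Obc c) : J.noz.Obc c := ⟨y.s, y.x.con, y.H, y.ψ, y.β, y.ζ, y.k, y.j, y.l⟩

theorem OK.noz (h : J.OK) : J.noz.OK :=
  { h with tw := fun w => (h.tw w).imp fun _ k => ⟨tmIn_noz k.1, k.2⟩
           tc := fun i w => (h.tc i w).imp fun _ k => ⟨xiIn_noz k.1, k.2⟩ }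

theorem POK.noz {p : Prt A A' h} (h : J.POK σ c p) : J.noz.POK σ c p :=
  { h with loc := fun s s' a b e => let k := h.loc s s' a b e
      ⟨k.1, k.2.1, fun w => (k.2.2.1 w).imp id Tm.Van.noz,
        fun i hi w => (k.2.2.2 i hi w).imp id Xi.Van.noz⟩ }

theorem RichT.noz {s : A' → ℝ} {π : Reg A} (h : J.RichT s π) : J.noz.RichT s π := by
  intro τ h1 h2 h3
  have k : ∀ τ' : Tm X.M (lam ⊕ lam) r n, J.HasT s τ' → J.noz.HasT s τ'.noz :=
    fun τ' ⟨w, a, b⟩ => ⟨w, congrArg Tm.noz a, b⟩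
  cases τ with
  | lin u => exact k (.lin u) (h _ h1 h2 h3)
  | ad g g' ξ => exact k (.ad g g' ξ) (h _ h1 h2 h3)
  | anti => exact h3.choose.elim0
  | adj => exact h3.choose.elim0
  | _ => exact h3.elim

theorem RichC.noz {s : A' → ℝ} {π : Reg A} {i : h} (h : J.RichC s π i) : J.noz.RichC s π i := by
  rintro ⟨m, n, w, _ | ξ | ⟨k | ⟨g, L⟩, s', u, v, l⟩⟩ h1
  · obtain ⟨w, a, b⟩ := h ⟨m, n, w, .one⟩ h1
    exact ⟨w, congrArg Tc.noz a, b⟩
  · obtain ⟨w, a, b⟩ := h ⟨m, n, w, .aw ξ⟩ h1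
    exact ⟨w, congrArg Tc.noz a, b⟩
  · exact k.elim0
  · obtain ⟨w, a, b⟩ := h ⟨m, n, w, .qj (.s g L) s' u v l⟩ h1
    exact ⟨w, congrArg Tc.noz a, b⟩

/-- hard coordinates of broken walls are `1` -/
theorem OK.eq_one (hJ : J.OK) (hσ : σ ∈ J.𝒦) {s : A' → ℝ} (hs : J.Ov σ c s) {a : A'} {x : A}
    (ha : J.hd a = some x) (hx : x ∈ c.1) : s a = 1 := by
  obtain ⟨a', h1, h2⟩ := hJ.inf σ hσ s hs.1 x (hs.2.ge hx)
  rwa [hJ.inj a a' x ha h1]

theorem pok_prt (hJ : J.OK) (hσ : σ ∈ J.𝒦) {sh : Set A'} (hL : J.Loc sh) {P P' : Set (Reg A)}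
    (hP : ∀ π ∈ P, M.sys.Piece c.1 π) (h' : P' ⊆ P) (H : Set h) :
    J.POK σ c (J.prt sh σ c P P' H) where
  pc := hP
  sub := h'
  fr _ ha := ⟨ha.1, ha.2.1⟩
  nb _ hi := hi.2
  loc s s' h1 h2 e := by
    have k : ∀ V : Set A, V ⊆ ⋃ π ∈ P, M.sys.inn π → J.Ag sh V s s' := fun V hV a ha => by
      rcases hb : σ a with _ | b
      · by_cases hc : ∃ x ∈ c.1, J.hd a = some x
        · obtain ⟨x, h3, h4⟩ := hc
          rw [hJ.eq_one hσ h1 h4 h3, hJ.eq_one hσ h2 h4 h3]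
        · refine e a ⟨hb, fun x h3 h4 => hc ⟨x, h4, h3⟩, ha.imp id fun ⟨x, h3, h4⟩ => ?_⟩
          obtain ⟨π, h5, h6⟩ := mem_iUnion₂.1 (hV h3)
          exact ⟨π, h5, x, h6, h4⟩
      · rw [h1.1.1 a b hb, h2.1.1 a b hb]
    have k0 := k ∅ (empty_subset _)
    exact ⟨hL.u _ _ k0, fun π hπ x hx =>
        have := k {x} (singleton_subset_iff.2 (mem_biUnion hπ hx)); ⟨hL.t x _ _ this, hL.ν x _ _ this⟩,
      hL.co σ hσ s h1.1 s' h2.1 c h1.2 h2.2 P hP (k _ subset_rfl),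
      fun i hi w => .inl (hL.cc σ hσ s h1.1 s' h2.1 c h1.2 h2.2 P hP (k _ subset_rfl) i hi.2 w)⟩

/-! ### small leaves -/

variable (J)

/-- LEAF DEAD: where the spinor vanishes the equations do not see it -/
def Dead (c : M.Cl) : Prop := ∀ σ ∈ J.𝒦, ∀ q (y : J.Obc c), Sol σ q y → ∀ π, M.sys.Piece c.1 π →
  ¬y.TF π → (∀ x ∈ W.pc c π, (J.noz.τ c q y.s).C y.x.con x = (J.τ c q y.s).C y.x x) ∧
    ∀ i, J.nb i ⊆ M.sys.U π → J.noz.σc c q y.s i y.x.con = J.σc c q y.s i y.x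

/-- LEAF LINCL: parallel lines and flatness pass to limits -/
def LinCl (c : M.Cl) : Prop := ∀ (α : Type) (𝒰 : Ultrafilter α) (y : α → J.Obc c) (y₀ : J.Obc c) π,
  M.sys.Piece c.1 π → y₀.Ok → (∀ᶠ i in (𝒰 : Filter α), (y i).Ok ∧ (y i).TA π) → Str 𝒰 y y₀ → y₀.TA π

/-- LEAF FIN: finitely many energies -/
def FinE (σ : Cel A') (c : M.Cl) (Adm : (Wi →₀ ℝ) → Prop) : Prop :=
  {e | ∃ (q : Wi →₀ ℝ) (y : J.Obc c), Adm q ∧ Sol σ q y ∧ y.en = e}.Finite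

end Job
end Crest.Agent.X212.An
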