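import Crest.Agent.X212.An.Kit
import Crest.Agent.X212.M.Coef
import Crest.Agent.X212.Wrd81.Exp

/-!
# Row 212, layer AN: locality, richness and smallness of the terms of a job; generic values
-/

set_option autoImplicit false
set_option linter.unusedSectionVars false
noncomputable section
open scoped Manifold ContDiff Topology InnerProductSpace
open MeasureTheory Set Function Filter

namespace Crest.Agent.X212.An
open M Nd18 Wrd81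

/-! ### generic values -/

section gen
variable {Wi : Type} {Adm : (Wi →₀ ℝ) → Prop}

variable (Adm) in
/-- `P` holds on an open dense subset of `Adm` -/
def Gen (P : (Wi →₀ ℝ) → Prop) : Prop := ∃ G, Low.Ax ⟨Adm, G⟩ ∧ ∀ q, G q → P q

theorem Low.Ax.and {G G' : (Wi →₀ ℝ) → Prop} (h : Low.Ax ⟨Adm, G⟩) (h' : Low.Ax ⟨Adm, G'⟩) :
    Low.Ax ⟨Adm, fun q => G q ∧ G' q⟩ where
  le q hq := h.le q hq.1
  op := h.op.and h'.op
  ex O hO q₀ h1 h2 := by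
    obtain ⟨q, h3, h4⟩ := h.ex O hO q₀ h1 h2
    obtain ⟨q', h5, h6⟩ := h'.ex _ (hO.and h.op) q (h.le q h4) ⟨h3, h4⟩
    exact ⟨q', h5.1, h5.2, h6⟩

namespace Gen
variable {P P' : (Wi →₀ ℝ) → Prop}

theorem of {G : (Wi →₀ ℝ) → Prop} (h : Low.Ax ⟨Adm, G⟩) : Gen Adm G := ⟨G, h, fun _ => id⟩

theorem adm (h : St.IsOp Adm) : Gen Adm Adm := of ⟨fun _ => id, h, fun _ _ q h1 h2 => ⟨q, h2, h1⟩⟩

theorem mono (h : Gen Adm P) (k : ∀ q, Adm q → P q → P' q) : Gen Adm P' :=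
  let ⟨G, h1, h2⟩ := h; ⟨G, h1, fun q hq => k q (h1.le q hq) (h2 q hq)⟩

theorem and (h : Gen Adm P) (h' : Gen Adm P') : Gen Adm fun q => P q ∧ P' q :=
  let ⟨_, h1, h2⟩ := h; let ⟨_, h3, h4⟩ := h'; ⟨_, h1.and h3, fun q hq => ⟨h2 q hq.1, h4 q hq.2⟩⟩

theorem all (ho : St.IsOp Adm) {I : Type} [Finite I] {P : I → (Wi →₀ ℝ) → Prop}
    (h : ∀ i, Gen Adm (P i)) : Gen Adm fun q => ∀ i, P i q := by
  classical
  have := Fintype.ofFinite I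
  have key : ∀ s : Finset I, Gen Adm fun q => ∀ i ∈ s, P i q := fun s => by
    induction s using Finset.induction_on with
    | empty => exact (adm ho).mono (by simp)
    | insert a s _ ih => exact ((h a).and ih).mono (by simp)
  exact (key Finset.univ).mono (by simp)

theorem ex (h : Gen Adm P) {O : (Wi →₀ ℝ) → Prop} (hO : St.IsOp O) {q₀ : Wi →₀ ℝ}
    (h1 : Adm q₀) (h2 : O q₀) : ∃ q, Adm q ∧ O q ∧ P q :=
  let ⟨_, h3, h4⟩ := h; let ⟨q, h5, h6⟩ := h3.ex O hO q₀ h1 h2; ⟨q, h3.le q h6, h5, h4 q h6⟩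

/-- restriction to an open subset -/
theorem res (h : Gen Adm P) {O : (Wi →₀ ℝ) → Prop} (hO : St.IsOp O) (k : ∀ q, O q → Adm q) :
    Gen O P :=
  let ⟨G, h1, h2⟩ := h
  ⟨fun q => O q ∧ G q, ⟨fun _ hq => hq.1, hO.and h1.op, fun O' hO' q₀ h3 h4 =>
    let ⟨q, h5, h6⟩ := h1.ex _ (hO.and hO') q₀ (k q₀ h3) ⟨h3, h4⟩; ⟨q, h5.2, h5.1, h6⟩⟩,
    fun q hq => h2 q hq.2⟩

/-- a property that holds on an open part of every open set is generic -/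
theorem of_loc (h : ∀ O, St.IsOp O → ∀ q₀, Adm q₀ → O q₀ →
    ∃ V, St.IsOp V ∧ (∃ q, V q ∧ O q) ∧ ∀ q, V q → Adm q ∧ P q) : Gen Adm P :=
  ⟨fun q => ∃ V, St.IsOp V ∧ V q ∧ ∀ q, V q → Adm q ∧ P q,
    ⟨fun q ⟨_, _, h1, h2⟩ => (h2 q h1).1,
      fun q₀ ⟨V, h1, h2, h3⟩ ι l q hq => (h1 q₀ h2 ι l q hq).mono fun _ hi => ⟨V, h1, hi, h3⟩,
      fun O hO q₀ h1 h2 => let ⟨V, h3, ⟨q, h4, h5⟩, h6⟩ := h O hO q₀ h1 h2; ⟨q, h5, V, h3, h4, h6⟩⟩,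
    fun q ⟨_, _, h1, h2⟩ => (h2 q h1).2⟩

end Gen

theorem St.Cv.map {Wi' ι : Type} {l : Filter ι} {q : ι → Wi →₀ ℝ} {q₀ : Wi →₀ ℝ}
    (h : St.Cv l q q₀) (e : Wi ↪ Wi') (p : Wi' →₀ ℝ) :
    St.Cv l (fun i => p + (q i).embDomain e) (p + q₀.embDomain e) := by
  classical
  obtain ⟨S, h1, h2⟩ := h
  refine ⟨S.map e, fun i w hw => ?_, fun w => ?_⟩
  · by_cases hr : w ∈ range e
    · obtain ⟨v, rfl⟩ := hr
      simp [h1 i v (by simpa using hw)]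
    · simp [Finsupp.embDomain_notin_range _ _ _ hr]
  · by_cases hr : w ∈ range e
    · obtain ⟨v, rfl⟩ := hr
      simpa using (h2 v).const_add _
    · simpa [Finsupp.embDomain_notin_range _ _ _ hr] using tendsto_const_nhds

theorem St.Cv.comap {Wi' ι : Type} {l : Filter ι} {q : ι → Wi' →₀ ℝ} {q₀ : Wi' →₀ ℝ}
    (h : St.Cv l q q₀) (e : Wi ↪ Wi') :
    St.Cv l (fun i => (q i).comapDomain e e.injective.injOn) (q₀.comapDomain e e.injective.injOn) := by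
  obtain ⟨S, h1, h2⟩ := h
  exact ⟨S.preimage e e.injective.injOn, fun i w hw => h1 i _ (by simpa using hw), fun w => h2 _⟩

/-- restriction of coefficients -/
abbrev rs {Wi' : Type} (e : Wi ↪ Wi') (q : Wi' →₀ ℝ) : Wi →₀ ℝ := q.comapDomain e e.injective.injOn

/-- **prisms**: if `f₀ (q|₀) = f₁ (q|₁)` for generic `q`, both functions have one generic value -/
theorem Gen.prism {W₀ W₁ V : Type} {e₀ : W₀ ↪ Wi} {e₁ : W₁ ↪ Wi} (hd : ∀ a b, e₀ a ≠ e₁ b)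
    {A₀ : (W₀ →₀ ℝ) → Prop} {A₁ : (W₁ →₀ ℝ) → Prop} (o₀ : St.IsOp A₀) (o₁ : St.IsOp A₁)
    (n₀ : ∃ q, A₀ q) (n₁ : ∃ q, A₁ q)
    (hA : ∀ q₀ q₁, A₀ q₀ → A₁ q₁ → Adm (q₀.embDomain e₀ + q₁.embDomain e₁))
    {f₀ : (W₀ →₀ ℝ) → V} {f₁ : (W₁ →₀ ℝ) → V} (h : Gen Adm fun q => f₀ (rs e₀ q) = f₁ (rs e₁ q)) :
    ∃ v, Gen A₀ (fun q => f₀ q = v) ∧ Gen A₁ fun q => f₁ q = v := by
  obtain ⟨G, hG, h⟩ := h
  have r0 : ∀ (q₀ : W₀ →₀ ℝ) (q₁ : W₁ →₀ ℝ), rs e₀ (q₀.embDomain e₀ + q₁.embDomain e₁) = q₀ :=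
      fun q₀ q₁ => by
    ext a; simp [Finsupp.embDomain_notin_range e₁ q₁ (e₀ a) fun ⟨b, hb⟩ => hd a b hb.symm]
  have r1 : ∀ (q₀ : W₀ →₀ ℝ) (q₁ : W₁ →₀ ℝ), rs e₁ (q₀.embDomain e₀ + q₁.embDomain e₁) = q₁ :=
      fun q₀ q₁ => by
    ext b; simp [Finsupp.embDomain_notin_range e₀ q₀ (e₁ b) fun ⟨a, ha⟩ => hd a b ha]
  -- a good point over any pair of open sets, with open slices
  have key : ∀ O₀ O₁, St.IsOp O₀ → St.IsOp O₁ → ∀ q₀ q₁, A₀ q₀ → O₀ q₀ → A₁ q₁ → O₁ q₁ →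
      ∃ (p₀ : W₀ →₀ ℝ) (p₁ : W₁ →₀ ℝ), ∃ V₀ V₁, St.IsOp V₀ ∧ St.IsOp V₁ ∧ V₀ p₀ ∧ O₀ p₀ ∧ V₁ p₁ ∧ O₁ p₁ ∧
        (∀ q, V₀ q → A₀ q ∧ f₀ q = f₁ p₁) ∧ ∀ q, V₁ q → A₁ q ∧ f₁ q = f₀ p₀ := by
    intro O₀ O₁ h0 h1 q₀ q₁ a0 b0 a1 b1
    obtain ⟨q, ⟨h2, h3⟩, h4⟩ := hG.ex (fun q => (A₀ (rs e₀ q) ∧ O₀ (rs e₀ q)) ∧ A₁ (rs e₁ q) ∧ O₁ (rs e₁ q))
      (fun q hq ι l u hu => ((o₀.and h0) _ hq.1 ι l _ (hu.comap e₀)).and
        ((o₁.and h1) _ hq.2 ι l _ (hu.comap e₁))) _ (hA q₀ q₁ a0 a1)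
      (by rw [r0, r1]; exact ⟨⟨a0, b0⟩, a1, b1⟩)
    refine ⟨rs e₀ q, rs e₁ q, fun p => A₀ p ∧ G (q - (rs e₀ q).embDomain e₀ + p.embDomain e₀),
      fun p => A₁ p ∧ G (q - (rs e₁ q).embDomain e₁ + p.embDomain e₁),
      o₀.and fun p hp ι l u hu => hG.op _ hp ι l _ (hu.map e₀ _),
      o₁.and fun p hp ι l u hu => hG.op _ hp ι l _ (hu.map e₁ _), ⟨h2.1, by simpa using h4⟩, h2.2,
      ⟨h3.1, by simpa using h4⟩, h3.2, fun p hp => ⟨hp.1, ?_⟩, fun p hp => ⟨hp.1, ?_⟩⟩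
    · convert h _ hp.2 using 2
      · ext a; simp
      · ext b
        simp [fun u => Finsupp.embDomain_notin_range e₀ u (e₁ b) fun ⟨a, ha⟩ => hd a b ha]
    · convert (h _ hp.2).symm using 2
      · ext b; simp
      · ext a
        simp [fun u => Finsupp.embDomain_notin_range e₁ u (e₀ a) fun ⟨b, hb⟩ => hd a b hb.symm]
  obtain ⟨q₀, a0⟩ := n₀
  obtain ⟨q₁, a1⟩ := n₁
  obtain ⟨p₀, p₁, V₀, V₁, h1, h2, h3, -, h4, -, h5, h6⟩ :=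
    key _ _ St.isOp_true St.isOp_true q₀ q₁ a0 trivial a1 trivial
  refine ⟨f₀ p₀, .of_loc fun O hO u b0 b1 => ?_, .of_loc fun O hO u b0 b1 => ?_⟩
  · obtain ⟨u₀, u₁, U₀, -, k1, -, k3, k4, -, k5, k6, -⟩ := key O V₁ hO h2 u p₁ b0 b1 (h6 _ h4).1 h4
    exact ⟨U₀, k1, ⟨u₀, k3, k4⟩, fun q hq => ⟨(k6 q hq).1, (k6 q hq).2.trans (h6 _ k5).2⟩⟩
  · obtain ⟨u₀, u₁, -, U₁, -, k1, -, k2, k3, k4, -, k6⟩ := key V₀ O h1 hO p₀ u (h5 _ h3).1 h3 b0 b1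
    exact ⟨U₁, k1, ⟨u₁, k3, k4⟩, fun q hq => ⟨(k6 q hq).1,
      (k6 q hq).2.trans ((h5 _ k2).2.trans (h5 _ h3).2.symm)⟩⟩

/-- the generic value is unique -/
theorem Gen.uniq {V : Type} {f : (Wi →₀ ℝ) → V} {v v' : V} (hn : ∃ q, Adm q)
    (h : Gen Adm fun q => f q = v) (h' : Gen Adm fun q => f q = v') : v = v' :=
  let ⟨_, h0⟩ := hn; let ⟨_, _, _, h1, h2⟩ := (h.and h').ex St.isOp_true h0 trivial
  h1.symm.trans h2

/-! ### small perturbations -/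

theorem Ball.mono {b b' : Wi → ℝ} (hb : ∀ w, b w ≤ b' w) {q₀ q : Wi →₀ ℝ} (h : Ball b' q₀ q) :
    Ball b q₀ q :=
  (Finset.sum_le_sum fun w _ => mul_le_mul_of_nonneg_left (hb w) (abs_nonneg _)).trans_lt h

/-- `P` holds for every class of small perturbations (the form of the leaves) -/
def Sml (P : ((Wi →₀ ℝ) → Prop) → Prop) : Prop :=
  ∃ b : Wi → ℝ, (∀ w, 0 ≤ b w) ∧ ∀ Adm, (∀ q, Adm q → Ball b 0 q) → P Adm

namespace Sml
variable {P P' : ((Wi →₀ ℝ) → Prop) → Prop}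

theorem of (h : ∀ Adm, P Adm) : Sml P := ⟨0, fun _ => le_rfl, fun A _ => h A⟩

theorem mono (h : Sml P) (k : ∀ Adm, P Adm → P' Adm) : Sml P' :=
  let ⟨b, h1, h3⟩ := h; ⟨b, h1, fun A hA => k A (h3 A hA)⟩

theorem and (h : Sml P) (h' : Sml P') : Sml fun A => P A ∧ P' A :=
  let ⟨b, h1, h3⟩ := h; let ⟨b', h4, h6⟩ := h'
  ⟨b + b', fun w => add_nonneg (h1 w) (h4 w),
    fun A hA => ⟨h3 A fun q hq => (hA q hq).mono fun w => le_add_of_nonneg_right (h4 w),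
      h6 A fun q hq => (hA q hq).mono fun w => le_add_of_nonneg_left (h1 w)⟩⟩

theorem all {I : Type} [Finite I] {P : I → ((Wi →₀ ℝ) → Prop) → Prop} (h : ∀ i, Sml (P i)) :
    Sml fun A => ∀ i, P i A := by
  classical
  have := Fintype.ofFinite I
  have key : ∀ s : Finset I, Sml fun A => ∀ i ∈ s, P i A := fun s => by
    induction s using Finset.induction_on with
    | empty => exact .of (by simp)
    | insert a s _ ih => exact ((h a).and ih).mono (by simp)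
  exact (key Finset.univ).mono (by simp)

end Sml

/-- `P` holds for generic small perturbations -/
def GV (P : (Wi →₀ ℝ) → Prop) : Prop := Sml fun A => St.IsOp A → Gen A P

namespace GV
variable {P P' : (Wi →₀ ℝ) → Prop}

theorem of_ball {b : Wi → ℝ} (hb : ∀ w, 0 ≤ b w) (h : Gen (Ball b 0) P) : GV P :=
  ⟨b, hb, fun _ hA ho => h.res ho hA⟩

theorem ball (h : GV P) : ∃ b : Wi → ℝ, (∀ w, 0 ≤ b w) ∧ Gen (Ball b 0) P :=
  let ⟨b, h1, h2⟩ := h; ⟨b, h1, h2 _ (fun _ => id) (isOp_ball b 0)⟩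

theorem mono (h : GV P) (k : ∀ q, P q → P' q) : GV P' :=
  Sml.mono h fun _ h1 ho => (h1 ho).mono fun q _ => k q

theorem and (h : GV P) (h' : GV P') : GV fun q => P q ∧ P' q :=
  (Sml.and h h').mono fun _ h1 ho => (h1.1 ho).and (h1.2 ho)

theorem all {I : Type} [Finite I] {P : I → (Wi →₀ ℝ) → Prop} (h : ∀ i, GV (P i)) :
    GV fun q => ∀ i, P i q := (Sml.all h).mono fun _ h1 ho => Gen.all ho fun i => h1 i ho

theorem ex (h : GV P) : ∃ q, P q :=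
  let ⟨b, _, h1⟩ := h.ball; let ⟨q, _, _, h2⟩ := h1.ex St.isOp_true (ball_self b 0) trivial; ⟨q, h2⟩

theorem uniq {V : Type} {f : (Wi →₀ ℝ) → V} {v v' : V} (h : GV fun q => f q = v)
    (h' : GV fun q => f q = v') : v = v' := let ⟨_, h1, h2⟩ := (h.and h').ex; h1.symm.trans h2

/-- **prisms** -/
theorem prism {W₀ W₁ V : Type} {e₀ : W₀ ↪ Wi} {e₁ : W₁ ↪ Wi} (hd : ∀ a b, e₀ a ≠ e₁ b)
    {f₀ : (W₀ →₀ ℝ) → V} {f₁ : (W₁ →₀ ℝ) → V} (h : GV fun q => f₀ (rs e₀ q) = f₁ (rs e₁ q)) :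
    ∃ v, GV (fun q => f₀ q = v) ∧ GV fun q => f₁ q = v := by
  obtain ⟨b, hb, h⟩ := h.ball
  obtain ⟨v, h1, h2⟩ := h.prism hd (isOp_ball (fun a => 2 * b (e₀ a)) 0)
    (isOp_ball (fun a => 2 * b (e₁ a)) 0) ⟨0, ball_self _ 0⟩ ⟨0, ball_self _ 0⟩ fun q₀ q₁ a0 a1 => by
      have e : ∀ {W' : Type} (e : W' ↪ Wi) (q : W' →₀ ℝ), Ball (fun a => 2 * b (e a)) 0 q →
          (q.embDomain e).sum (fun w a => |a| * b w) < 1 / 2 := fun e q hq => by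
        rw [Finsupp.sum_embDomain]
        simp only [Ball, sub_zero, Finsupp.sum, mul_left_comm _ (2 : ℝ), ← Finset.mul_sum] at hq ⊢
        linarith
      rw [Ball, sub_zero, Finsupp.sum_add_index_of_disjoint]
      · linarith [e e₀ q₀ a0, e e₁ q₁ a1]
      · simp only [Finsupp.support_embDomain, Finset.disjoint_left, Finset.mem_map]
        rintro _ ⟨a, -, rfl⟩ ⟨c, -, hc⟩
        exact hd a c hc.symm
  exact ⟨v, of_ball (fun a => by linarith [hb (e₀ a)]) h1, of_ball (fun a => by linarith [hb (e₁ a)]) h2⟩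

end GV

end gen

/-! ### syntax -/

section syn
variable {M lam : Type} [Fintype lam] {r n : ℕ}

/-- the coefficient vanishes for spinors supported in `O` -/
def Co.Van (O : Set M) : Co M lam r → Prop
  | .z _ => False
  | .s g _ => ∀ x ∈ O, g.s x = 0

/-- the term vanishes on `O` (open) for spinors supported in `O` -/
def Tm.Van (O : Set M) : Tm M lam r n → Prop
  | .lin u => ∃ f w, u = .mul f :: w ∧ ∀ x ∈ O, f x = 0
  | .anti d s _ => (∀ x ∈ O, s x = 0) ∨ d.Van O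
  | .ad g _ _ => ∀ x ∈ O, g x = 0
  | .adj d _ g _ _ _ _ => (∀ x ∈ O, g x = 0) ∨ d.Van O
  | .adn f _ _ _ _ => ∀ x ∈ O, f x = 0
  | .cut _ _ g => ∀ x ∈ O, g.s x = 0
  | .cz _ _ _ => False

/-- terms of the field equations with coefficients `z i` -/
def Tm.Zc : Tm M lam r n → Prop
  | .lin _ => True
  | .anti d _ _ => ∃ i, d = .z i
  | .ad _ _ _ => True
  | .adj d _ _ _ _ _ _ => ∃ i, d = .z i
  | _ => False

end syn

variable {Wi : Type} {X : Mf 4} {A κ lam : Type} [Fintype A] [Fintype κ] [Fintype lam]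
  [DecidableEq lam] {M : Mark X A κ} {W : World M} {N : ML M lam}

namespace Job
variable {Λ : Lns W N} {A' h : Type} [Fintype A'] [DecidableEq A'] [Fintype h] {r n : ℕ}
  (J : Job Wi Λ A' h r n)

/-- agreement on the shared coordinates `sh` and on the coordinates of the walls in `V` -/
def Ag (sh : Set A') (V : Set A) (s s' : A' → ℝ) : Prop :=
  ∀ a, (a ∈ sh ∨ ∃ x ∈ V, J.hd a = some x) → s a = s' a

/-- the data on a piece depend on the shared coordinates and on the walls inside the piece -/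
structure Loc (sh : Set A') : Prop where
  soft : ∀ a, J.hd a = none → a ∈ sh
  u : ∀ s s', J.Ag sh ∅ s s' → (J.Θ s).1 = (J.Θ s').1
  t : ∀ x s s', J.Ag sh {x} s s' → (J.Θ s).2 x = (J.Θ s').2 x
  ν : ∀ x s s', J.Ag sh {x} s s' → J.ν x s = J.ν x s'
  cc : ∀ σ ∈ J.𝒦, ∀ s ∈ J.dom σ, ∀ s' ∈ J.dom σ, ∀ c : M.Cl, Sys.inf (J.Θ s).2 = c.1 →
    Sys.inf (J.Θ s').2 = c.1 → ∀ P : Set (Reg A), (∀ π ∈ P, M.sys.Piece c.1 π) →
    J.Ag sh (⋃ π ∈ P, M.sys.inn π) s s' → ∀ i, J.nb i ⊆ ⋃ π ∈ P, M.sys.U π →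
    ∀ w, J.cc i w s = J.cc i w s'
  co : ∀ σ ∈ J.𝒦, ∀ s ∈ J.dom σ, ∀ s' ∈ J.dom σ, ∀ c : M.Cl, Sys.inf (J.Θ s).2 = c.1 →
    Sys.inf (J.Θ s').2 = c.1 → ∀ P : Set (Reg A), (∀ π ∈ P, M.sys.Piece c.1 π) →
    J.Ag sh (⋃ π ∈ P, M.sys.inn π) s s' → ∀ w, J.co w s = J.co w s' ∨ (J.tw w).Van (⋃ π ∈ P, M.sys.U π)
  bas : ∀ w, Bas (J.tw w)
  nb : ∀ i, IsPreconnected (J.nb i)

/-- the index `w` has no neck term at `s` -/
def Nn (w : Wi) (s : A' → ℝ) : Prop := ∀ a, J.ν a s • (J.xs a).ty w = 0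

/-- `τ` is one of the terms at `s` -/
def HasT (s : A' → ℝ) (τ : Tm X.M (lam ⊕ lam) r n) : Prop :=
  ∃ w, J.tw w = τ ∧ J.co w s ≠ 0 ∧ (∀ i, J.cc i w s = 0) ∧ J.Nn w s

/-- all field terms in the region `π` -/
def RichT (s : A' → ℝ) (π : Reg A) : Prop :=
  ∀ τ, TmIn X.I (M.sys.U π) τ → Bas τ → τ.Zc → J.HasT s τ

/-- all linear terms of the scalar rows -/
def RichS (s : A' → ℝ) : Prop := ∀ i a k, J.HasT s (.cz i a k)

/-- all terms of the row of the cut `i` -/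
def RichC (s : A' → ℝ) (π : Reg A) (i : h) : Prop := ∀ t : Tc X.M (lam ⊕ lam) r,
  XiIn X.I (M.sys.U π) t.ξ → ∃ w, J.tc i w = t ∧ J.cc i w s ≠ 0 ∧ J.co w s = 0 ∧
    (∀ i', i' ≠ i → J.cc i' w s = 0) ∧ J.Nn w s

/-- richness over `Z c` on the pieces `P` -/
def Rich (σ : Cel A') (c : M.Cl) (P : Set (Reg A)) : Prop := ∀ s ∈ cl σ, Sys.inf (J.Θ s).2 = c.1 →
  (∀ π ∈ P, J.RichT s π) ∧ J.RichS s ∧ ∀ π ∈ P, ∀ i, J.nb i ⊆ M.sys.U π → J.RichC s π i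

variable {J}

/-- kits for all small classes give good generic perturbations -/
theorem gv_of {R : J.Kit → Prop}
    (h : Sml fun Adm => St.IsOp Adm → ∃ K : J.Kit, K.Adm = Adm ∧ K.Ax ∧ R K) :
    GV fun q => ∃ K : J.Kit, K.Ax ∧ K.GG q ∧ R K := h.mono fun _ h1 ho => by
  obtain ⟨K, rfl, h2, h3⟩ := h1 ho
  exact (Gen.of h2.gg).mono fun q _ hq => ⟨K, h2, hq, h3⟩

/-- faces at pinch walls are empty -/
theorem Kit.Ax0.zf_pin {K : J.Kit} (H : K.Ax0) {q : Wi →₀ ℝ} (hq : K.G q) {σ : Cel A'}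
    (hσ : σ ∈ J.𝒦) {a : A'} {x : A} (ha : J.hd a = some x) (hx : M.pin x) : J.zf q σ a = 0 := by
  have : IsEmpty (J.TS σ q (J.cf a)) := ⟨fun y => ((H.face hq hσ y.2.1 (K.not_top
    (fun e => (show (J.cf a).1.Nonempty from ⟨x, ha⟩).ne_empty (congrArg Subtype.val e)) _)).1.1.2.1 ha).2 hx⟩
  exact Nat.card_of_isEmpty

end Job
end Crest.Agent.X212.An
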