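import Crest.Agent.X212.Mod61.Good

/-!
# Row 212, layer AN: stratified genericity with full objects

A stratum `s` has full (ideal, broken) objects `X s`, a solution predicate, and ONE regularising
problem `P s` (a part of the object: the free pieces, one irreducible piece, ...).  A stratum with
several parts to be regularised is listed once for each part.
-/

set_option autoImplicit false
set_option linter.unusedSectionVars false
noncomputable section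
open Set Filter Topology Function

namespace Crest.Agent.X212.An
open Mod61 Fin93

/-- stratified problems -/
structure St (W : Type) : Type 1 where
  S : Type
  X : S → Type
  Sol : ∀ s, (W →₀ ℝ) → X s → Prop
  P : S → Prob W
  pr : ∀ {s}, X s → (P s).X
  rank : S → ℕ
  Adm : (W →₀ ℝ) → Prop

namespace St
variable {W : Type} (T : St W)

/-- the regularising parts of all solutions of the stratum are regular -/
def Good (s : T.S) (q : W →₀ ℝ) : Prop := ∀ x, T.Sol s q x → (T.P s).Reg q (T.pr x)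

/-- no solutions -/
def Emp (s : T.S) (q : W →₀ ℝ) : Prop := ∀ x, ¬ T.Sol s q x

/-- `q i → q₀` inside one finite stage -/
def Cv {ι : Type} (l : Filter ι) (q : ι → W →₀ ℝ) (q₀ : W →₀ ℝ) : Prop :=
  ∃ J : Finset W, (∀ i w, w ∉ J → q i w = q₀ w) ∧ ∀ w, Tendsto (fun i => q i w) l (𝓝 (q₀ w))

/-- the axioms -/
structure Ax : Prop where
  fin : Finite T.S
  ax : ∀ s, (T.P s).Ax T.Adm
  adm : ∀ q₀, T.Adm q₀ → ∀ (ι : Type) (l : Filter ι) (q : ι → W →₀ ℝ), Cv l q q₀ →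
    ∀ᶠ i in l, T.Adm (q i)
  sol : ∀ s q x, T.Adm q → T.Sol s q x → (T.P s).Sol q (T.pr x)
  dens : ∀ s q x, T.Adm q → T.Sol s q x →
    (T.P s).Reg q (T.pr x) ∨ ∃ J, (T.P s).Onto q (T.pr x) J
  comp : ∀ s q₀, T.Adm q₀ → (∀ s', T.rank s' < T.rank s → T.Good s' q₀) →
    ∀ (ι : Type) (𝒰 : Ultrafilter ι) (q : ι → W →₀ ℝ) (u : ι → T.X s), Cv (𝒰 : Filter ι) q q₀ →
      (∀ᶠ i in (𝒰 : Filter ι), T.Adm (q i) ∧ T.Sol s (q i) (u i)) →
      (∀ᶠ i in (𝒰 : Filter ι), (T.P s).Reg (q i) (T.pr (u i))) ∨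
        ∃ x₀, T.Sol s q₀ x₀ ∧ Tendsto (fun i => T.pr (u i)) 𝒰 ((T.P s).Near (T.pr x₀))

theorem cv_ext0 {ι : Type} {l : Filter ι} (q₀ : W →₀ ℝ) {J : Finset W} {p : ι → J → ℝ}
    {p₀ : J → ℝ} (h : Tendsto p l (𝓝 p₀)) : Cv l (fun i => q₀ + ext0 J (p i)) (q₀ + ext0 J p₀) := by
  refine ⟨J, fun i w hw => ?_, fun w => ?_⟩
  · simp only [Finsupp.add_apply, ext0_not_mem _ hw]
  · by_cases hw : w ∈ J
    · have e : ∀ r : J → ℝ, ext0 J r w = r ⟨w, hw⟩ := fun r => ext0_mem r ⟨w, hw⟩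
      simp only [Finsupp.add_apply, e]
      exact tendsto_const_nhds.add (((continuous_apply _).tendsto p₀).comp h)
    · simp only [Finsupp.add_apply, ext0_not_mem _ hw]
      exact tendsto_const_nhds

theorem cv_const {ι : Type} (l : Filter ι) (q₀ : W →₀ ℝ) : Cv l (fun _ => q₀) q₀ :=
  ⟨∅, fun _ _ _ => rfl, fun _ => tendsto_const_nhds⟩

/-- the data for `Fin93`, with an extra open condition `O` -/
def dat (O : (W →₀ ℝ) → Prop) (q₀ : W →₀ ℝ) :
    Fin93.Dat (W →₀ ℝ) (Finset W) T.S (fun J => J → ℝ) T.X where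
  ι J p := q₀ + ext0 J p
  rank := T.rank
  Adm q := T.Adm q ∧ O q
  Sol := T.Sol
  Reg s q x := (T.P s).Reg q (T.pr x)
  Onto s q x := (T.P s).Onto q (T.pr x)
  Near s x₀ := comap T.pr ((T.P s).Near (T.pr x₀))

/-- conditions that are open in every finite stage -/
def IsOp (O : (W →₀ ℝ) → Prop) : Prop :=
  ∀ q₀, O q₀ → ∀ (ι : Type) (l : Filter ι) (q : ι → W →₀ ℝ), Cv l q q₀ → ∀ᶠ i in l, O (q i)

theorem IsOp.and {O O' : (W →₀ ℝ) → Prop} (h : IsOp O) (h' : IsOp O') :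
    IsOp fun q => O q ∧ O' q :=
  fun q₀ h0 ι l q hq => (h q₀ h0.1 ι l q hq).and (h' q₀ h0.2 ι l q hq)

theorem isOp_true : IsOp fun _ : W →₀ ℝ => True := fun _ _ _ _ _ _ => Eventually.of_forall fun _ => trivial

variable {T}
namespace Ax
variable (h : T.Ax)
include h

theorem hyp {O : (W →₀ ℝ) → Prop} (hO : IsOp O) (q₀ : W →₀ ℝ) : (T.dat O q₀).Hyp where
  stage J J' hJ p := by
    obtain ⟨p', hp'⟩ := Fin93.ext0_stage J J' hJ p
    exact ⟨p', congrArg (q₀ + ·) hp'⟩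
  adm J p₀ ha := (IsOp.and h.adm hO) _ ha _ _ _ (cv_ext0 q₀ tendsto_id)
  mono _ _ _ _ _ hJ ho := Prob.Ax.onto_mono hJ ho
  dens s J p x ha hx := h.dens s _ x ha.1 hx
  onto s J p x₀ J' ha hx ho :=
    (tendsto_comap.eventually ((h.ax s).onto_open (h.sol s _ x₀ ha.1 hx).1 ho)).mono
      fun x h1 h2 => h1 (h.sol s _ x ha.1 h2).1
  reg s J p₀ x₀ ha hx hr := by
    have h1 := (h.ax s).reg_open (h.sol s _ x₀ ha.1 hx).1 hr
    have h2 : Tendsto (Prod.map id T.pr) (𝓝 p₀ ×ˢ comap T.pr ((T.P s).Near (T.pr x₀)))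
        (𝓝 p₀ ×ˢ (T.P s).Near (T.pr x₀)) := tendsto_id.prodMap tendsto_comap
    have h3 := tendsto_fst (g := comap T.pr ((T.P s).Near (T.pr x₀))) |>.eventually
      (h.adm _ ha.1 _ _ _ (cv_ext0 q₀ (tendsto_id (x := 𝓝 p₀))))
    filter_upwards [h2.eventually h1, h3] with z h4 h5 h6
    exact h4 (h.sol s _ _ h5 h6).1
  loc s J p₀ x₀ ha hx ho := by
    obtain ⟨A, hA, hres⟩ := (h.ax s).loc ha.1 (h.sol s _ x₀ ha.1 hx) ho
    have h2 : Tendsto (Prod.map id T.pr) (𝓝 p₀ ×ˢ comap T.pr ((T.P s).Near (T.pr x₀)))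
        (𝓝 p₀ ×ˢ (T.P s).Near (T.pr x₀)) := tendsto_id.prodMap tendsto_comap
    have h3 := tendsto_fst (g := comap T.pr ((T.P s).Near (T.pr x₀))) |>.eventually
      (h.adm _ ha.1 _ _ _ (cv_ext0 q₀ (tendsto_id (x := 𝓝 p₀))))
    refine ⟨_, inter_mem (h2 hA) h3, hres.mono fun p hp x h4 h5 => ?_⟩
    exact hp (T.pr x) h4.1 (h.sol s _ x h4.2 h5)
  comp s J p₀ ha hd 𝒰 h1 h2 := by
    have hc := cv_ext0 q₀ h1
    rcases h.comp s _ ha.1 hd _ 𝒰 _ Prod.snd hc ((h.adm _ ha.1 _ _ _ hc).and h2)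
      with h3 | ⟨x₀, h3, h4⟩
    · exact Or.inl h3
    · exact Or.inr ⟨x₀, h3, tendsto_comap_iff.2 h4⟩

/-- **A good finite perturbation exists in every stage-open set.** -/
theorem exists_good {O : (W →₀ ℝ) → Prop} (hO : IsOp O) {q₀ : W →₀ ℝ} (h0 : T.Adm q₀)
    (h1 : O q₀) : ∃ q, T.Adm q ∧ O q ∧ ∀ s, T.Good s q := by
  classical
  have := h.fin
  have e : q₀ + ext0 (∅ : Finset W) 0 = q₀ := by
    ext w
    simpa using Fin93.ext0_not_mem (J := ∅) 0 (Finset.notMem_empty w)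
  obtain ⟨J, -, p, h2, h3⟩ := (h.hyp hO q₀).exists_good (J₀ := ∅) (p₀ := 0) (by
    show T.Adm (q₀ + ext0 (∅ : Finset W) 0) ∧ O (q₀ + ext0 (∅ : Finset W) 0)
    rw [e]; exact ⟨h0, h1⟩)
  exact ⟨_, h2.1, h2.2, h3⟩

/-- the good set is stage-open -/
theorem isOp_good : IsOp fun q => T.Adm q ∧ ∀ s, T.Good s q := by
  classical
  have := h.fin
  rintro q₀ ⟨ha, hg⟩ ι l q hq
  refine (h.adm q₀ ha ι l q hq).and ?_
  obtain ⟨J, hJ, hl⟩ := hq
  have e : q₀ + ext0 J 0 = q₀ := by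
    ext w
    by_cases hw : w ∈ J
    · simpa using Fin93.ext0_mem (0 : J → ℝ) ⟨w, hw⟩
    · simpa using Fin93.ext0_not_mem (0 : J → ℝ) hw
  have e' : ∀ i, q₀ + ext0 J (fun w : J => q i w - q₀ w) = q i := fun i => by
    ext w
    by_cases hw : w ∈ J
    · have := Fin93.ext0_mem (fun w : J => q i w - q₀ w) ⟨w, hw⟩
      simp only [Finsupp.add_apply, this]; ring
    · simp only [Finsupp.add_apply, Fin93.ext0_not_mem _ hw, hJ i w hw, add_zero]
  have h1 := (h.hyp isOp_true q₀).good_all_open (J := J) (p₀ := 0)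
    (by show T.Adm (q₀ + ext0 J 0) ∧ True; rw [e]; exact ⟨ha, trivial⟩)
    (by show ∀ s, T.Good s (q₀ + ext0 J 0); rw [e]; exact hg)
  have h2 : Tendsto (fun i => fun w : J => q i w - q₀ w) l (𝓝 0) :=
    tendsto_pi_nhds.2 fun w => tendsto_sub_nhds_zero_iff.2 (hl w)
  filter_upwards [h2.eventually h1] with i hi
  rw [← e' i]; exact hi

/-- good strata with a regularising problem of negative index are empty -/
theorem emp_of_neg {s : T.S} {q : W →₀ ℝ} (ha : T.Adm q) (hg : T.Good s q) (hn : (T.P s).n < 0) :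
    T.Emp s q := fun x hx =>
  absurd ((h.ax s).nonneg ha (h.sol s q x ha hx) (hg x hx)) (not_le.2 hn)

end Ax
end St
end Crest.Agent.X212.An
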