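import Crest.Agent.X212.An.Job
import Crest.Agent.X212.Nk89.Idr

/-!
# Row 212, layer AN: models, strata and gluing data of a job; the assembly

`Mdl` : Banach models of the cells.  `Stra c` : strata of the ideal objects on `Z c`.
`Kit.Gl σ a` : gluing at the wall `a`.  Output: `Kit.Ax.gg`, `Kit.Ax.stokes`.
-/

set_option autoImplicit false
set_option linter.unusedSectionVars false
noncomputable section
open scoped Manifold ContDiff Topology InnerProductSpace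
open MeasureTheory Set Function Filter

namespace Crest.Agent.X212.An
open M Nd18 Mod61
open Nk89 (Idr RNear)

theorem card_quot {α β : Type} (s : Setoid α) {r : β → β → Prop} (hr : Equivalence r) (f : α → β)
    (h : ∀ x y, s x y ↔ r (f x) (f y)) (hs : ∀ y, ∃ x, r (f x) y) :
    Nonempty (Quotient s ≃ Quot r) :=
  ⟨Equiv.ofBijective (Quotient.map (sb := ⟨r, hr⟩) f fun x y => (h x y).1) ⟨fun a b => by
    obtain ⟨x, rfl⟩ := Quotient.mk_surjective a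
    obtain ⟨y, rfl⟩ := Quotient.mk_surjective b
    exact fun e => Quotient.sound ((h x y).2 (Quotient.exact (s := ⟨r, hr⟩) e)), fun b => by
    obtain ⟨y, rfl⟩ := Quot.exists_rep b
    obtain ⟨x, hx⟩ := hs y
    exact ⟨Quotient.mk _ x, Quot.sound hx⟩⟩⟩

/-- the ball round `q₀` for the weights `N` -/
def Ball {Wi : Type} (N : Wi → ℝ) (q₀ q : Wi →₀ ℝ) : Prop := (q - q₀).sum (fun w a => |a| * N w) < 1

theorem ball_self {Wi : Type} (N : Wi → ℝ) (q₀ : Wi →₀ ℝ) : Ball N q₀ q₀ := by simp [Ball]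

theorem isOp_ball {Wi : Type} (N : Wi → ℝ) (q₀ : Wi →₀ ℝ) : St.IsOp (Ball N q₀) := by
  classical
  rintro q₁ h1 ι l q ⟨S, hS, hl⟩
  have e : ∀ p : Wi →₀ ℝ, (∀ w, w ∉ S → p w = q₁ w) → (p - q₀).sum (fun w a => |a| * N w) =
      ∑ w ∈ S ∪ (q₁ - q₀).support, |p w - q₀ w| * N w := fun p hp =>
    Finsupp.sum_of_support_subset _ (fun w hw => by
      by_cases h : w ∈ S
      · exact Finset.mem_union_left _ h
      · refine Finset.mem_union_right _ ?_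
        simpa only [Finsupp.mem_support_iff, Finsupp.sub_apply, hp w h] using hw) _ (by simp)
  simp only [Ball, e _ (hS _)]
  rw [Ball, e _ fun _ _ => rfl] at h1
  exact (tendsto_finset_sum _ fun w _ => ((hl w).sub_const _).abs.mul_const _).eventually_lt_const h1

variable {Wi : Type} {X : Mf 4} {A κ lam : Type} [Fintype A] [Fintype κ] [Fintype lam]
  [DecidableEq lam] {M : Mark X A κ} {W : World M} {N : ML M lam}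

namespace Job
variable {Λ : Lns W N} {A' h : Type} [Fintype A'] [DecidableEq A'] [Fintype h] {r n : ℕ}
  {J : Job Wi Λ A' h r n} {c : M.Cl} {σ : Cel A'} {q : Wi →₀ ℝ}

/-! ### isomorphism is an equivalence -/

/-- admissible objects -/
def Obc.Ok (y : J.Obc c) : Prop := Eqv71.Ad0 y.x (J.B c) (J.G c y.s) ∧ J.Θ y.s ∈ M.O c.1

theorem cl_dom (J : Job Wi Λ A' h r n) : cl σ ⊆ J.dom σ := fun _ hs => ⟨hs.1, fun a _ => (hs.2 a).2⟩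

theorem Sol.par (hJ : J.OK) (hσ : σ ∈ J.𝒦) {y : J.Obc c} (h : Sol σ q y) :
    (J.Θ y.s).2 ∈ M.sys.Par := hJ.par σ hσ _ (J.cl_dom h.cell)

theorem Sol.br (hJ : J.OK) (hσ : σ ∈ J.𝒦) {y : J.Obc c} (h : Sol σ q y) : J.Θ y.s ∈ M.Br c.1 :=
  ⟨h.par hJ hσ, h.inf.ge⟩

theorem Sol.ok (hJ : J.OK) (hσ : σ ∈ J.𝒦) {y : J.Obc c} (h : Sol σ q y) : y.Ok :=
  ⟨Eqv71.ad0 h.sol.toAdm, h.inf ▸ Mark.mem_O_cOf (h.par hJ hσ)⟩

theorem Sol.act (hJ : J.OK) (hσ : σ ∈ J.𝒦) {y : J.Obc c} (h : Sol σ q y) {a : A} (ha : a ∈ cylW c)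
    (b : Bool) : Act J.m c a (some b) (J.Θ y.s) := ⟨ha.2, h.br hJ hσ, (h.ok hJ hσ).2, ha.1⟩

theorem Sol.H_eq {y : J.Obc c} (h : Sol σ q y) (hl : y.l = 0) : y.H = J.unc c :=
  h.sub.antisymm (diff_eq_empty.1 ((ncard_eq_zero (toFinite _)).1 (Nat.le_zero.1 (hl ▸ h.drop))))

theorem Obc.Ok.refl {y : J.Obc c} (h : y.Ok) : Iso y y :=
  ⟨rfl, Cnt93.isoC_refl (Λ.B_ok _ _) (Λ.G_ok _ h.2) h.1⟩

theorem Iso.symm {y y' : J.Obc c} (e : Iso y y') (h : y.Ok) (h' : y'.Ok) : Iso y' y :=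
  ⟨e.1.symm, e.1 ▸ Cnt93.isoC_symm (Λ.B_ok _ _) (Λ.G_ok _ h.2) h.1 (e.1 ▸ h'.1) e.2⟩

theorem Iso.trans {y y' y'' : J.Obc c} (e : Iso y y') (e' : Iso y' y'') (h : y.Ok) (h' : y'.Ok)
    (h'' : y''.Ok) : Iso y y'' :=
  ⟨e.1.trans e'.1, Cnt93.isoC_trans (Λ.B_ok _ _) (Λ.G_ok _ h.2) h.1 (e.1 ▸ h'.1)
    ((e.1.trans e'.1) ▸ h''.1) e.2 (e.1 ▸ e'.2)⟩

theorem equiv_TS (hJ : J.OK) (hσ : σ ∈ J.𝒦) : Equivalence fun y y' : J.TS σ q c => Iso y.1 y'.1 :=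
  ⟨fun y => (y.2.1.ok hJ hσ).refl, fun {y y'} e => e.symm (y.2.1.ok hJ hσ) (y'.2.1.ok hJ hσ),
    fun {y y' y''} e e' => e.trans e' (y.2.1.ok hJ hσ) (y'.2.1.ok hJ hσ) (y''.2.1.ok hJ hσ)⟩

variable (J c) in
/-- isomorphism as a setoid -/
def feq : Setoid (J.Obc c) where
  r y y' := y = y' ∨ y.Ok ∧ y'.Ok ∧ Iso y y'
  iseqv := ⟨fun _ => .inl rfl, fun e => e.imp Eq.symm fun e => ⟨e.2.1, e.1, e.2.2.symm e.1 e.2.1⟩,
    fun e e' => by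
      rcases e with rfl | e
      · exact e'
      rcases e' with rfl | e'
      · exact .inr e
      · exact .inr ⟨e.1, e'.2.1, e.2.2.trans e'.2.2 e.1 e'.1 e'.2.1⟩⟩

theorem feq_iff {y y' : J.Obc c} (h : y.Ok) (h' : y'.Ok) : J.feq c y y' ↔ Iso y y' :=
  ⟨fun e => e.elim (fun e => e ▸ h.refl) fun e => e.2.2, fun e => .inr ⟨h, h', e⟩⟩

theorem tight_c0 {y : J.Obc M.c0} (h : y.l = 0) : y.Tight := ⟨h, fun _ ha => ha.1.elim⟩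

theorem mem_wa {a : A'} : a ∈ J.wa σ ↔ σ a = none ∧ (J.hd a).isSome := by simp [wa]

theorem mem_wb {b : A' × Bool} : b ∈ J.wb σ ↔ σ b.1 = none ∧ (b.2 → (J.hd b.1).isNone) := by
  simp [wb]

theorem cf_nonempty {a : A'} (ha : a ∈ J.wa σ) : (J.cf a).1.Nonempty :=
  Option.isSome_iff_exists.1 (mem_wa.1 ha).2

theorem cf_sub (a : A') : (J.cf a).1.Subsingleton := fun _ hx _ hy =>
  Option.some.inj ((show J.hd a = _ from hx).symm.trans hy)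

theorem eq_c0 {c₀ : M.Cl} (h : c.1 ⊂ c₀.1) (h₀ : c₀.1.Subsingleton) : c = M.c0 :=
  Subtype.ext (eq_empty_of_forall_notMem fun _ hx =>
    h.2 fun _ hy => h₀ (h.1 hx) hy ▸ hx)

theorem cf_ne {a : A'} (ha : a ∈ J.wa σ) : J.cf a ≠ M.c0 := fun e =>
  (cf_nonempty ha).ne_empty (congrArg Subtype.val e)

/-! ### models of the cells -/

variable (J) in
/-- Banach models of the top strata -/
structure Mdl : Type 1 where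
  top : J.Obc M.c0 → Prop
  Q : Cel A' → Prob Wi
  ob : ∀ {σ}, (Q σ).X → J.Obc M.c0
  tc : ∀ σ, A' → ∀ o, (Q σ).C o → ℝ
  inc : ∀ σ b, (Q (fc σ b)).X → (Q σ).X
  n₀ : ℤ

namespace Mdl
variable (D : J.Mdl)

/-- the complex of cells -/
@[reducible] def gx : Gx Wi (Cel A') A' (A' × Bool) where
  Q := D.Q
  wa := J.wa
  wb := J.wb
  ta := D.tc
  tb σ b o v := if b.2 then 1 - D.tc σ b.1 o v else D.tc σ b.1 o v
  fc := fc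
  inc := D.inc

/-- top objects -/
def Top (y : J.Obc c) : Prop := ∃ e : c = M.c0, D.top (e ▸ y)

theorem top_iff {y : J.Obc M.c0} : D.Top y ↔ D.top y := ⟨fun ⟨_, h⟩ => h, fun h => ⟨rfl, h⟩⟩

theorem not_top (hc : c ≠ M.c0) (y : J.Obc c) : ¬D.Top y := fun ⟨e, _⟩ => hc e

/-- the conditions under which `Z c` may carry a face of `σ` -/
def Fa (σ : Cel A') (c : M.Cl) : Prop :=
  D.n₀ + dim σ = 1 ∧ c.1 ⊆ cylW c ∧ ∃ a ∈ J.wa σ, c = J.cf a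

/-- LEAF MDL -/
structure Ax (Adm : (Wi →₀ ℝ) → Prop) (σ : Cel A') : Prop where
  cx : D.gx.Ax Adm σ
  n : (D.Q σ).n = D.n₀ + dim σ
  l0 : ∀ y, D.top y → y.l = 0
  sol : ∀ q, Adm q → ∀ x ∈ D.gx.M σ q, Sol σ q (D.ob x) ∧ D.top (D.ob x)
  pt : ∀ q, Adm q → ∀ y, Sol σ q y → D.top y → ∃ x ∈ D.gx.M σ q, Iso (D.ob x) y
  eqv : ∀ q, Adm q → ∀ x ∈ D.gx.M σ q, ∀ x' ∈ D.gx.M σ q,
    ((D.Q σ).eqv x x' ↔ Iso (D.ob x) (D.ob x'))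
  str : ∀ q₀, Adm q₀ → ∀ (α : Type) (𝒰 : Ultrafilter α) (q : α → Wi →₀ ℝ) (u : α → (D.Q σ).X) y₀,
    St.Cv (𝒰 : Filter α) q q₀ → (∀ᶠ i in (𝒰 : Filter α), Adm (q i) ∧ u i ∈ D.gx.M σ (q i)) →
    Sol σ q₀ y₀ → D.top y₀ → Str 𝒰 (fun i => D.ob (u i)) y₀ →
    ∃ x₀ ∈ D.gx.M σ q₀, Tendsto u 𝒰 ((D.Q σ).Near x₀)
  dens : ∀ q, Adm q → ∀ x ∈ D.gx.M σ q, (D.Q σ).Reg q x ∨ ∃ S, (D.Q σ).Onto q x S

end Mdl

/-! ### strata -/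

variable (J c) in
/-- finitely many strata of the ideal objects on `Z c`, with their parts -/
structure Stra : Type 1 where
  S : Type
  en : S → ℝ
  wt : S → ℕ
  mem : S → J.Obc c → Prop
  face : S → Prop
  Jp : S → Type
  Ic : ∀ s, Jp s → Type
  P : ∀ s j, Ic s j → Prob Wi
  rep : ∀ {s j} (i : Ic s j), J.Obc c → (P s j i).X → Prop

/-- all parts are regular -/
def Stra.Reg (T : J.Stra c) (s : T.S) (q : Wi →₀ ℝ) (y : J.Obc c) : Prop :=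
  ∀ j, ∃ (i : T.Ic s j) (x : (T.P s j i).X), T.rep i y x ∧ (T.P s j i).Reg q x

/-- LEAF STRA (`top = D.Top`, `Fa = D.Fa σ c`) -/
structure Stra.Ax (T : J.Stra c) (Adm : (Wi →₀ ℝ) → Prop) (σ : Cel A') (top : J.Obc c → Prop)
    (Fa : Prop) : Prop where
  fin : Finite T.S
  finJ : ∀ s, Finite (T.Jp s)
  ax : ∀ s j i, (T.P s j i).Ax Adm
  cover : ∀ q y, Adm q → Sol σ q y → ¬top y → ∃ s, T.mem s y
  ntop : ∀ s q y, Adm q → Sol σ q y → T.mem s y → ¬top y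
  en : ∀ s q y, Adm q → Sol σ q y → T.mem s y → y.en = T.en s
  sol : ∀ s j (i : T.Ic s j) q y x, Adm q → Sol σ q y → T.mem s y → T.rep i y x →
    (T.P s j i).Sol q x
  dens : ∀ s j q y, Adm q → Sol σ q y → T.mem s y → ∃ (i : T.Ic s j) (x : (T.P s j i).X),
    T.rep i y x ∧ ((T.P s j i).Reg q x ∨ ∃ S, (T.P s j i).Onto q x S)
  kill : ∀ s q y, ¬T.face s → Adm q → Sol σ q y → T.mem s y → ¬T.Reg s q y
  face : ∀ s q y, T.face s → Adm q → Sol σ q y → T.mem s y → Fa ∧ y.Tight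
  fine : ∀ s q₀, Adm q₀ → ∀ (α : Type) (𝒰 : Ultrafilter α) (q : α → Wi →₀ ℝ) (y : α → J.Obc c) y₀,
    St.Cv (𝒰 : Filter α) q q₀ →
    (∀ᶠ i in (𝒰 : Filter α), Adm (q i) ∧ Sol σ (q i) (y i) ∧ T.mem s (y i)) →
    Sol σ q₀ y₀ → Str 𝒰 y y₀ →
    (T.mem s y₀ ∧ ∀ j (i : T.Ic s j) x₀, T.rep i y₀ x₀ → RNear (T.rep i) 𝒰 y x₀) ∨
    ∃ s', T.wt s < T.wt s' ∧ T.mem s' y₀ ∧
      (T.face s' → T.Reg s' q₀ y₀ → ∀ᶠ k in (𝒰 : Filter α), T.Reg s (q k) (y k))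

/-! ### kits -/

variable (J) in
/-- models, strata and the degeneration relations -/
structure Kit : Type 1 extends J.Mdl where
  Adm : (Wi →₀ ℝ) → Prop
  T : Cel A' → ∀ c, J.Stra c
  Deg : ∀ σ a (α : Type), Ultrafilter α → (α → (Q σ).X) → J.Obc (J.cf a) → Prop

namespace Kit
variable (K : J.Kit)

/-- all strata -/
abbrev S : Type := Σ (σ : J.𝒦) (c : M.Cl), (K.T σ c).S

/-- the order of the degenerations -/
def key (s : K.S) : ℕ ×ₗ ℝ ×ₗ ℕ :=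
  toLex (s.2.1.1.ncard, toLex ((K.T s.1 s.2.1).en s.2.2, (K.T s.1 s.2.1).wt s.2.2))

/-- the ideal strata -/
@[reducible] def idl : Idr Wi where
  S := K.S
  X s := J.Obc s.2.1
  Sol s q y := Sol s.1 q y ∧ (K.T s.1 s.2.1).mem s.2.2 y
  J s := (K.T s.1 s.2.1).Jp s.2.2
  I s := (K.T s.1 s.2.1).Ic s.2.2
  P s := (K.T s.1 s.2.1).P s.2.2
  rep i := (K.T _ _).rep i
  rank s := {s' | K.key s < K.key s'}.ncard
  Adm := K.Adm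
  face s := (K.T s.1 s.2.1).face s.2.2

/-- good for the ideal strata -/
def G (q : Wi →₀ ℝ) : Prop :=
  K.Adm q ∧ ∀ σ ∈ J.𝒦, ∀ c s (y : J.Obc c), Sol σ q y → (K.T σ c).mem s y → (K.T σ c).Reg s q y

theorem G_eq : K.G = K.idl.G := funext fun _ => propext (and_congr_right fun _ =>
  ⟨fun h s x hx => h s.1 s.1.2 _ _ x hx.1 hx.2, fun h σ hσ c s y h1 h2 => h ⟨⟨σ, hσ⟩, c, s⟩ y ⟨h1, h2⟩⟩)

/-- good for all strata -/
def GG (q : Wi →₀ ℝ) : Prop := K.G q ∧ ∀ σ ∈ J.𝒦, ∀ x ∈ K.gx.M σ q, (K.Q σ).Reg q x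

/-- the assembly -/
@[reducible] def gsm : Gsm Wi (Cel A') A' (A' × Bool) where
  toGx := K.gx
  Adm := K.Adm
  G := K.G
  𝒦 := J.𝒦
  Fc _ a := J.Obc (J.cf a)
  FSol {σ _} q y := Sol σ q y ∧ y.Tight
  feq _ a := J.feq (J.cf a)
  Deg {σ a α} := K.Deg σ a α

/-- LEAF GL at the wall `a` of the cell `σ` -/
structure Gl (σ : Cel A') (a : A') : Prop where
  topf : ∀ s q₀ (y₀ : J.Obc (J.cf a)), (K.T σ _).face s → K.Adm q₀ → Sol σ q₀ y₀ →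
    (K.T σ _).mem s y₀ → ∀ (α : Type) (𝒰 : Ultrafilter α) (q : α → Wi →₀ ℝ) y,
    (∀ᶠ i in (𝒰 : Filter α), K.Adm (q i) ∧ Sol σ (q i) (y i)) → Dg 𝒰 y y₀ →
    ∀ᶠ i in (𝒰 : Filter α), K.top (y i)
  isol : ∀ q, K.G q → ∀ (𝒰 : Ultrafilter ℕ) (y : ℕ → J.Obc (J.cf a)) y₀,
    (∀ i, Sol σ q (y i) ∧ (y i).Tight) → Sol σ q y₀ → y₀.Tight → Str 𝒰 y y₀ →
    ∀ᶠ i in (𝒰 : Filter ℕ), Iso (y i) y₀
  of_dg : ∀ q₀, K.G q₀ → ∀ (α : Type) (𝒰 : Ultrafilter α) (q : α → Wi →₀ ℝ) u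
    (y : J.Obc (J.cf a)), St.Cv (𝒰 : Filter α) q q₀ →
    (∀ᶠ i in (𝒰 : Filter α), K.Adm (q i) ∧ u i ∈ K.gx.M σ (q i)) → Sol σ q₀ y → y.Tight →
    Dg 𝒰 (fun i => K.ob (u i)) y → K.Deg σ a α 𝒰 u y
  one : ∀ α 𝒰 u y, K.Deg σ a α 𝒰 u y → Tendsto (fun i => K.gx.pa (u i) a) 𝒰 (𝓝 1)
  lt : ∀ α 𝒰 u y, K.Deg σ a α 𝒰 u y → ∀ a' ∈ J.wa σ, a' ≠ a →
    ∃ c < 1, ∀ᶠ i in (𝒰 : Filter α), K.gx.pa (u i) a' ≤ c
  congr : ∀ 𝒰 u u' y, K.Deg σ a ℝ 𝒰 u y →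
    (∀ᶠ i in (𝒰 : Filter ℝ), (K.Q σ).In (u i) ∧ (K.Q σ).eqv (u i) (u' i)) → K.Deg σ a ℝ 𝒰 u' y
  iso : ∀ q, K.G q → ∀ (𝒰 : Ultrafilter ℝ) u y y', (∀ᶠ i in (𝒰 : Filter ℝ), u i ∈ K.gx.M σ q) →
    Sol σ q y → y.Tight → Sol σ q y' → y'.Tight → K.Deg σ a ℝ 𝒰 u y →
    (K.Deg σ a ℝ 𝒰 u y' ↔ Iso y y')
  reg : ∀ q₀, K.G q₀ → ∀ α (𝒰 : Ultrafilter α) (q : α → Wi →₀ ℝ) u y, St.Cv (𝒰 : Filter α) q q₀ →
    (∀ᶠ i in (𝒰 : Filter α), K.Adm (q i) ∧ u i ∈ K.gx.M σ (q i)) → Sol σ q₀ y → y.Tight →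
    K.Deg σ a α 𝒰 u y → ∀ᶠ i in (𝒰 : Filter α), K.gx.Tr (q i) (u i) a
  ex : ∀ q, K.G q → ∀ y, Sol σ q y → y.Tight → ∀ 𝒰 : Ultrafilter ℝ, (𝒰 : Filter ℝ) ≤ 𝓝[<] 1 →
    ∃ u, (∀ᶠ T in (𝒰 : Filter ℝ), u T ∈ K.gx.M σ q ∧ K.gx.pa (u T) a = T) ∧ K.Deg σ a ℝ 𝒰 u y
  uniq : ∀ q, K.G q → ∀ y, Sol σ q y → y.Tight → ∀ 𝒰 : Ultrafilter ℝ, (𝒰 : Filter ℝ) ≤ 𝓝[<] 1 →
    ∀ u u', (∀ᶠ T in (𝒰 : Filter ℝ), u T ∈ K.gx.M σ q ∧ K.gx.pa (u T) a = T) →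
      (∀ᶠ T in (𝒰 : Filter ℝ), u' T ∈ K.gx.M σ q ∧ K.gx.pa (u' T) a = T) →
      K.Deg σ a ℝ 𝒰 u y → K.Deg σ a ℝ 𝒰 u' y → ∀ᶠ T in (𝒰 : Filter ℝ), (K.Q σ).eqv (u T) (u' T)

/-- everything but the gluing -/
structure Ax0 : Prop where
  ok : J.OK
  op : St.IsOp K.Adm
  comp : J.Comp K.Adm
  mdl : ∀ σ ∈ J.𝒦, K.toMdl.Ax K.Adm σ
  str : ∀ σ ∈ J.𝒦, ∀ c, (K.T σ c).Ax K.Adm σ K.Top (K.Fa σ c)

/-- what the genericity of the ideal strata needs -/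
structure Ax1 : Prop extends K.Ax0 where
  topf : ∀ σ ∈ J.𝒦, ∀ a ∈ J.wa σ, ∀ s q₀ (y₀ : J.Obc (J.cf a)), (K.T σ _).face s → K.Adm q₀ →
    Sol σ q₀ y₀ → (K.T σ _).mem s y₀ → ∀ (α : Type) (𝒰 : Ultrafilter α) (q : α → Wi →₀ ℝ) y,
    (∀ᶠ i in (𝒰 : Filter α), K.Adm (q i) ∧ Sol σ (q i) (y i)) → Dg 𝒰 y y₀ →
    ∀ᶠ i in (𝒰 : Filter α), K.top (y i)

/-- all leaves; gluing is needed only where a face stratum exists -/
structure Ax : Prop extends K.Ax0 where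
  gl : ∀ σ ∈ J.𝒦, ∀ a ∈ J.wa σ, K.Gl σ a ∨
    (∀ s, ¬(K.T σ (J.cf a)).face s) ∧ ∀ α 𝒰 u y, ¬K.Deg σ a α 𝒰 u y

variable {K}

/-- at a good perturbation every ideal solution is a regular face object -/
theorem Ax0.face (h : K.Ax0) (hq : K.G q) (hσ : σ ∈ J.𝒦) {y : J.Obc c} (hy : Sol σ q y)
    (ht : ¬K.Top y) : (K.Fa σ c ∧ y.Tight) ∧
      ∃ s, (K.T σ c).face s ∧ (K.T σ c).mem s y ∧ (K.T σ c).Reg s q y := by
  obtain ⟨s, hs⟩ := (h.str σ hσ c).cover q y hq.1 hy ht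
  have hr := hq.2 σ hσ c s y hy hs
  have hf : (K.T σ c).face s := by_contra fun hf => (h.str σ hσ c).kill s q y hf hq.1 hy hs hr
  exact ⟨(h.str σ hσ c).face s q y hf hq.1 hy hs, s, hf, hs, hr⟩

/-- at a good perturbation every unbroken solution is a top object -/
theorem Ax0.only_top (h : K.Ax0) (hq : K.G q) (hσ : σ ∈ J.𝒦) {y : J.Obc M.c0} (hy : Sol σ q y) :
    K.top y := by_contra fun ht =>
  let ⟨_, _, a, ha, e⟩ := (h.face hq hσ hy (mt K.top_iff.1 ht)).1.1; cf_ne ha e.symm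

theorem Ax0.tight (h : K.Ax0) (hσ : σ ∈ J.𝒦) {y : J.Obc c} (ht : K.Top y) : y.Tight := by
  obtain ⟨rfl, ht⟩ := ht
  exact tight_c0 ((h.mdl σ hσ).l0 y ht)

theorem Ax0.zc_zero (h : K.Ax0) (hq : K.G q) (hσ : σ ∈ J.𝒦) (hc : c ≠ M.c0)
    (hf : ∀ s, ¬(K.T σ c).face s) : J.zc q σ c = 0 := by
  have : IsEmpty (J.TS σ q c) := ⟨fun y =>
    let ⟨s, h1, _⟩ := (h.face hq hσ y.2.1 (K.not_top hc _)).2; hf s h1⟩
  exact Nat.card_of_isEmpty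

namespace Ax1
variable (H : K.Ax1)
include H

theorem fin : Finite K.S := by
  have : Finite M.Cl := Subtype.finite
  have := fun (σ : J.𝒦) c => (H.str σ σ.2 c).fin
  infer_instance

theorem rank_lt {s s' : K.S} (e : K.key s < K.key s') : K.idl.rank s' < K.idl.rank s := by
  have := H.fin
  exact ncard_lt_ncard ⟨fun _ ht => e.trans ht, fun ht => lt_irrefl (K.key s') (ht e)⟩

theorem idl : K.idl.Ax where
  fin := H.fin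
  finJ s := (H.str _ s.1.2 _).finJ _
  ax s := (H.str _ s.1.2 _).ax _
  adm := H.op
  sol s j i q y x ha hy := (H.str _ s.1.2 _).sol _ j i q y x ha hy.1 hy.2
  dens s j q y ha hy := (H.str _ s.1.2 _).dens _ j q y ha hy.1 hy.2
  kill s q y hf ha hy := (H.str _ s.1.2 _).kill _ q y hf ha hy.1 hy.2
  comp := by
    rintro ⟨⟨σ, hσ⟩, c, s⟩ q₀ ha α 𝒰 q y hq hy
    have hT := H.str σ hσ
    have hy' := hy.mono fun i hi => (⟨hi.1, hi.2.1⟩ : K.Adm (q i) ∧ Sol σ (q i) (y i))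
    have he := hy.mono fun i hi => (hT c).en s _ _ hi.1 hi.2.1 hi.2.2
    rcases H.comp σ hσ q₀ ha α 𝒰 q c y hq hy' with ⟨y₀, h1, h2 | ⟨h2, ε, h3, h4⟩⟩ | ⟨c₀, y₀, h1, h2, h3⟩
    · rcases (hT c).fine s q₀ ha α 𝒰 q y y₀ hq hy h1 h2 with h3 | ⟨s', h3, h4, h5⟩
      · exact .inl ⟨y₀, ⟨h1, h3.1⟩, h3.2⟩
      · refine .inr ⟨⟨⟨σ, hσ⟩, c, s'⟩, y₀, H.rank_lt ?_, ⟨h1, h4⟩, h5⟩
        refine Prod.Lex.toLex_lt_toLex.2 (.inr ⟨rfl, Prod.Lex.toLex_lt_toLex.2 (.inr ⟨?_, h3⟩)⟩)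
        exact (tendsto_nhds_unique (tendsto_const_nhds.congr' (he.mono fun _ e => e.symm))
          h2.en).trans ((hT c).en s' _ _ ha h1 h4)
    · obtain ⟨s', h5⟩ := (hT c).cover q₀ y₀ ha h1 fun ht => h2 (H.tight hσ ht)
      refine .inr ⟨⟨⟨σ, hσ⟩, c, s'⟩, y₀, H.rank_lt ?_, ⟨h1, h5⟩,
        fun hf => (h2 ((hT c).face s' q₀ y₀ hf ha h1 h5).2).elim⟩
      refine Prod.Lex.toLex_lt_toLex.2 (.inr ⟨rfl, Prod.Lex.toLex_lt_toLex.2 (.inl ?_)⟩)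
      obtain ⟨i, h6, h7⟩ := (he.and h4).exists
      have h8 := (hT c).en s' _ _ ha h1 h5
      show (K.T σ c).en s < (K.T σ c).en s'
      linarith
    · obtain ⟨s', h5⟩ := (hT c₀).cover q₀ y₀ ha h2 (K.not_top (fun e =>
        (h1.trans_eq (congrArg Subtype.val e)).2 (empty_subset _)) _)
      refine .inr ⟨⟨⟨σ, hσ⟩, c₀, s'⟩, y₀,
        H.rank_lt (Prod.Lex.toLex_lt_toLex.2 (.inl (ncard_lt_ncard h1))), ⟨h2, h5⟩, fun hf _ => ?_⟩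
      obtain ⟨⟨-, h6, a, h7, rfl⟩, h8⟩ := (hT c₀).face s' q₀ y₀ hf ha h2 h5
      obtain rfl : c = M.c0 := eq_c0 h1 (cf_sub a)
      filter_upwards [hy, H.topf σ hσ a h7 s' q₀ y₀ hf ha h2 h5 α 𝒰 q y hy'
        (h3 rfl (cf_sub a) h6 h8)] with i h9 h10
      exact ((hT _).ntop s _ _ h9.1 h9.2.1 h9.2.2 (K.top_iff.2 h10)).elim

theorem low : Low.Ax ⟨K.Adm, K.G⟩ := K.G_eq ▸ H.idl.low

end Ax1

namespace Ax
variable (H : K.Ax)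
include H

theorem gl' (hσ : σ ∈ J.𝒦) {a : A'} (ha : a ∈ J.wa σ) : K.Gl σ a := by
  rcases H.gl σ hσ a ha with h1 | ⟨h1, h2⟩
  · exact h1
  have e : ∀ q (y : J.Obc (J.cf a)), K.G q → ¬Sol σ q y := fun q y hq hy =>
    let ⟨s, h3, _⟩ := (H.face hq hσ hy (K.not_top (cf_ne ha) _)).2; h1 s h3
  exact ⟨fun s _ _ hs => (h1 s hs).elim, fun q hq _ _ y _ hy => (e q y hq hy).elim,
    fun q hq _ _ _ _ y _ _ hy => (e q y hq hy).elim, fun _ _ _ _ hd => (h2 _ _ _ _ hd).elim,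
    fun _ _ _ _ hd => (h2 _ _ _ _ hd).elim, fun _ _ _ _ hd => (h2 _ _ _ _ hd).elim,
    fun q hq _ _ y _ _ hy => (e q y hq hy).elim, fun q hq _ _ _ _ y _ _ hy => (e q y hq hy).elim,
    fun q hq y hy => (e q y hq hy).elim, fun q hq y hy => (e q y hq hy).elim⟩

theorem ax1 : K.Ax1 := ⟨H.toAx0, fun _ hσ _ ha => (H.gl' hσ ha).topf⟩

theorem low : Low.Ax ⟨K.Adm, K.G⟩ := H.ax1.low

theorem ffin (hq : K.G q) (hσ : σ ∈ J.𝒦) {a : A'} (ha : a ∈ J.wa σ) : Finite (K.gsm.FCl q σ a) := by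
  by_contra hn
  have := not_finite_iff_infinite.1 hn
  let f := Infinite.natEmbedding (K.gsm.FCl q σ a)
  have hy := fun i => (f i).out.2
  rcases H.comp σ hσ q hq.1 ℕ (hyperfilter ℕ) _ _ (fun i => (f i).out.1) (St.cv_const _ q)
    (.of_forall fun i => ⟨hq.1, (hy i).1⟩) with ⟨y₀, h1, h2⟩ | ⟨c₀, y₀, h1, h2, -⟩
  · have h3 := (H.face hq hσ h1 (K.not_top (cf_ne ha) _)).1.2
    have h4 := (H.gl' hσ ha).isol q hq _ _ y₀ hy h1 h3 (h2.resolve_right fun e => e.1 h3)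
    obtain ⟨i, hi, j, hj, e⟩ :=
      (show Set.Infinite _ from fun hf => notMem_hyperfilter_of_finite hf h4).nontrivial
    have o := fun i => (hy i).1.ok H.ok hσ
    have o' := h1.ok H.ok hσ
    exact e (f.injective (Quotient.out_equiv_out.1 ((feq_iff (o i) (o j)).2
      (hi.trans (hj.symm (o j) o') (o i) o' (o j)))))
  · obtain ⟨-, -, a', -, rfl⟩ := (H.face hq hσ h2 (K.not_top (fun e =>
      (h1.trans_eq (congrArg Subtype.val e)).2 (empty_subset _)) _)).1.1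
    exact cf_ne ha (eq_c0 h1 (cf_sub a'))

theorem gsm : K.gsm.Ax where
  fin := toFinite _
  low := H.low
  cx σ hσ := (H.mdl σ hσ).cx
  down := H.ok.down
  dens σ hσ := (H.mdl σ hσ).dens
  comp σ hσ q₀ hq α 𝒰 q u hc hu := by
    have hy := hu.mono fun i hi => (⟨hi.1, ((H.mdl σ hσ).sol _ hi.1 _ hi.2).1⟩ :
      K.Adm (q i) ∧ Sol σ (q i) (K.ob (u i)))
    rcases H.comp σ hσ q₀ hq.1 α 𝒰 q _ _ hc hy with ⟨y₀, h1, h2⟩ | ⟨c₀, y₀, h1, h2, h3⟩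
    · have h3 := H.only_top hq hσ h1
      exact .inl ((H.mdl σ hσ).str q₀ hq.1 α 𝒰 q u y₀ hc hu h1 h3
        (h2.resolve_right fun e => e.1 (H.tight hσ (K.top_iff.2 h3))))
    · obtain ⟨⟨-, h4, a, h5, rfl⟩, h6⟩ := (H.face hq hσ h2 (K.not_top (fun e =>
        (h1.trans_eq (congrArg Subtype.val e)).2 (empty_subset _)) _)).1
      exact .inr ⟨a, h5, y₀, ⟨h2, h6⟩, (H.gl' hσ h5).of_dg q₀ hq α 𝒰 q u y₀ hc hu h2 h6
        (h3 rfl (cf_sub a) h4 h6)⟩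
  deg_one σ hσ a ha := (H.gl' hσ ha).one
  deg_lt σ hσ a ha := (H.gl' hσ ha).lt
  deg_congr σ hσ a ha := (H.gl' hσ ha).congr
  deg_eqv σ hσ a ha q hq 𝒰 u y y' hu h1 h2 hd :=
    ((H.gl' hσ ha).iso q hq 𝒰 u y y' hu h1.1 h1.2 h2.1 h2.2 hd).trans
      (feq_iff (h1.1.ok H.ok hσ) (h2.1.ok H.ok hσ)).symm
  nof σ hσ hn a ha q hq y hy := by
    have h1 := (H.face hq hσ hy.1 (K.not_top (cf_ne ha) _)).1.1.1
    have h2 : (K.Q σ).n ≤ 0 := hn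
    rw [(H.mdl σ hσ).n] at h2
    omega
  ffin σ hσ _ a ha q hq := H.ffin hq hσ ha
  gl_reg σ hσ a ha q₀ hq α 𝒰 q u y h1 h2 h3 := (H.gl' hσ ha).reg q₀ hq α 𝒰 q u y h1 h2 h3.1 h3.2
  gl_ex σ hσ a ha q hq y hy := (H.gl' hσ ha).ex q hq y hy.1 hy.2
  gl_uniq σ hσ a ha q hq y hy := (H.gl' hσ ha).uniq q hq y hy.1 hy.2

/-- **The good perturbations are open and dense.** -/
theorem gg : Low.Ax ⟨K.Adm, K.GG⟩ := H.gsm.gg

theorem cl_equiv (hq : K.G q) (hσ : σ ∈ J.𝒦) : Nonempty ((K.Q σ).Cl (K.gx.M σ q) ≃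
    Quot fun y y' : J.TS σ q M.c0 => Iso y.1 y'.1) := by
  have hm := H.mdl σ hσ
  refine card_quot _ (equiv_TS H.ok hσ) (fun x => ⟨K.ob x.1, (hm.sol q hq.1 _ x.2).1,
    tight_c0 (hm.l0 _ (hm.sol q hq.1 _ x.2).2)⟩) (fun x y => hm.eqv q hq.1 _ x.2 _ y.2) fun y => ?_
  obtain ⟨x, h1, h2⟩ := hm.pt q hq.1 y.1 y.2.1 (H.only_top hq hσ y.2.1)
  exact ⟨⟨x, h1⟩, h2⟩

theorem z_eq (hq : K.G q) (hσ : σ ∈ J.𝒦) : K.gx.z q σ = J.z q σ :=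
  let ⟨e⟩ := H.cl_equiv hq hσ; Nat.card_congr e

theorem zf_eq (hσ : σ ∈ J.𝒦) (a : A') : K.gsm.zf q σ a = J.zf q σ a :=
  let ⟨e⟩ := card_quot _ (equiv_TS H.ok hσ) (fun y : J.TS σ q (J.cf a) => y)
    (fun y y' => feq_iff (y.2.1.ok H.ok hσ) (y'.2.1.ok H.ok hσ))
    fun y => ⟨y, (y.2.1.ok H.ok hσ).refl⟩
  Nat.card_congr e

/-- negative index -/
theorem empty (hq : K.GG q) (hσ : σ ∈ J.𝒦) (hn : K.n₀ + dim σ < 0) (y : J.Obc c) :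
    ¬Sol σ q y := fun hy => by
  by_cases ht : K.Top y
  · obtain ⟨rfl, ht⟩ := ht
    obtain ⟨x, h1, -⟩ := (H.mdl σ hσ).pt q hq.1.1 y hy ht
    have h2 : K.gx.M σ q = ∅ := H.gsm.empty hq hσ ((H.mdl σ hσ).n.trans_lt hn)
    exact (h2 ▸ h1 : x ∈ (∅ : Set _))
  · exact absurd (H.face hq.1 hσ hy ht).1.1.1 (by omega)

/-- index zero -/
theorem finite (hq : K.GG q) (hσ : σ ∈ J.𝒦) (hn : K.n₀ + dim σ = 0) :
    Finite (Quot fun y y' : J.TS σ q M.c0 => Iso y.1 y'.1) :=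
  let ⟨e⟩ := H.cl_equiv hq.1 hσ
  have : Finite ((K.Q σ).Cl (K.gx.M σ q)) := H.gsm.finite hq hσ ((H.mdl σ hσ).n.trans hn)
  .of_equiv _ e

/-- **Stokes.** -/
theorem stokes (hq : K.GG q) (hσ : σ ∈ J.𝒦) (hn : K.n₀ + dim σ = 1) :
    Even (∑ b ∈ J.wb σ, J.z q (fc σ b) + ∑ a ∈ J.wa σ, J.zf q σ a) := by
  have := H.gsm.stokes hq hσ ((H.mdl σ hσ).n.trans hn)
  rwa [Finset.sum_congr rfl fun b hb => H.z_eq hq.1 (H.ok.down σ hσ b hb),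
    Finset.sum_congr rfl fun a _ => H.zf_eq hσ a] at this

end Ax
end Kit
end Job
end Crest.Agent.X212.An
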