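import Crest.Agent.X212.An.Ext
import Crest.Agent.X212.Mod61.Inst
import Crest.Agent.X212.Csm97.Mod
import Crest.Agent.X212.Cnt93.Main
import Crest.Agent.X212.Hol14.Alg

/-!
# Row 212, layer AN: one cut over a family, in the Banach models

`RepC` : smooth representing maps; `NatC` : naturality.
-/

set_option autoImplicit false
set_option linter.unusedSectionVars false
noncomputable section
open scoped Manifold ContDiff Topology InnerProductSpace
open MeasureTheory Set Function Filter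

namespace Crest.Agent.X212.An
open Mod61 Eqv71 Hol14 Cnt93
open Fred93 (Fr)

variable {E : Type} [NormedAddCommGroup E] [NormedSpace ℝ E] [FiniteDimensional ℝ E]
  [MeasurableSpace E] [BorelSpace E]
  {HM : Type} [TopologicalSpace HM] {I : ModelWithCorners ℝ E HM} [I.Boundaryless]
  {M : Type} [TopologicalSpace M] [ChartedSpace HM M] [IsManifold I ∞ M]
  [MeasurableSpace M] [T2Space M] [BorelSpace M] [SecondCountableTopology M]
  {ι : Type} [Fintype ι] {lam : Type} [Fintype lam]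
  {T : Type} [NormedAddCommGroup T] [NormedSpace ℝ T]
  {𝔉 : Fam I M ι lam T} {o o' : Ref 𝔉} {r n m k : ℕ} {W : Type} {c : Cut M lam} {x : M}

/-- a unit quaternion that commutes with the imaginary ones is `±1` -/
theorem qcen (q : Quaternion ℝ) (k : ∀ d : Quaternion ℝ, d.re = 0 → d * q = q * d)
    (h : star q * q = 1) : ∃ t : ℝ, q = t ∧ ‖(t : ℂ)‖ = 1 := by
  have k1 := fun d hd => (Quaternion.imJ_mul d q).symm.trans
    ((congrArg QuaternionAlgebra.imJ (k d hd)).trans (Quaternion.imJ_mul q d))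
  have k2 := fun d hd => (Quaternion.imK_mul d q).symm.trans
    ((congrArg QuaternionAlgebra.imK (k d hd)).trans (Quaternion.imK_mul q d))
  have a1 := k1 ⟨0, 1, 0, 0⟩ rfl
  have a2 := k2 ⟨0, 1, 0, 0⟩ rfl
  have a3 := k2 ⟨0, 0, 1, 0⟩ rfl
  dsimp only at a1 a2 a3
  obtain ⟨t, rfl⟩ : ∃ t : ℝ, q = t :=
    ⟨q.re, Quaternion.ext _ _ rfl (show q.imI = 0 by linarith) (show q.imJ = 0 by linarith)
      (show q.imK = 0 by linarith)⟩
  refine ⟨t, rfl, ?_⟩
  rw [Quaternion.star_coe, ← Quaternion.coe_mul, ← Quaternion.coe_one, Quaternion.coe_inj] at h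
  rw [Complex.norm_real, Real.norm_eq_abs, ← sq_eq_sq₀ (abs_nonneg _) zero_le_one, sq_abs, sq, h,
    one_pow]

/-! ### one cut -/

variable (o c) in
/-- the Hardy space -/
abbrev HH : Type := c.H 𝔉.B o.m

variable (o o' c) in
/-- a constant operator between Hardy spaces -/
abbrev rC (u : CL o.m.V o'.m.V) : CL (HH o c) (HH o' c) :=
  rH o.m.J (o.m.pp 𝔉.B c.x0) o'.m.J (o'.m.pp 𝔉.B c.x0) u

variable (o c) in
/-- the complex structure -/
abbrev JC : CL (HH o c) (HH o c) := JH o.m.J (o.m.pp 𝔉.B c.x0)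

/-- the value at a smooth point -/
def evC (σ : T → Pc r 𝔉.B c) (y : Pnt o r) : CL (HH o c) (HH o c) := σ y.t y.cfg

variable (o k) in
/-- `f` is a smooth map representing `σ` -/
def RepC (σ : T → Pc r 𝔉.B c) (f : o.C r k → CL (HH o c) (HH o c)) : Prop :=
  ContDiffOn ℝ ∞ f (o.U r k) ∧ ∀ y : Pnt o r, f (y.pt k) = evC σ y

variable (o o') in
/-- naturality at smooth points -/
def NatC (Al : (M → CL o.m.V o'.m.V) → Circle → Prop) (σ : T → Pc r 𝔉.B c) : Prop :=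
  ∀ (y : Pnt o r) (y' : Pnt o' r) w ζ, y'.t = y.t → Al w ζ → y.Eq y' w ζ →
    ∀ η (a : HH o c), evC σ y' (Rh c c 𝔉.B 𝔉.B w η a) = Rh c c 𝔉.B 𝔉.B w η (evC σ y a)

variable (𝔉 c r) in
/-- the Toeplitz operator as a family -/
def tpC : T → Pc r 𝔉.B c := fun t x => c.T 𝔉.B (𝔉.G t).F x.m x.W

section one
variable (h : 𝔉.OK) {u : CL o.m.V o'.m.V} {w : M → CL o.m.V o'.m.V}
include h

theorem cpC (o : Ref 𝔉) : CP o.m.J (o.m.pp 𝔉.B x) := cp_pp h.B o.ok x

theorem itC (e : MX o o' x u) : Hol14.It o.m.J (o.m.pp 𝔉.B x) o'.m.J (o'.m.pp 𝔉.B x) u :=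
  ⟨cpC h o, cpC h o', e.J, ContinuousLinearMap.ext fun a =>
    (e.pp (BE.refl h.B x) h.B h.B o.ok a).symm⟩

theorem norm_rC (e : MX o o' c.x0 u) (a : HH o c) : ‖rC o o' c u a‖ = ‖a‖ :=
  (itC h e).norm_rH (by rw [e.uu, Wz78.p_pp o.ok]) a

theorem rC_p (a : HH o c) : rC o o c (o.m.p c.x0) a = a := rH_p (cpC h o) (Wz78.p_pp o.ok _) a

theorem Rh_eq (e : MX o o' c.x0 (w c.x0)) (η : Circle) (a : HH o c) :
    Rh c c 𝔉.B 𝔉.B w η a = phz (JC o' c) η (rC o o' c (w c.x0) a) :=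
  ((itC h e).rH_rH a).symm.trans (rH_csE (cpC h o') _ _)

theorem Rh_one (e : MX o o' c.x0 (w c.x0)) (a : HH o c) :
    Rh c c 𝔉.B 𝔉.B w 1 a = rC o o' c (w c.x0) a := by
  rw [Rh_eq h e, Circle.coe_one, phz_one]; rfl

theorem lmC {y : Pnt o r} {y' : Pnt o' r} {ζ : Circle} (ht : y'.t = y.t) (e : y.Eq y' w ζ) :
    LM 𝔉.B (𝔉.G y.t) 𝔉.B (𝔉.G y.t) 𝔉.Om id (fun x b a => 𝔉.B.P b a x) 𝔉.B.l y.cfg.W y'.cfg.W w :=
  (lg_refl h.B (h.G _ y.ht) h.Om.2).of_ceq (y.ad0 h) (ht ▸ y'.ad0 h) e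

theorem eqvC_iff {y : Pnt o r} {y' : Pnt o' r} {ζ : Circle} (hs : c.supp ⊆ 𝔉.Om) (ht : y'.t = y.t)
    (e : y.Eq y' w ζ) {a : HH o c} {a' : HH o' c} : c.Eqv c 𝔉.B 𝔉.B w a a' ↔
      ∃ η : Circle, a' = phz (JC o' c) η (rC o o' c (w c.x0) a) :=
  (eqv_iff (lmC h ht e) (rel_refl h.B hs)).trans (exists_congr fun η => iff_of_eq
    (congrArg (a' = ·) (Rh_eq h ((e.mi h ht).me _ (hs ⟨(0, 0), rfl⟩)) η a)))

/-- `η u(x₀)` as an isometry -/
def RI (e : MX o o' c.x0 u) (η : Circle) : HH o c ≃ₗᵢ[ℝ] HH o' c where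
  toFun a := phz (JC o' c) η (rC o o' c u a)
  map_add' a b := by simp only [map_add]
  map_smul' s a := by simp only [map_smul, RingHom.id_apply]
  invFun a := rC o' o c (trn u) (phz (JC o' c) (η⁻¹ : Circle) a)
  left_inv a := by
    simp only [← phz_mul (JH_JH (cpC h o')), ← Circle.coe_mul, inv_mul_cancel, Circle.coe_one,
      phz_one, one_apply_eq_self, (itC h e).rH_rH, e.uu, rC_p h]
  right_inv a := by
    simp only [(itC h (e.symm' h)).rH_rH, e.uu', rC_p h, ← phz_mul (JH_JH (cpC h o')),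
      ← Circle.coe_mul, mul_inv_cancel, Circle.coe_one, phz_one, one_apply_eq_self]
  norm_map' a := (norm_phz (JH_JH (cpC h o')) (JH_skew (cpC h o')) η _).trans (norm_rC h e a)

theorem RI_apply (e : MX o o' c.x0 u) (η : Circle) (a : HH o c) :
    RI h e η a = phz (JC o' c) η (rC o o' c u a) := rfl

/-- an automorphism of the fibre that fixes `g` is `±1` -/
theorem rC_triv {u : CL o.m.V o.m.V} (e : MX o o c.x0 u) (t : ∀ ξ ∈ o.m.gS c.x0, cj u ξ = ξ) :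
    ∃ η : Circle, ∀ a, rC o o c u a = phz (JC o c) η a := by
  obtain ⟨U, s, v, f⟩ := Std94.exists_fx h.B (Std94.pmx o.ok c.x0)
  have ap : ∀ {S S' : En (Fin o.m.N)}, S = S' → ∀ v, S v = S' v := fun e v => by rw [e]
  obtain ⟨q, rfl⟩ := (f.itx_iff f u).1 ⟨ap (e.pu o.ok), ap (e.up o.ok),
    fun a => (ap (e.ρ' a) · |>.symm), ap e.J, fun s => (ap (e.j' s) · |>.symm)⟩
  have k : ∀ d : Quaternion ℝ, d.re = 0 → d * q = q * d := fun d hd => by
    have := e.cj_comp (f.Xi_mem hd)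
    rwa [t _ (f.Xi_mem hd), opL_hsL, Std94.Xi_comp, Std94.Xi_comp, (Std94.Xi_inj v v).eq_iff] at this
  have h1 := e.uu
  rw [Std94.trn_Xi, Std94.Xi_comp, ← f.Xi_one, (Std94.Xi_inj v v).eq_iff] at h1
  obtain ⟨s, rfl, h2⟩ := qcen q k h1
  refine ⟨⟨s, mem_sphere_zero_iff_norm.2 h2⟩, fun a => ?_⟩
  rw [f.Xi_coe]
  change rHL o.m.J (o.m.pp 𝔉.B c.x0) (s • o.m.p c.x0) a = s • a + (0 : ℝ) • JC o c a
  rw [map_smul, smul_apply, rHL_apply, rC_p h, zero_smul, add_zero]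

variable {σ : T → Pc r 𝔉.B c} (hs : c.supp ⊆ 𝔉.Om) (hk : 3 ≤ k)
include hs hk

theorem RepC.act {Al : (M → CL o.m.V o.m.V) → Circle → Prop} (Γ : GrpM o r k Al)
    {f : o.C r k → CL (HH o c) (HH o c)} (hf : RepC o k σ f) (hn : NatC o o Al σ) (g : Γ.G)
    {v : o.C r k} (hv : v ∈ o.U r k) (a : HH o c) :
    f (g • v) (rC o o c (Γ.u g c.x0) a) = rC o o c (Γ.u g c.x0) (f v a) := by
  have h0 : c.x0 ∈ 𝔉.Om := hs ⟨(0, 0), rfl⟩
  have hc : Continuous fun g => rC o o c (Γ.u g c.x0) :=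
    (rHL o.m.J (o.m.pp 𝔉.B c.x0)).continuous.comp (Γ.cu _)
  refine eqOn_U h hk (f := fun v => f (g • v) _) (g := fun v => rC o o c (Γ.u g c.x0) (f v a))
    ((hf.1.continuousOn.comp (continuous_const_smul g).continuousOn (Γ.inv_U g)).clm_apply
      continuousOn_const) (continuousOn_const.clm_apply
        (hf.1.continuousOn.clm_apply continuousOn_const)) (fun y => ?_) hv
  refine congrFun (Continuous.ext_on (Γ.dense y) ((hf.1.continuousOn.comp_continuous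
    (f := fun g : Γ.G => g • y.pt k) (by fun_prop) fun g => Γ.inv_U g _ y.mem_U).clm_apply
      (hc.clm_apply continuous_const)) (hc.clm_apply continuous_const) ?_) g
  rintro g ⟨y', e⟩
  have := hn y y' _ _ (Γ.t_eq e) (Γ.al g y y' e) (Γ.eq_of_smul h hk e) 1 a
  simp only [comp_apply, e, hf.2]
  rwa [Rh_one h (Γ.mx g h0), Rh_one h (Γ.mx g h0)] at this

theorem RepC.J {Al : (M → CL o.m.V o.m.V) → Circle → Prop} (al : Al o.m.p 1)
    {f : o.C r k → CL (HH o c) (HH o c)} (hf : RepC o k σ f) (hn : NatC o o Al σ)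
    {v : o.C r k} (hv : v ∈ o.U r k) (a : HH o c) : f v (JC o c a) = JC o c (f v a) := by
  refine eqOn_U h hk (f := fun v => f v _) (g := fun v => JC o c (f v a))
    (hf.1.continuousOn.clm_apply continuousOn_const) (continuousOn_const.clm_apply
      (hf.1.continuousOn.clm_apply continuousOn_const)) (fun y => ?_) hv
  have e := y.eq_refl h
  let i : Circle := ⟨Complex.I, mem_sphere_zero_iff_norm.2 Complex.norm_I⟩
  have := hn y y _ _ rfl al e i a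
  have k : ∀ a : HH o c, Rh c c 𝔉.B 𝔉.B o.m.p i a = JC o c a := fun a =>
    (Rh_eq h ((e.mi h rfl).me _ (hs ⟨(0, 0), rfl⟩)) i a).trans (by
      rw [rC_p h, phz_apply]
      change (0 : ℝ) • a + (1 : ℝ) • JC o c a = _
      rw [zero_smul, one_smul, zero_add])
  rw [hf.2]
  rwa [k, k] at this

theorem RepC.tr {Al : (M → CL o.m.V o'.m.V) → Circle → Prop} {ζ : Circle} (al : Al w ζ)
    {y₀ : Pnt o r} {y₀' : Pnt o' r} (e : y₀.Eq y₀' w ζ) (ht : y₀'.t = y₀.t) (mv : Mv o o' w)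
    {A : o.C r k →L[ℝ] o'.C r k} (b : ActC A w ζ) {f : o.C r k → CL (HH o c) (HH o c)}
    {f' : o'.C r k → CL (HH o' c) (HH o' c)} (hf : RepC o k σ f) (hf' : RepC o' k σ f')
    (hn : NatC o o' Al σ) {v : o.C r k} (hv : v ∈ o.U r k) (η : Circle) (a : HH o c) :
    f' (y₀'.pt k + A (v - y₀.pt k)) (Rh c c 𝔉.B 𝔉.B w η a) = Rh c c 𝔉.B 𝔉.B w η (f v a) := by
  refine eqOn_U h hk (f := fun v => f' (y₀'.pt k + A (v - y₀.pt k)) _)
    (g := fun v => Rh c c 𝔉.B 𝔉.B w η (f v a))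
    ((hf'.1.continuousOn.comp (by fun_prop) fun v hv => ?_).clm_apply continuousOn_const)
    (continuousOn_const.clm_apply (hf.1.continuousOn.clm_apply continuousOn_const)) (fun y => ?_) hv
  · rw [Mod61.mem_U, Prod.snd_add, Prod.snd_add, Prod.snd_add, b.z]
    show y₀'.t + (v.2.2.2 - y₀.t) ∈ 𝔉.Q
    rwa [ht, add_sub_cancel]
  · obtain ⟨y', h1, h2, h4⟩ := e.tr h ht mv y
    rw [← h4 k hk A b, hf.2, hf'.2]
    exact hn y y' w ζ h1 al h2 η a

omit hk in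
theorem natC_tp (hc : ∀ t ∈ 𝔉.Q, c.OK 𝔉.B (𝔉.G t).F) (Al) : NatC o o' Al (tpC 𝔉 r c) :=
  fun y y' _ _ ht _ e η a => by
    unfold evC
    rw [ht]
    exact T_nat (lmC h ht e) (rel_refl h.B hs) η (hc _ y.ht) (hc _ y.ht) a

omit hs in
theorem repC_tp (hc : ∀ t ∈ 𝔉.Q, c.OK 𝔉.B (𝔉.G t).F) : RepC o k (tpC 𝔉 r c)
    fun v => c.T 𝔉.B (𝔉.G v.2.2.2).F o.m (Csm97.Wv o v) :=
  ⟨Csm97.T_model' o h hc hk, fun y => congrArg (c.T 𝔉.B (𝔉.G y.t).F o.m) (Csm97.Wv_pt o hk y)⟩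

end one

end Crest.Agent.X212.An
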