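import Crest.Agent.X212.An.CutI
import Crest.Agent.X212.An.Syn
import Crest.Agent.X212.Mon62.Inst
import Crest.Agent.X212.Hol14.Den
import Crest.Agent.X212.Eqv71.Nat

/-!
# Row 212, layer AN: cuts perturbed by terms

`CTh.ofT` with `ofT_ok`, `ofT_compact`, `OK.onto_ofT`; `tendsto_Rh` (convergence of the fields).
-/

set_option autoImplicit false
set_option linter.unusedSectionVars false
noncomputable section
open scoped Manifold ContDiff Topology InnerProductSpace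
open MeasureTheory Set Function Filter

namespace Crest.Agent.X212.An
open Mod61 Eqv71 Hol14 Cnt93 Mon62

variable {E : Type} [NormedAddCommGroup E] [NormedSpace ℝ E] [FiniteDimensional ℝ E]
  [MeasurableSpace E] [BorelSpace E]
  {HM : Type} [TopologicalSpace HM] {I : ModelWithCorners ℝ E HM} [I.Boundaryless]
  {M : Type} [TopologicalSpace M] [ChartedSpace HM M] [IsManifold I ∞ M]
  [MeasurableSpace M] [T2Space M] [BorelSpace M] [SecondCountableTopology M]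
  {ι : Type} [Fintype ι] {lam : Type} [Fintype lam]
  {T : Type} [NormedAddCommGroup T] [NormedSpace ℝ T]
  {𝔉 : Fam I M ι lam T} {o o' : Ref 𝔉} {r n m k : ℕ} {W : Type} {c : Cut M lam} {Ω : Set M}

variable (𝔉 c) in
/-- a term with a coefficient -/
def tmC (t : Tc M lam r) (g : T → ℝ) : T → Pc r 𝔉.B c := fun s x => g s • x.tc 𝔉.B (𝔉.G s).F c t

theorem ev_tm (t : Tc M lam r) (g : T → ℝ) (y : Pnt o r) : evC (tmC 𝔉 c t g) y =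
    g y.t • (y.cfg.tc 𝔉.B (𝔉.G y.t).F c t : CL (HH o c) (HH o c)) := rfl

theorem xi_model [o.B0] (H : Hy o) (hk : 7 ≤ k) {ξ : Xi M lam r} (hξ : XiIn I Ω ξ) (x : M) :
    ∃ g : o.C r k → En (Fin o.m.N), ContDiffOn ℝ ∞ g (o.U r k) ∧
      ∀ y : Pnt o r, g (y.pt k) = y.cfg.xi (𝔉.G y.t).F ξ x := by
  rcases isEmpty_or_nonempty (Pnt o r) with e | ⟨⟨y₀⟩⟩
  · exact ⟨fun _ => 0, contDiffOn_const, fun y => e.elim y⟩
  have a := H.cfOK hk (hk := by omega) y₀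
  have b := hξ.ok 𝔉.F0
  refine sc_out (Csm97.sc_xi a (ξ := ξ) ?_ ?_ fun _ => x)
  · cases ξ
    exacts [trivial, Dm.awU fun _ => b, ⟨Dm.coU fun _ => b.1, Dm.swU fun _ => b.2.2.2.1,
      Dm.laU fun _ => b.2.2.2.2⟩]
  · cases ξ
    exacts [trivial, trivial, (a.js (Dm.A0.of_cs a.h4 (fun _ => hξ.2.1.sm) fun _ => hξ.2.1.hcs)
      (Dm.swU fun _ => b.2.2.1)).imp Or.inl]

theorem repC_tm [o.B0] (H : Hy o) (hk : 7 ≤ k) (hc : ∀ t ∈ 𝔉.Q, c.OK 𝔉.B (𝔉.G t).F)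
    {t : Tc M lam r} (ht : XiIn I Ω t.ξ) {g : T → ℝ} (hg : ContDiffOn ℝ ∞ g 𝔉.Q) :
    ∃ f, RepC o k (tmC 𝔉 c t g) f :=
  let ⟨_, a, b⟩ := xi_model H hk ht c.x0
  Csm97.tc_model o H.ok hc t a b hg

theorem smul_nat {X Y : Type} [NormedAddCommGroup X] [NormedSpace ℝ X] [NormedAddCommGroup Y]
    [NormedSpace ℝ Y] {A : CL X X} {A' : CL Y Y} {R : CL X Y} {a : X} (s : ℝ)
    (e : A' (R a) = R (A a)) : (s • A') (R a) = R ((s • A) a) := by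
  rw [smul_apply, smul_apply, map_smul, e]

set_option maxRecDepth 4000 in
theorem natC_tm (h : 𝔉.OK) (hs : c.supp ⊆ 𝔉.Om) (hc : ∀ t ∈ 𝔉.Q, c.OK 𝔉.B (𝔉.G t).F)
    {t : Tc M lam r} (ht : XiIn I Ω t.ξ) (g : T → ℝ)
    (ex : ∀ y : Pnt o r, Ex (𝔉.G y.t).F y.cfg 𝔉.Om) (ex' : ∀ y : Pnt o' r, Ex (𝔉.G y.t).F y.cfg 𝔉.Om)
    (Al) : NatC o o' Al (tmC 𝔉 c t g) := fun y y' _ _ e1 _ e η a => by
  have := tc_nat ⟨y.ad0 h, e1 ▸ y'.ad0 h, fun x hx => y.off h x fun k => hx (h.sub k),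
    fun x hx => y'.off h x fun k => hx (h.sub k), ex y, e1 ▸ ex' y', e⟩
    (kc_refl h.B (h.G _ y.ht) h.Om (Mp86.bumps_of_tame _ (h.tameG _ y.ht).choose_spec)) η
    (hc _ y.ht) (hc _ y.ht) (rel_refl h.B hs) (tcR_refl h.B t) (ht.ok _) (ht.ok _) a
  rw [ev_tm, ev_tm, e1]
  exact smul_nat (X := HH o c) (Y := HH o' c) _ this

theorem it_cs {κ κ' : Type} [Fintype κ] [Fintype κ'] [DecidableEq κ'] {J p : En κ} {J' p' : En κ'}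
    {u : CL (Eu κ) (Eu κ')} (i : Hol14.It J p J' p' u) (η : ℂ) :
    Hol14.It J p J' p' (csE J' η ∘L u) :=
  ⟨i.h, i.h', ContinuousLinearMap.ext fun v => (congrArg (csE J' η) (DFunLike.congr_fun i.J v)).trans
    (app (csE_comm rfl η) _), ContinuousLinearMap.ext fun v =>
      (congrArg (csE J' η) (DFunLike.congr_fun i.p v)).trans (app (csE_comm i.h'.comm η) _)⟩

/-- the fields converge after transport -/
theorem tendsto_Rh {α : Type} {l : Filter α} {B : Base M ι lam} (hB : B.OK I) {μ : α → Md M ι lam}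
    {μ₀ : Md M ι lam} (h₀ : μ₀.OK I B) {u : ∀ i, M → CL (μ i).V μ₀.V} {ψ : ∀ i, c.H B (μ i)}
    {ψ₀ : c.H B μ₀} {η : α → Circle} (he : ∀ᶠ i in l, (μ i).OK I B ∧
      ME (μ i) c.x0 μ₀ c.x0 (fun b a => B.P b a c.x0) (B.l c.x0) (u i c.x0))
    (h : Tendsto (fun i => (csE μ₀.J (η i) ∘L u i c.x0).compLpL 2 μc (ψ i : L2c _)) l (𝓝 ψ₀)) :
    ∃ χ : α → c.H B μ₀, Tendsto χ l (𝓝 ψ₀) ∧ ∀ᶠ i in l, c.Eqv c B B (u i) (ψ i) (χ i) := by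
  have k : ∀ᶠ i in l, (Rh c c B B (u i) (η i) (ψ i) : L2c _) =
      (csE μ₀.J (η i) ∘L u i c.x0).compLpL 2 μc (ψ i : L2c _) := he.mono fun i ⟨a, b⟩ =>
    (it_cs ⟨cp_pp hB a _, cp_pp hB h₀ _, b.J, ContinuousLinearMap.ext fun v =>
      (b.pp (BE.refl hB _) hB hB a v).symm⟩ (η i)).rH_coe (ψ i)
  exact ⟨fun i => Rh c c B B (u i) (η i) (ψ i), tendsto_subtype_rng.2 (h.congr' (k.mono fun _ => .symm)),
    k.mono fun i e => ⟨η i, e⟩⟩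

namespace CTh
variable {hh : Type} [Fintype hh] {κ : hh → Cut M lam} {tm : hh → W → Tc M lam r}
  {g : hh → W → T → ℝ} {Θ : Th 𝔉 r n m W} [CompleteSpace T] {Adm : (W →₀ ℝ) → Prop}

variable (𝔉 κ tm g) in
/-- cuts perturbed by terms -/
@[reducible] def ofT : CTh 𝔉 r W hh := ⟨κ, fun i w => tmC 𝔉 (κ i) (tm i w) (g i w)⟩

theorem tot_ofT (q : W →₀ ℝ) (i : hh) (t : T) : (ofT 𝔉 κ tm g).tot q i t = fun x =>
    q.sum fun w a => (a * g i w t) • x.tc 𝔉.B (𝔉.G t).F (κ i) (tm i w) :=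
  funext fun _ => Finset.sum_congr rfl fun _ _ => smul_smul _ _ _

theorem ofT_ok [∀ a, (Θ.ref a).B0] (hk : 7 ≤ Θ.k) (h : 𝔉.OK) (H : ∀ a, Hy (Θ.ref a))
    (ex : ∀ a (y : Pnt (Θ.ref a) r), Ex (𝔉.G y.t).F y.cfg 𝔉.Om)
    (hc : ∀ i, ∀ t ∈ 𝔉.Q, (κ i).OK 𝔉.B (𝔉.G t).F) (hs : ∀ i, (κ i).supp ⊆ 𝔉.Om)
    (ht : ∀ i w, ∃ Ω, XiIn I Ω (tm i w).ξ) (hg : ∀ i w, ContDiffOn ℝ ∞ (g i w) 𝔉.Q) :
    (ofT 𝔉 κ tm g).OK Θ where
  ok := hc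
  sub := hs
  rp a i w := repC_tm (H a) hk (hc i) (ht i w).choose_spec (hg i w)
  nat a b i w := natC_tm h (hs i) (hc i) (ht i w).choose_spec _ (ex a) (ex b) _
  cpt _ i w y := (cpt_tc (c := y.cfg) (B := 𝔉.B) (F := (𝔉.G y.t).F) (k := κ i) (tm i w)).smul (g i w y.t)

/-- closed manifolds -/
theorem ofT_compact [CompactSpace M] [∀ a, (Θ.ref a).B0] (hk : 7 ≤ Θ.k) (h : 𝔉.OK)
    (hc : ∀ i, ∀ t ∈ 𝔉.Q, (κ i).OK 𝔉.B (𝔉.G t).F) (hs : ∀ i, (κ i).supp ⊆ 𝔉.Om)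
    (ht : ∀ i w, ∃ Ω, XiIn I Ω (tm i w).ξ) (hg : ∀ i w, ContDiffOn ℝ ∞ (g i w) 𝔉.Q) :
    (ofT 𝔉 κ tm g).OK Θ :=
  ofT_ok hk h (fun _ => hy_compact h _) (fun _ y => ex_of_compact h.B (h.G _ y.ht)
    (h.tameG _ y.ht).choose_spec h.Om (y.ad0 h)) hc hs ht hg

/-- **`Onto` for rich families of terms** (`Spn` from `Hol14.spn_irr`, `Hol14.spn_full`) -/
theorem OK.onto_ofT (H : (ofT 𝔉 κ tm g).OK Θ) (h : Θ.OK Adm) {q : W →₀ ℝ}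
    {x : (ofT 𝔉 κ tm g).X Θ} (hx : (H.ext h).prob.Sol q x) (h1 : ∃ J, h.Q.Onto q ⟨x.1, x.2.1⟩ J)
    {P : hh → Xi M lam r → Prop} (P1 : ∀ i, P i .one)
    (hP : ∀ i, Spn x.2.1.cfg (𝔉.G x.2.1.t).F (P i) (κ i).x0)
    (rich : ∀ i a b ξ, P i ξ → ∃ w, tm i w = ⟨a, b, 1, ξ⟩ ∧ g i w x.2.1.t ≠ 0 ∧
      (Θ.τ w x.2.1.t).Zr x.2.1.cfg 𝔉.Om 𝔉.Om' ∧ ∀ j, j ≠ i → g j w x.2.1.t = 0) :
    ∃ J, (H.ext h).prob.Onto q x J := by
  have b := (x.2.1.ad0 h.fam).ok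
  refine H.onto h hx h1 (P := fun i w => (Θ.τ w x.2.1.t).Zr x.2.1.cfg 𝔉.Om 𝔉.Om' ∧
    ∀ j, j ≠ i → g j w x.2.1.t = 0) (fun i w e => ⟨e.1, fun j hj => ?_⟩) fun i N hN hA hT => ?_
  · exact (ev_tm _ _ _).trans (by rw [e.2 j hj]; exact ContinuousLinearMap.ext fun v => zero_smul ℝ _)
  · have s := ((H.sol_iff h q x).1 hx).2 i
    have c := H.ok i _ x.2.1.ht
    refine den_tc h.fam.B b c (cn0_of (x.2.1.ad0 h.fam).conn) (On.sum _ fun w _ =>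
      ((on_tc h.fam.B b c _).smul _).smul _) (fun e => by simpa [e] using s.1) s.2 (P1 i) (hP i) hN
      hA fun a a' ξ hξ => ?_
    obtain ⟨w, e1, e2, e3⟩ := rich i a a' ξ hξ
    exact e1 ▸ (N.smul_mem_iff e2).1 (hT w e3)

end CTh
end Crest.Agent.X212.An
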