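import Crest.Agent.X212.An.Strat

/-!
# Row 212, layer AN: counts on cells and Stokes

`Q σ` is the moduli problem of the cell `σ` (parameters in a neighbourhood of `[0,1)^σ`),
`inc` identifies the facet `t a = 0` with the cell `σ.erase a`.
-/

set_option autoImplicit false
set_option linter.unusedSectionVars false
noncomputable section
open Set Filter Topology Function

namespace Crest.Agent.X212.An
open Mod61

/-- moduli problems over a cube complex -/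
structure Cx (W A : Type) [DecidableEq A] : Type 1 where
  Q : Finset A → Prob W
  tc : ∀ σ, A → ∀ o, (Q σ).C o →L[ℝ] ℝ
  inc : ∀ σ a, (Q (Finset.erase σ a)).X → (Q σ).X
  n₀ : ℤ

namespace Cx
variable {W A : Type} [DecidableEq A] (K : Cx W A)

/-- the parameter of a configuration -/
def par {σ : Finset A} (x : (K.Q σ).X) (a : A) : ℝ := K.tc σ a x.1 ((K.Q σ).pt x.2)

/-- solutions over the half open cube -/
def M (σ : Finset A) (q : W →₀ ℝ) : Set (K.Q σ).X :=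
  {x | (K.Q σ).Sol q x ∧ ∀ a ∈ σ, 0 ≤ K.par x a ∧ K.par x a < 1}

/-- the count on a cell -/
def z (q : W →₀ ℝ) (σ : Finset A) : ℕ := (K.Q σ).cnt (K.M σ q)

/-- the count on the facet `t a = T` -/
def zT (q : W →₀ ℝ) (σ : Finset A) (a : A) (T : ℝ) : ℕ :=
  (K.Q σ).cnt {x | x ∈ K.M σ q ∧ K.par x a = T}

/-- the level set of `t a` through `x` is cut out regularly -/
def Tr (q : W →₀ ℝ) {σ : Finset A} (x : (K.Q σ).X) (a : A) : Prop :=
  Surjective ((fderiv ℝ ((K.Q σ).F x.1 q) ((K.Q σ).pt x.2)).prod (K.tc σ a x.1))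

/-- the axioms for the cell `σ` and its facets -/
structure Ax (Adm : (W →₀ ℝ) → Prop) (σ : Finset A) : Prop where
  ax : (K.Q σ).Ax Adm
  n : (K.Q σ).n = K.n₀ + σ.card
  tc_g : ∀ a o (g : (K.Q σ).G o), ∀ v ∈ (K.Q σ).U o, K.tc σ a o (g • v) = K.tc σ a o v
  tc_e : ∀ a (x y : (K.Q σ).X), (K.Q σ).In x → (K.Q σ).eqv x y → K.par x a = K.par y a
  inc_eqv : ∀ a ∈ σ, ∀ x y, (K.Q σ).eqv (K.inc σ a x) (K.inc σ a y) ↔ (K.Q (σ.erase a)).eqv x y
  inc_sol : ∀ a ∈ σ, ∀ q x, (K.Q σ).Sol q (K.inc σ a x) ↔ (K.Q (σ.erase a)).Sol q x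
  inc_self : ∀ a ∈ σ, ∀ x, K.par (K.inc σ a x) a = 0
  inc_ne : ∀ a ∈ σ, ∀ x, ∀ b ∈ σ.erase a, K.par (K.inc σ a x) b = K.par x b
  inc_surj : ∀ a ∈ σ, ∀ y, (K.Q σ).In y → K.par y a = 0 → ∃ x, K.inc σ a x = y
  inc_reg : ∀ a ∈ σ, ∀ q x, Adm q → (K.Q (σ.erase a)).Sol q x → (K.Q (σ.erase a)).Reg q x →
    K.Tr q (K.inc σ a x) a

variable {K} {Adm : (W →₀ ℝ) → Prop} {σ : Finset A} {q : W →₀ ℝ}

theorem Tr.reg {x : (K.Q σ).X} {a : A} (h : K.Tr q x a) : (K.Q σ).Reg q x := surj_of_surj_prod h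

namespace Ax
variable (h : K.Ax Adm σ)
include h

theorem sat_M : (K.Q σ).Sat (K.M σ q) := fun x y e hx =>
  ⟨h.ax.sol_eqv e hx.1, fun a ha => h.tc_e a x y hx.1.1 e ▸ hx.2 a ha⟩

theorem inc_mem {a : A} (ha : a ∈ σ) {x : (K.Q (σ.erase a)).X} :
    K.inc σ a x ∈ K.M σ q ↔ x ∈ K.M (σ.erase a) q := by
  refine and_congr (h.inc_sol a ha q x) ⟨fun h1 b hb => ?_, fun h1 b hb => ?_⟩
  · rw [← h.inc_ne a ha x b hb]; exact h1 b (Finset.mem_of_mem_erase hb)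
  · by_cases e : b = a
    · rw [e, h.inc_self a ha]; exact ⟨le_rfl, one_pos⟩
    · have hb' := Finset.mem_erase.2 ⟨e, hb⟩
      rw [h.inc_ne a ha x b hb']; exact h1 b hb'

/-- negative index -/
theorem empty (ha : Adm q) (hn : K.n₀ + σ.card < 0) (hr : ∀ x ∈ K.M σ q, (K.Q σ).Reg q x) :
    K.M σ q = ∅ :=
  eq_empty_of_forall_notMem fun x hx => by
    have := h.ax.nonneg ha hx.1 (hr x hx)
    rw [h.n] at this; omega

/-- index zero -/
theorem finite (ha : Adm q) (hn : K.n₀ + σ.card = 0) (hc : (K.Q σ).Cpt (K.M σ q))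
    (hr : ∀ x ∈ K.M σ q, (K.Q σ).Reg q x) : Finite ((K.Q σ).Cl (K.M σ q)) :=
  h.ax.finite ha (h.n.trans hn) (fun _ hx => hx.1) h.sat_M hc hr

/-- on a compact solution set the parameters stay away from `1` -/
theorem lt_of_cpt (hc : (K.Q σ).Cpt (K.M σ q)) :
    ∀ᶠ T in 𝓝[<] (1 : ℝ), ∀ x ∈ K.M σ q, ∀ a ∈ σ, K.par x a < T := by
  by_contra hn
  rw [not_eventually] at hn
  have hne : NeBot (𝓝[<] (1 : ℝ) ⊓ 𝓟 {T | ¬ ∀ x ∈ K.M σ q, ∀ a ∈ σ, K.par x a < T}) :=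
    frequently_iff_neBot.1 hn
  obtain ⟨𝒰, h𝒰⟩ := Ultrafilter.exists_le
    (𝓝[<] (1 : ℝ) ⊓ 𝓟 {T | ¬ ∀ x ∈ K.M σ q, ∀ a ∈ σ, K.par x a < T})
  have h1 : ∀ᶠ T in (𝒰 : Filter ℝ), ∃ x ∈ K.M σ q, ∃ a ∈ σ, T ≤ K.par x a := by
    filter_upwards [le_principal_iff.1 (h𝒰.trans inf_le_right)] with T hT
    simpa only [mem_setOf_eq, not_forall, not_lt, exists_prop] using hT
  obtain ⟨T₀, x₁, -⟩ := h1.exists
  have : Nonempty (K.Q σ).X := ⟨x₁⟩
  choose! u hu using fun T (hT : ∃ x ∈ K.M σ q, ∃ a ∈ σ, T ≤ K.par x a) => hT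
  obtain ⟨x₀, hx₀, hl⟩ := hc ℝ 𝒰 u (h1.mono fun T hT => (hu T hT).1)
  have h2 : ∀ᶠ T in (𝒰 : Filter ℝ), ∀ a ∈ σ, K.par (u T) a < T := by
    refine (eventually_all_finset σ).2 fun a ha => ?_
    obtain ⟨c, hc1, hc2⟩ := exists_between (hx₀.2 a ha).2
    have h3 := (K.Q σ).tendsto_near.1 hl {v | K.tc σ a x₀.1 v < c}
      ((isOpen_lt (K.tc σ a x₀.1).continuous continuous_const).mem_nhds hc1)
    have h4 : ∀ᶠ T in (𝒰 : Filter ℝ), c < T :=
      (h𝒰.trans (inf_le_left.trans nhdsWithin_le_nhds)) (Ioi_mem_nhds hc2)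
    filter_upwards [h1, h3, h4] with T hT ⟨y, hy, he⟩ hT'
    rw [h.tc_e a _ _ (hu T hT).1.1.1 he]
    exact hy.trans hT'
  obtain ⟨T, hT, hT'⟩ := (h1.and h2).exists
  obtain ⟨a, ha, h5⟩ := (hu T hT).2
  exact absurd (hT' a ha) (not_lt.2 h5)

theorem cnt_facet {a : A} (ha : a ∈ σ) {B : Set (K.Q σ).X}
    (hB : ∀ y, y ∈ B ↔ y ∈ K.M σ q ∧ K.par y a = 0) : K.z q (σ.erase a) = (K.Q σ).cnt B := by
  refine (cnt_congr (A := K.M (σ.erase a) q) (A' := B)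
    (fun x => ⟨K.inc σ a x, (hB _).2 ⟨(h.inc_mem ha).2 x.2, h.inc_self a ha _⟩⟩)
    (fun x y => (h.inc_eqv a ha _ _).symm) fun y => ?_).2
  obtain ⟨h1, h2⟩ := (hB _).1 y.2
  obtain ⟨x, hx⟩ := h.inc_surj a ha y h1.1.1 h2
  exact ⟨⟨x, (h.inc_mem ha).1 (hx ▸ h1)⟩, by simp only [hx]; exact (K.Q σ).eqv.refl _⟩

/-- **Stokes on a truncated cell.** -/
theorem stokes (ha : Adm q) (hn : K.n₀ + σ.card = 1) {T : ℝ} (h0 : 0 < T) (h1 : T < 1)
    (hc : (K.Q σ).Cpt {x | x ∈ K.M σ q ∧ ∀ a ∈ σ, K.par x a ≤ T})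
    (hr : ∀ x ∈ K.M σ q, (K.Q σ).Reg q x)
    (hlow : ∀ a ∈ σ, ∀ x ∈ K.M (σ.erase a) q, (K.Q (σ.erase a)).Reg q x ∧
      ∀ b ∈ σ.erase a, 0 < K.par x b ∧ K.par x b < T)
    (hup : ∀ a ∈ σ, ∀ x ∈ K.M σ q, K.par x a = T → K.Tr q x a ∧ ∀ b ∈ σ.erase a, K.par x b < T) :
    Even (∑ a ∈ σ, K.z q (σ.erase a) + ∑ a ∈ σ, K.zT q σ a T) := by
  let t : σ ⊕ σ → ∀ o, (K.Q σ).C o → ℝ := fun i o v =>
    i.elim (fun a : σ => K.tc σ a o v) fun a : σ => T - K.tc σ a o v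
  have hmem : ∀ x : (K.Q σ).X, ((K.Q σ).Sol q x ∧ ∀ i, 0 ≤ t i x.1 ((K.Q σ).pt x.2)) ↔
      x ∈ K.M σ q ∧ ∀ a ∈ σ, K.par x a ≤ T := fun x =>
    ⟨fun hx => ⟨⟨hx.1, fun a ha => ⟨hx.2 (.inl ⟨a, ha⟩),
        (sub_nonneg.1 (hx.2 (.inr ⟨a, ha⟩))).trans_lt h1⟩⟩,
        fun a ha => sub_nonneg.1 (hx.2 (.inr ⟨a, ha⟩))⟩,
      fun hx => ⟨hx.1.1, fun i => by
        rcases i with a | a
        · exact (hx.1.2 a a.2).1
        · exact sub_nonneg.2 (hx.2 a a.2)⟩⟩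
  have hlow' : ∀ a ∈ σ, ∀ y ∈ K.M σ q, K.par y a = 0 → K.Tr q y a ∧
      ∀ b ∈ σ.erase a, 0 < K.par y b ∧ K.par y b < T := fun a haσ y hy h2 => by
    obtain ⟨x, rfl⟩ := h.inc_surj a haσ y hy.1.1 h2
    have hx := (h.inc_mem haσ).1 hy
    refine ⟨h.inc_reg a haσ q x ha hx.1 (hlow a haσ x hx).1, fun b hb => ?_⟩
    rw [h.inc_ne a haσ x b hb]; exact (hlow a haσ x hx).2 b hb
  have key := h.ax.stokes ha (h.n.trans hn) t
    (fun i o => by
      rcases i with a | a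
      · exact (K.tc σ a o).continuous.continuousOn
      · exact (continuous_const.sub (K.tc σ a o).continuous).continuousOn)
    (fun i o g v hv => by rcases i with a | a <;> simp only [t, Sum.elim_inl, Sum.elim_inr,
      h.tc_g a o g v hv])
    (fun i x y hx e => by
      rcases i with a | a
      · exact h.tc_e a x y hx e
      · exact congrArg (T - ·) (h.tc_e a x y hx e))
    (by simpa only [hmem] using hc)
    (fun x hx hx' => by
      have hm := ((hmem x).1 ⟨hx, hx'⟩).1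
      refine ⟨hr x hm, fun i hi => ?_⟩
      rcases i with a | a
      · exact ⟨_, (K.tc σ a x.1).hasStrictFDerivAt, (hlow' a a.2 x hm hi).1⟩
      · refine ⟨-K.tc σ a x.1, (K.tc σ a x.1).hasStrictFDerivAt.const_sub T, ?_⟩
        rintro ⟨f, r⟩
        obtain ⟨u, hu⟩ := (hup a a.2 x hm (sub_eq_zero.1 hi).symm).1 (f, -r)
        have h2 := congrArg Prod.fst hu
        refine ⟨u, Prod.ext h2 ?_⟩
        have h3 : K.tc σ a x.1 u = -r := congrArg Prod.snd hu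
        simp [h3])
    (fun x hx hx' i j hi hj => by
      have hm := ((hmem x).1 ⟨hx, hx'⟩).1
      have e1 : ∀ a b : σ, K.par x a = 0 → K.par x b = T → False := fun a b h2 h3 => by
        by_cases e : (b : A) = a
        · rw [e, h2] at h3; exact h0.ne h3
        · exact ((hlow' a a.2 x hm h2).2 b (Finset.mem_erase.2 ⟨e, b.2⟩)).2.ne h3
      rcases i with a | a <;> rcases j with b | b
      · by_contra e
        have e' : (b : A) ≠ a := fun e' => e (congrArg Sum.inl (Subtype.ext e'.symm))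
        exact ((hlow' a a.2 x hm hi).2 b (Finset.mem_erase.2 ⟨e', b.2⟩)).1.ne' hj
      · exact (e1 a b hi (sub_eq_zero.1 hj).symm).elim
      · exact (e1 b a hj (sub_eq_zero.1 hi).symm).elim
      · by_contra e
        have e' : (b : A) ≠ a := fun e' => e (congrArg Sum.inr (Subtype.ext e'.symm))
        exact ((hup a a.2 x hm (sub_eq_zero.1 hi).symm).2 b
          (Finset.mem_erase.2 ⟨e', b.2⟩)).ne (sub_eq_zero.1 hj).symm)
  have h2 := key.2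
  rw [Fintype.sum_sum_type] at h2
  rw [← Finset.sum_coe_sort σ, ← Finset.sum_coe_sort σ fun a => K.zT q σ a T]
  convert h2 using 3 with a _ a _
  · refine h.cnt_facet a.2 fun y => ⟨fun hy => ⟨((hmem y).1 ⟨hy.1, hy.2.1⟩).1, hy.2.2⟩, fun hy => ?_⟩
    have h3 := (hmem y).2 ⟨hy.1, fun b hb => by
      by_cases e : b = a
      · rw [e, hy.2]; exact h0.le
      · exact ((hlow' a a.2 y hy.1 hy.2).2 b (Finset.mem_erase.2 ⟨e, hb⟩)).2.le⟩
    exact ⟨h3.1, h3.2, hy.2⟩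
  · refine congrArg _ (Set.ext fun y => ⟨fun hy => ?_, fun hy => ?_⟩)
    · have h3 := (hmem y).2 ⟨hy.1, fun b hb => by
        by_cases e : b = a
        · rw [e, hy.2]
        · exact ((hup a a.2 y hy.1 hy.2).2 b (Finset.mem_erase.2 ⟨e, hb⟩)).le⟩
      exact ⟨h3.1, h3.2, sub_eq_zero.2 hy.2.symm⟩
    · exact ⟨((hmem y).1 ⟨hy.1, hy.2.1⟩).1, (sub_eq_zero.1 hy.2.2).symm⟩

end Ax
end Cx
end Crest.Agent.X212.An
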