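import Crest.Agent.X212.Mod61.Prob

/-!
# Row 212, layer AN: extension of a moduli problem by linear rows

Each cut `i` adds an unknown `ψ i` in a Hilbert space with a complex structure, the equations
`T ψ i = 0`, `‖ψ i‖ = 1` and a circle.  The index drops by two for each cut.
-/

set_option autoImplicit false
set_option linter.unusedSectionVars false
noncomputable section
open Set Filter Topology Function
open scoped ContDiff InnerProductSpace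

namespace Crest.Agent.X212.An
open Mod61 Slc61 Fred93

section pi
variable {h : Type} [Fintype h] {K : h → Type} [∀ i, NormedAddCommGroup (K i)]
  [∀ i, NormedSpace ℝ (K i)]

/-- diagonal operators -/
def dgl (T : ∀ i, K i →L[ℝ] K i) : (∀ i, K i) →L[ℝ] ∀ i, K i :=
  ContinuousLinearMap.pi fun i => T i ∘L ContinuousLinearMap.proj i

@[simp] theorem dgl_apply (T : ∀ i, K i →L[ℝ] K i) (ψ : ∀ i, K i) (i : h) :
    dgl T ψ i = T i (ψ i) := rfl

theorem fr_dgl {T : ∀ i, K i →L[ℝ] K i} (hT : ∀ i, Fr (T i) 0) : Fr (dgl T) 0 := by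
  classical
  have one : ∀ a, Fr (dgl fun i => if i = a then T i else .id ℝ _) 0 := fun a => by
    let e : (∀ i, K i) ≃L[ℝ] K a × ∀ j : {j // j ≠ a}, K j :=
      { Equiv.piSplitAt a K with
        map_add' := fun _ _ => rfl
        map_smul' := fun _ _ => rfl
        continuous_toFun := (Homeomorph.piSplitAt a K).continuous
        continuous_invFun := (Homeomorph.piSplitAt a K).symm.continuous }
    refine (((hT a).prodMap_id (G := ∀ j : {j // j ≠ a}, K j)).conj e e.symm).congr fun ψ => ?_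
    refine e.injective ?_
    simp only [ContinuousLinearMap.comp_apply, ContinuousLinearEquiv.coe_coe,
      ContinuousLinearEquiv.apply_symm_apply]
    refine Prod.ext ?_ (funext fun j => ?_)
    · show dgl _ ψ a = T a (ψ a)
      simp
    · show dgl _ ψ j = ψ j
      simp [j.2]
  have key : ∀ s : Finset h, Fr (dgl fun i => if i ∈ s then T i else .id ℝ _) 0 := fun s => by
    induction s using Finset.induction_on with
    | empty => exact Fr.id.congr fun ψ => funext fun i => by simp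
    | insert a s ha ih =>
      refine (((one a).comp ih).cast (add_zero 0)).congr fun ψ => funext fun i => ?_
      by_cases e : i = a
      · subst e; simp [ha]
      · simp [e]
  exact (key Finset.univ).congr fun ψ => funext fun i => by simp

end pi

section ph
variable {K : Type} [NormedAddCommGroup K] [InnerProductSpace ℝ K]

/-- a complex number acting through `J` -/
def phz (J : K →L[ℝ] K) (c : ℂ) : K →L[ℝ] K := c.re • (1 : K →L[ℝ] K) + c.im • J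

theorem phz_apply (J : K →L[ℝ] K) (c : ℂ) (v : K) : phz J c v = c.re • v + c.im • J v := rfl

@[simp] theorem phz_one (J : K →L[ℝ] K) : phz J 1 = 1 := by simp [phz]

theorem phz_mul {J : K →L[ℝ] K} (hJ : ∀ v, J (J v) = -v) (c d : ℂ) (v : K) :
    phz J (c * d) v = phz J c (phz J d v) := by
  simp only [phz_apply, Complex.mul_re, Complex.mul_im, map_add, map_smul, hJ]
  module

theorem phz_comm {K' : Type} [NormedAddCommGroup K'] [InnerProductSpace ℝ K'] {J : K →L[ℝ] K}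
    {J' : K' →L[ℝ] K'} {A : K →L[ℝ] K'} (h : ∀ v, A (J v) = J' (A v)) (c : ℂ) (v : K) :
    A (phz J c v) = phz J' c (A v) := by
  simp only [phz_apply, map_add, map_smul, h]

theorem continuous_phz (J : K →L[ℝ] K) : Continuous (phz J) := by unfold phz; fun_prop

/-- `phz` as a linear map -/
def phzL (J : K →L[ℝ] K) : ℂ →L[ℝ] K →L[ℝ] K :=
  Complex.reCLM.smulRight 1 + Complex.imCLM.smulRight J

theorem phzL_apply (J : K →L[ℝ] K) (c : ℂ) : phzL J c = phz J c := rfl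

variable {J : K →L[ℝ] K} (hJ : ∀ v, J (J v) = -v) (hs : ∀ v w, ⟪J v, w⟫_ℝ = -⟪v, J w⟫_ℝ)
include hs

theorem inner_J_self (v : K) : ⟪J v, v⟫_ℝ = 0 := by
  have := hs v v
  rw [real_inner_comm (J v) v] at this
  linarith

include hJ

theorem inner_JJ (v : K) : ⟪J v, J v⟫_ℝ = ‖v‖ ^ 2 := by
  rw [hs, hJ, inner_neg_right, neg_neg, real_inner_self_eq_norm_sq]

theorem inner_phz (c : ℂ) (v : K) :
    ⟪v, phz J c v⟫_ℝ = c.re * ‖v‖ ^ 2 ∧ ⟪J v, phz J c v⟫_ℝ = c.im * ‖v‖ ^ 2 := by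
  have h1 := inner_J_self hs v
  have h2 := inner_JJ hJ hs v
  have h3 : ⟪v, J v⟫_ℝ = 0 := by rw [real_inner_comm]; exact h1
  simp only [phz_apply, inner_add_right, inner_smul_right, h1, h2, h3, real_inner_self_eq_norm_sq]
  simp

theorem norm_phz (η : Circle) (v : K) : ‖phz J η v‖ = ‖v‖ := by
  have h1 := inner_phz hJ hs η v
  have h2 : ‖phz J η v‖ ^ 2 = ‖v‖ ^ 2 := by
    rw [← real_inner_self_eq_norm_sq]
    nth_rewrite 1 [phz_apply]
    rw [inner_add_left, inner_smul_left, inner_smul_left, h1.1, h1.2]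
    have := Circle.normSq_coe η
    rw [Complex.normSq_apply] at this
    simp only [conj_trivial]
    linear_combination ‖v‖ ^ 2 * this
  exact (pow_left_inj₀ (norm_nonneg _) (norm_nonneg _) two_ne_zero).1 h2

end ph

/-- linear rows over a problem -/
structure Ext {W : Type} (Q : Prob W) (h : Type) : Type 1 where
  K : Q.O → h → Type
  [nK : ∀ o i, NormedAddCommGroup (K o i)]
  [iK : ∀ o i, InnerProductSpace ℝ (K o i)]
  [cK : ∀ o i, CompleteSpace (K o i)]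
  J : ∀ o i, K o i →L[ℝ] K o i
  rep : ∀ o i, Q.G o →* (K o i →L[ℝ] K o i)
  Jsq : ∀ o i v, J o i (J o i v) = -v
  repJ : ∀ o i g v, rep o i g (J o i v) = J o i (rep o i g v)
  T0 : ∀ o i, Q.C o → K o i →L[ℝ] K o i
  σ : ∀ o i, W → Q.C o → K o i →L[ℝ] K o i
  eqv : Setoid (Σ o, Q.S o × ∀ i, K o i)

attribute [instance] Ext.nK Ext.iK Ext.cK

namespace Ext
variable {W : Type} {Q : Prob W} {h : Type} [Fintype h] (X : Ext Q h)

/-- the extended group -/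
def G (_X : Ext Q h) (o : Q.O) : Type := Q.G o × (h → Circle)

instance (o : Q.O) : Group (X.G o) := inferInstanceAs (Group (Q.G o × (h → Circle)))

/-- the extended configuration space -/
abbrev C (o : Q.O) : Type := Q.C o × ∀ i, X.K o i

/-- the action on a field -/
def ac {o : Q.O} (g : X.G o) (i : h) : X.K o i →L[ℝ] X.K o i :=
  phz (X.J o i) (g.2 i) ∘L X.rep o i g.1

theorem ac_apply {o : Q.O} (g : X.G o) (i : h) (v : X.K o i) :
    X.ac g i v = phz (X.J o i) (g.2 i) (X.rep o i g.1 v) := rfl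

theorem ac_one {o : Q.O} (i : h) (v : X.K o i) : X.ac 1 i v = v := by
  show phz (X.J o i) ((1 : Circle) : ℂ) (X.rep o i 1 v) = v
  simp

theorem ac_mul {o : Q.O} (g k : X.G o) (i : h) (v : X.K o i) :
    X.ac (g * k) i v = X.ac g i (X.ac k i v) := by
  show phz (X.J o i) ((g.2 i * k.2 i : Circle) : ℂ) (X.rep o i (g.1 * k.1) v) = _
  rw [Circle.coe_mul, phz_mul (X.Jsq o i), map_mul, ac_apply, ac_apply, phz_comm (X.repJ o i g.1)]
  rfl

instance (o : Q.O) : MulAction (X.G o) (X.C o) where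
  smul g v := (g.1 • v.1, fun i => X.ac g i (v.2 i))
  one_smul v := Prod.ext (one_smul (Q.G o) v.1) (funext fun i => X.ac_one i _)
  mul_smul g k v := Prod.ext (mul_smul g.1 k.1 v.1) (funext fun i => X.ac_mul g k i _)

theorem smul_def {o : Q.O} (g : X.G o) (v : X.C o) :
    g • v = (g.1 • v.1, fun i => X.ac g i (v.2 i)) := rfl

/-- the extended problem -/
@[reducible] def prob : Prob W where
  O := Q.O
  S o := Q.S o × ∀ i, X.K o i
  eqv := X.eqv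
  C o := X.C o
  E o := Q.E o × (∀ i, X.K o i) × (h → ℝ)
  L o := Q.L o × (h → ℝ)
  H o := Q.H o × (h → ℝ)
  G o := X.G o
  pt y := (Q.pt y.1, y.2)
  U o := Q.U o ×ˢ univ
  F0 o v := (Q.F0 o v.1, fun i => X.T0 o i v.1 (v.2 i), fun i => ‖v.2 i‖ ^ 2 - 1)
  τ o w v := (Q.τ o w v.1, fun i => X.σ o i w v.1 (v.2 i), 0)
  In x := Q.In ⟨x.1, x.2.1⟩ ∧ ∀ i, x.2.2 i ≠ 0
  n := Q.n - 2 * Fintype.card h

/-- the perturbed operator -/
def T (o : Q.O) (i : h) (q : W →₀ ℝ) (v : Q.C o) : X.K o i →L[ℝ] X.K o i :=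
  X.T0 o i v + q.sum fun w c => c • X.σ o i w v

/-- forgetting the fields -/
@[reducible] def fst (x : X.prob.X) : Q.X := ⟨x.1, x.2.1⟩

theorem F_eq (o : Q.O) (q : W →₀ ℝ) (v : X.C o) : X.prob.F o q v =
    (Q.F o q v.1, fun i => X.T o i q v.1 (v.2 i), fun i => ‖v.2 i‖ ^ 2 - 1) := by
  refine Prod.ext ?_ (Prod.ext (funext fun i => ?_) ?_)
  · simp [Prob.F, prob, Finsupp.sum, Prod.fst_sum]
  · simp [Prob.F, prob, Finsupp.sum, Prod.fst_sum, Prod.snd_sum, T]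
  · simp [Prob.F, prob, Finsupp.sum, Prod.snd_sum]

theorem sol_iff (q : W →₀ ℝ) (x : X.prob.X) : X.prob.Sol q x ↔ Q.Sol q (X.fst x) ∧
    ∀ i, ‖x.2.2 i‖ = 1 ∧ X.T x.1 i q (Q.pt x.2.1) (x.2.2 i) = 0 := by
  have e : ∀ r : ℝ, 0 ≤ r → (r ^ 2 - 1 = 0 ↔ r = 1) := fun r hr =>
    sub_eq_zero.trans (pow_eq_one_iff_of_nonneg hr two_ne_zero)
  constructor
  · rintro ⟨h1, h2⟩
    rw [F_eq] at h2
    exact ⟨⟨h1.1, congrArg Prod.fst h2⟩, fun i =>
      ⟨(e _ (norm_nonneg _)).1 (congrFun (congrArg (·.2.2) h2) i), congrFun (congrArg (·.2.1) h2) i⟩⟩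
  · rintro ⟨h1, h2⟩
    refine ⟨⟨h1.1, fun i h0 => ?_⟩, ?_⟩
    · have := (h2 i).1
      rw [h0, norm_zero] at this
      exact zero_ne_one this
    · rw [F_eq]
      exact Prod.ext h1.2 (Prod.ext (funext fun i => (h2 i).2)
        (funext fun i => (e _ (norm_nonneg _)).2 (h2 i).1))

/-- `(T, R)` intertwines the rows near `v` -/
def Tw {o o' : Q.O} (T : Q.C o → Q.C o') (R : ∀ i, X.K o i ≃ₗᵢ[ℝ] X.K o' i) (v : Q.C o) : Prop :=
  ∀ᶠ u in 𝓝 v, ∀ i ψ, X.T0 o' i (T u) (R i ψ) = R i (X.T0 o i u ψ) ∧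
    ∀ w, X.σ o' i w (T u) (R i ψ) = R i (X.σ o i w u ψ)

/-- `Tame`, with control of the representation up to phases -/
def Tame {o : Q.O} (e : Q.L o → Q.G o) (x₀ : Q.C o) : Prop :=
  ∀ U ∈ 𝓝 (0 : Q.L o), ∃ V ∈ 𝓝 x₀, ∀ x ∈ V, ∀ g : Q.G o, g • x ∈ V → ∃ ξ ∈ U, e ξ • x = g • x ∧
    ∀ i, ∃ η : Circle, ∀ ψ, X.rep o i g ψ = phz (X.J o i) η (X.rep o i (e ξ) ψ)

/-- The axioms. -/
structure Ax (Adm : (W →₀ ℝ) → Prop) : Prop where
  base : Q.Ax Adm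
  Jsk : ∀ o i v w, ⟪X.J o i v, w⟫_ℝ = -⟪v, X.J o i w⟫_ℝ
  iso : ∀ o i g v, ‖X.rep o i g v‖ = ‖v‖
  sm0 : ∀ o i, ContDiffOn ℝ ∞ (X.T0 o i) (Q.U o)
  smσ : ∀ o i w, ContDiffOn ℝ ∞ (X.σ o i w) (Q.U o)
  J0 : ∀ o i, ∀ v ∈ Q.U o, ∀ ψ, X.T0 o i v (X.J o i ψ) = X.J o i (X.T0 o i v ψ)
  Jσ : ∀ o i w, ∀ v ∈ Q.U o, ∀ ψ, X.σ o i w v (X.J o i ψ) = X.J o i (X.σ o i w v ψ)
  act0 : ∀ o i g, ∀ v ∈ Q.U o, ∀ ψ,
    X.T0 o i (g • v) (X.rep o i g ψ) = X.rep o i g (X.T0 o i v ψ)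
  actσ : ∀ o i w g, ∀ v ∈ Q.U o, ∀ ψ,
    X.σ o i w (g • v) (X.rep o i g ψ) = X.rep o i g (X.σ o i w v ψ)
  fred : ∀ q x i, Adm q → Q.Sol q x → Fr (X.T x.1 i q (Q.pt x.2)) 0
  eqv : ∀ x y, X.eqv x y → Q.eqv (X.fst x) (X.fst y)
  orb : ∀ o (y y' : Q.S o) ψ ψ', Q.In ⟨o, y⟩ → Q.In ⟨o, y'⟩ →
    (X.eqv ⟨o, y, ψ⟩ ⟨o, y', ψ'⟩ ↔ ∃ g : Q.G o, g • Q.pt y = Q.pt y' ∧
      ∀ i, ∃ η : Circle, ψ' i = phz (X.J o i) η (X.rep o i g (ψ i)))
  tr : ∀ x x' : X.prob.X, Q.In (X.fst x) → X.eqv x x' →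
    ∃ (T : Q.C x.1 → Q.C x'.1) (R : ∀ i, X.K x.1 i ≃ₗᵢ[ℝ] X.K x'.1 i),
      T (Q.pt x.2.1) = Q.pt x'.2.1 ∧ (∀ i, R i (x.2.2 i) = x'.2.2 i) ∧ Q.Tw T (Q.pt x.2.1) ∧
      X.Tw T R (Q.pt x.2.1) ∧ ∀ y : Q.S x.1, ∃ y' : Q.S x'.1, Q.pt y' = T (Q.pt y) ∧
        ∀ χ, X.eqv ⟨x.1, y, χ⟩ ⟨x'.1, y', fun i => R i (χ i)⟩
  slc : ∀ q x, Adm q → Q.Sol q x →
    ∃ D : SliceData (Q.G x.1) (Q.L x.1) (Q.H x.1) (Q.pt x.2), ContDiff ℝ ∞ D.γ ∧
      Fr ((fderiv ℝ (Q.F x.1 q) (Q.pt x.2)).prod D.σ) Q.n ∧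
      (∀ᶠ v in 𝓝 (Q.pt x.2), Q.F x.1 q v = 0 → D.γ v = 0 →
        ∃ y : Q.S x.1, Q.pt y = v ∧ Q.In ⟨x.1, y⟩) ∧
      (∀ i, ∃ r : Q.L x.1 →L[ℝ] X.K x.1 i →L[ℝ] X.K x.1 i,
        HasStrictFDerivAt (fun ξ => X.rep x.1 i (D.e ξ)) r 0) ∧ X.Tame D.e (Q.pt x.2)
  cl : ∀ o (x : ℕ → Q.C o) (g : ℕ → Q.G o) (a b : Q.C o),
    a ∈ sat (Q.G o) (Q.pt '' {y | Q.In ⟨o, y⟩}) → b ∈ sat (Q.G o) (Q.pt '' {y | Q.In ⟨o, y⟩}) →
    Tendsto x atTop (𝓝 a) → Tendsto (fun n => g n • x n) atTop (𝓝 b) →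
    ∃ (φ : ℕ → ℕ) (k : Q.G o), StrictMono φ ∧ k • a = b ∧
      ∀ i, Tendsto (fun n => X.rep o i (g (φ n))) atTop (𝓝 (X.rep o i k))

/-- `Tame` from properness and a stabiliser acting by phases -/
theorem tame_of_proper {o : Q.O} [TopologicalSpace (Q.G o)] [IsTopologicalGroup (Q.G o)]
    [ContinuousSMul (Q.G o) (Q.C o)] {e : Q.L o → Q.G o} {x₀ : Q.C o}
    (hp : ∀ (x : ℕ → Q.C o) (g : ℕ → Q.G o), Tendsto x atTop (𝓝 x₀) →
      Tendsto (fun n => g n • x n) atTop (𝓝 x₀) →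
      ∃ (φ : ℕ → ℕ) (k : Q.G o), StrictMono φ ∧ Tendsto (g ∘ φ) atTop (𝓝 k))
    (hs : ∀ k : Q.G o, k • x₀ = x₀ → (∀ x : Q.C o, k • x = x) ∧
      ∀ i, ∃ η : Circle, ∀ ψ, X.rep o i k ψ = phz (X.J o i) η ψ)
    (hl : ∀ U ∈ 𝓝 (0 : Q.L o), e '' U ∈ 𝓝 (1 : Q.G o)) : X.Tame e x₀ := by
  intro U hU
  by_contra hcon
  push Not at hcon
  obtain ⟨B, hB⟩ := (𝓝 x₀).exists_antitone_basis
  choose x hx g hg hne using fun n => hcon (B n) (hB.mem n)
  obtain ⟨φ, k, hφ, hk⟩ := hp x g (hB.tendsto hx) (hB.tendsto hg)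
  have h1 : Tendsto (fun n => g (φ n) • x (φ n)) atTop (𝓝 (k • x₀)) :=
    hk.smul ((hB.tendsto hx).comp hφ.tendsto_atTop)
  have h2 : k • x₀ = x₀ := tendsto_nhds_unique h1 ((hB.tendsto hg).comp hφ.tendsto_atTop)
  have h3 : Tendsto (fun n => g (φ n) * k⁻¹) atTop (𝓝 1) := by
    simpa using hk.mul_const k⁻¹
  obtain ⟨n, ξ, hξ, he⟩ := (h3.eventually (hl U hU)).exists
  have h4 : k⁻¹ • x (φ n) = x (φ n) := by
    rw [inv_smul_eq_iff, (hs k h2).1]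
  obtain ⟨i, hi⟩ := hne (φ n) ξ hξ (by rw [he, mul_smul, h4])
  obtain ⟨η, hη⟩ := (hs k h2).2 i
  obtain ⟨ψ, hψ⟩ := hi η
  refine hψ ?_
  have h5 : g (φ n) = e ξ * k := by rw [he]; simp
  rw [h5, map_mul, mul_apply_eq_comp, hη, phz_comm (X.repJ o i _)]

namespace Ax
variable {X} {Adm : (W →₀ ℝ) → Prop} (H : X.Ax Adm)
include H

theorem norm_ac {o : Q.O} (g : X.G o) (i : h) (v : X.K o i) : ‖X.ac g i v‖ = ‖v‖ := by
  rw [ac_apply, norm_phz (X.Jsq o i) (H.Jsk o i), H.iso]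

omit H in
theorem tw {o o' : Q.O} {T : Q.C o → Q.C o'} {R : ∀ i, X.K o i ≃ₗᵢ[ℝ] X.K o' i} {v : X.C o}
    (h1 : Q.Tw T v.1) (h2 : X.Tw T R v.1) :
    X.prob.Tw (o := o) (o' := o') (fun u : X.C o => (T u.1, fun i => R i (u.2 i))) v := by
  obtain ⟨A, ρ, a1, a2, a3⟩ := h1
  let P := ContinuousLinearEquiv.piCongrRight fun i => (R i).toContinuousLinearEquiv
  refine ⟨A.prodMap P.toContinuousLinearMap, ρ.prodCongr (P.prodCongr (.refl ℝ _)),
    a1.prodMap v P.hasFDerivAt, a2.prodMap P.surjective, ?_⟩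
  filter_upwards [continuous_fst.continuousAt.eventually a3,
    continuous_fst.continuousAt.eventually h2] with u b1 b2
  refine ⟨Prod.ext b1.1 (Prod.ext (funext fun i => (b2 i _).1) (funext fun i => ?_)), fun w =>
    Prod.ext (b1.2 w) (Prod.ext (funext fun i => (b2 i _).2 w) rfl)⟩
  show ‖R i (u.2 i)‖ ^ 2 - 1 = ‖u.2 i‖ ^ 2 - 1
  rw [LinearIsometryEquiv.norm_map]

/-- the action on a field as an isometry -/
def acI {o : Q.O} (g : X.G o) (i : h) : X.K o i ≃ₗᵢ[ℝ] X.K o i where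
  toFun := X.ac g i
  map_add' := map_add _
  map_smul' := map_smul _
  invFun := X.ac g⁻¹ i
  left_inv v := by rw [← X.ac_mul, inv_mul_cancel, X.ac_one]
  right_inv v := by rw [← X.ac_mul, mul_inv_cancel, X.ac_one]
  norm_map' := H.norm_ac g i

theorem smT (o : Q.O) (i : h) (q : W →₀ ℝ) : ContDiffOn ℝ ∞ (X.T o i q) (Q.U o) :=
  (H.sm0 o i).add (ContDiffOn.sum fun w _ => (H.smσ o i w).const_smul (q w))

theorem tame {o : Q.O} {e : Q.L o → Q.G o} {x₀ : X.C o} (h0 : ∀ i, x₀.2 i ≠ 0)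
    (hc : ∀ i, ContinuousAt (fun ξ => X.rep o i (e ξ)) 0) (e0 : e 0 = 1) (ht : X.Tame e x₀.1) :
    Slc61.Tame (G := X.G o) (fun ξ : Q.L o × (h → ℝ) => (e ξ.1, fun i => Circle.exp (ξ.2 i))) x₀ := by
  intro U hU
  obtain ⟨U1, hU1, U2, hU2, hsub⟩ := mem_nhds_prod_iff.1 hU
  obtain ⟨ε, hε, hb⟩ := Metric.mem_nhds_iff.1 hU2
  -- phases close to one
  have key : ∀ i, ∀ᶠ z : Q.L o × X.C o × X.C o in 𝓝 (0, x₀, x₀), ∀ η : Circle,
      phz (X.J o i) η (X.rep o i (e z.1) (z.2.1.2 i)) = z.2.2.2 i →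
        ∃ s : ℝ, |s| < ε ∧ Circle.exp s = η := fun i => by
    have hn : 0 < ‖x₀.2 i‖ := norm_pos_iff.2 (h0 i)
    obtain ⟨δ, hδ, hd⟩ : ∃ δ > 0, ∀ η : Circle, ‖(η : ℂ) - 1‖ < δ → |Complex.arg η| < ε := by
      have h1 : ContinuousAt Complex.arg 1 := Complex.continuousAt_arg (by simp)
      obtain ⟨δ, hδ, h2⟩ := Metric.continuousAt_iff.1 h1 ε hε
      exact ⟨δ, hδ, fun η hη => by simpa [Real.dist_eq] using h2 (by rwa [dist_eq_norm])⟩
    have h1 : ContinuousAt (fun z : Q.L o × X.C o × X.C o =>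
        ‖X.rep o i (e z.1) (z.2.1.2 i) - x₀.2 i‖ + ‖z.2.2.2 i - x₀.2 i‖) (0, x₀, x₀) := by
      have := ContinuousAt.comp (f := fun z : Q.L o × X.C o × X.C o => z.1) (x := (0, x₀, x₀))
        (hc i) continuousAt_fst
      exact ((this.clm_apply (by fun_prop)).sub continuousAt_const).norm.add (by fun_prop)
    have h2 := h1.eventually (gt_mem_nhds (a := δ * ‖x₀.2 i‖) (by
      simpa [e0] using mul_pos hδ hn))
    filter_upwards [h2] with z hz η he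
    refine ⟨Complex.arg η, hd η ?_, Circle.exp_arg η⟩
    have h3 : ‖phz (X.J o i) ((η : ℂ) - 1) (x₀.2 i)‖ < δ * ‖x₀.2 i‖ := by
      have e1 : phz (X.J o i) ((η : ℂ) - 1) (x₀.2 i) = (z.2.2.2 i - x₀.2 i) -
          phz (X.J o i) η (X.rep o i (e z.1) (z.2.1.2 i) - x₀.2 i) := by
        rw [map_sub, he, ← phzL_apply, map_sub, phzL_apply, phzL_apply, phz_one]
        simp
      rw [e1]
      refine (norm_sub_le _ _).trans_lt ?_
      rw [norm_phz (X.Jsq o i) (H.Jsk o i)]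
      linarith
    have h4 : ‖phz (X.J o i) ((η : ℂ) - 1) (x₀.2 i)‖ = ‖(η : ℂ) - 1‖ * ‖x₀.2 i‖ := by
      have h5 := inner_phz (X.Jsq o i) (H.Jsk o i) ((η : ℂ) - 1) (x₀.2 i)
      refine (pow_left_inj₀ (norm_nonneg _) (by positivity) two_ne_zero).1 ?_
      rw [← real_inner_self_eq_norm_sq, mul_pow, Complex.sq_norm, Complex.normSq_apply]
      nth_rewrite 1 [phz_apply]
      rw [inner_add_left, inner_smul_left, inner_smul_left, h5.1, h5.2]
      simp only [conj_trivial]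
      ring
    rw [h4] at h3
    exact lt_of_mul_lt_mul_right h3 hn.le
  obtain ⟨U3, hU3, V3, hV3, hs3⟩ := mem_nhds_prod_iff.1 (eventually_all.2 key)
  obtain ⟨V4, hV4, V5, hV5, hs4⟩ := mem_nhds_prod_iff.1 hV3
  obtain ⟨V, hV, hv⟩ := ht _ (inter_mem hU1 hU3)
  refine ⟨_, inter_mem (continuous_fst.continuousAt.preimage_mem_nhds hV) (inter_mem hV4 hV5),
    fun x hx g hg => ?_⟩
  obtain ⟨ξ, hξ, h1, h2⟩ := hv x.1 hx.1 g.1 hg.1
  choose η hη using h2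
  have h3 : ∀ i, phz (X.J o i) (g.2 i * η i : Circle) (X.rep o i (e ξ) (x.2 i)) = (g • x).2 i :=
    fun i => by rw [Circle.coe_mul, phz_mul (X.Jsq o i), ← hη]; rfl
  choose s hs using fun i =>
    hs3 (mk_mem_prod hξ.2 (hs4 (mk_mem_prod hx.2.1 hg.2.2))) i (g.2 i * η i) (h3 i)
  refine ⟨(ξ, s), hsub (mk_mem_prod hξ.1 (hb ?_)), Prod.ext h1 (funext fun i => ?_)⟩
  · rw [mem_ball_zero_iff, pi_norm_lt_iff hε]
    exact fun i => (hs i).1
  · show phz (X.J o i) (Circle.exp (s i)) (X.rep o i (e ξ) (x.2 i)) = _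
    rw [(hs i).2, h3]

theorem hasF {o : Q.O} (q : W →₀ ℝ) {v : X.C o} (hv : v.1 ∈ Q.U o) :
    ∃ B : Q.C o →L[ℝ] ∀ i, X.K o i, HasFDerivAt (X.prob.F o q)
      ((fderiv ℝ (Q.F o q) v.1 ∘L .fst ℝ _ _).prod ((B.coprod (dgl fun i => X.T o i q v.1)).prod
        ((ContinuousLinearMap.pi fun i => ((2 : ℝ) • innerSL ℝ (v.2 i)) ∘L .proj i) ∘L .snd ℝ _ _)))
      v := by
  have h1 : ∀ i, HasFDerivAt (X.T o i q) (fderiv ℝ (X.T o i q) v.1) v.1 := fun i =>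
    (((H.smT o i q).contDiffAt ((H.base.isOpen o).mem_nhds hv)).differentiableAt
      (by simp)).hasFDerivAt
  have h2 : ∀ i, HasFDerivAt (fun u : X.C o => u.2 i) (.proj i ∘L .snd ℝ _ _) v := fun i =>
    (ContinuousLinearMap.proj (R := ℝ) (φ := X.K o) i ∘L .snd ℝ (Q.C o) _).hasFDerivAt
  refine ⟨ContinuousLinearMap.pi fun i => (fderiv ℝ (X.T o i q) v.1).flip (v.2 i), ?_⟩
  rw [funext (X.F_eq o q)]
  refine ((H.base.strictF q hv).hasFDerivAt.comp v hasFDerivAt_fst).prodMk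
    ((hasFDerivAt_pi'' fun i => ?_).prodMk (hasFDerivAt_pi'' fun i => ?_))
  · refine (((h1 i).comp v hasFDerivAt_fst).clm_apply (h2 i)).congr_fderiv
      (ContinuousLinearMap.ext fun u => ?_)
    simp [add_comm]
  · refine (((h2 i).norm_sq).sub_const 1).congr_fderiv (ContinuousLinearMap.ext fun u => ?_)
    simp

theorem slc' (q : W →₀ ℝ) (x : X.prob.X) (ha : Adm q) (hx : X.prob.Sol q x) :
    ∃ D : SliceData (X.G x.1) (Q.L x.1 × (h → ℝ)) (Q.H x.1 × (h → ℝ)) (X.prob.pt x.2),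
      ContDiff ℝ ∞ D.γ ∧
      Fr ((fderiv ℝ (X.prob.F x.1 q) (X.prob.pt x.2)).prod D.σ) (Q.n - 2 * Fintype.card h) ∧
      ∀ᶠ v in 𝓝 (X.prob.pt x.2), X.prob.F x.1 q v = 0 → D.γ v = 0 →
        ∃ y : X.prob.S x.1, X.prob.pt y = v ∧ X.prob.In ⟨x.1, y⟩ := by
  obtain ⟨o, y, ψ⟩ := x
  have h0 : ∀ i, ψ i ≠ 0 := hx.1.2
  obtain ⟨hq, -⟩ := (X.sol_iff q _).1 hx
  obtain ⟨D, d1, d2, d3, d4, d5⟩ := H.slc q _ ha hq
  choose r hr using d4
  let N : (∀ i, X.K o i) →L[ℝ] h → ℝ :=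
    ContinuousLinearMap.pi fun i => innerSL ℝ (X.J o i (ψ i)) ∘L .proj i
  have hN : ∀ χ i, N χ i = ⟪X.J o i (ψ i), χ i⟫_ℝ := fun _ _ => rfl
  let d : Q.L o × (h → ℝ) →L[ℝ] X.C o := (D.d ∘L .fst ℝ _ _).prod
    (ContinuousLinearMap.pi fun i => (r i).flip (ψ i) ∘L .fst ℝ _ _ +
      (ContinuousLinearMap.proj i ∘L .snd ℝ _ (h → ℝ)).smulRight (X.J o i (ψ i)))
  have hd : ∀ ξ, d ξ = (D.d ξ.1, fun i => r i ξ.1 (ψ i) + ξ.2 i • X.J o i (ψ i)) := fun _ => rfl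
  have hJ : ∀ i, ⟪X.J o i (ψ i), X.J o i (ψ i)⟫_ℝ ≠ 0 := fun i => by
    rw [inner_JJ (X.Jsq o i) (H.Jsk o i)]
    exact pow_ne_zero _ (norm_ne_zero_iff.2 (h0 i))
  refine ⟨{ e := fun ξ => (D.e ξ.1, fun i => Circle.exp (ξ.2 i))
            d := d
            γ := Prod.map D.γ N
            σ := D.σ.prodMap N
            e_zero := Prod.ext D.e_zero (funext fun i => Circle.exp_zero)
            act := ?_
            gf := HasStrictFDerivAt.prodMap _ D.gf N.hasStrictFDerivAt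
            gf0 := Prod.ext D.gf0 (funext fun i => inner_J_self (H.Jsk o i) _)
            bij := ⟨(injective_iff_map_eq_zero _).2 fun ξ hξ => ?_, fun f => ?_⟩
            tame := H.tame h0 (fun i => (hr i).continuousAt) D.e_zero d5 },
    d1.prodMap N.contDiff, ?_, ?_⟩
  · let z₀ : (Q.L o × (h → ℝ)) × X.C o := (0, Q.pt y, ψ)
    let p1 : (Q.L o × (h → ℝ)) × X.C o →L[ℝ] Q.L o × Q.C o :=
      (ContinuousLinearMap.fst ℝ _ _).prodMap (.fst ℝ _ _)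
    have h1 := HasStrictFDerivAt.comp (g := fun z : Q.L o × Q.C o => D.e z.1 • z.2) z₀ D.act
      p1.hasStrictFDerivAt
    have h2 : ∀ i, HasStrictFDerivAt (fun z : (Q.L o × (h → ℝ)) × X.C o =>
        phz (X.J o i) (Circle.exp (z.1.2 i)) (X.rep o i (D.e z.1.1) (z.2.2 i)))
        (ContinuousLinearMap.proj i ∘L .snd ℝ _ _ ∘L d.coprod (.id ℝ _)) z₀ := fun i => by
      have a1 : HasStrictDerivAt (fun s : ℝ => (Circle.exp s : ℂ)) Complex.I 0 := by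
        have := ((Complex.ofRealCLM.hasStrictFDerivAt (x := (0 : ℝ))).hasStrictDerivAt.mul_const
          Complex.I).cexp
        simpa [Circle.coe_exp] using this
      have a2 := HasStrictFDerivAt.comp (g := fun s : ℝ => (Circle.exp s : ℂ)) z₀
        a1.hasStrictFDerivAt (ContinuousLinearMap.proj (R := ℝ) (φ := fun _ : h => ℝ) i ∘L
          .snd ℝ (Q.L o) _ ∘L .fst ℝ _ (X.C o)).hasStrictFDerivAt
      have a3 := (phzL (X.J o i)).hasStrictFDerivAt.comp z₀ a2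
      have a4 := HasStrictFDerivAt.comp (g := fun ξ => X.rep o i (D.e ξ)) z₀ (hr i)
        (ContinuousLinearMap.fst ℝ (Q.L o) (h → ℝ) ∘L .fst ℝ _ (X.C o)).hasStrictFDerivAt
      have a5 := (ContinuousLinearMap.proj (R := ℝ) (φ := X.K o) i ∘L .snd ℝ (Q.C o) _ ∘L
        .snd ℝ (Q.L o × (h → ℝ)) _).hasStrictFDerivAt (x := z₀)
      refine (a3.clm_apply (a4.clm_apply a5)).congr_fderiv (ContinuousLinearMap.ext fun u => ?_)
      simp [z₀, hd, phzL_apply, phz_apply, D.e_zero]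
      abel
    refine (h1.prodMk (hasStrictFDerivAt_pi'' (Φ' := .snd ℝ _ _ ∘L d.coprod (.id ℝ _)) h2)
      ).congr_fderiv (ContinuousLinearMap.ext fun u => rfl)
  · have h1 : ξ.1 = 0 := D.bij.1 ((congrArg Prod.fst hξ).trans (map_zero _).symm)
    refine Prod.ext h1 (funext fun i => ?_)
    have h2 : ⟪X.J o i (ψ i), r i ξ.1 (ψ i) + ξ.2 i • X.J o i (ψ i)⟫_ℝ = 0 :=
      congrFun (congrArg Prod.snd hξ) i
    rw [h1, map_zero, zero_apply, zero_add, inner_smul_right] at h2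
    exact (mul_eq_zero.1 h2).resolve_right (hJ i)
  · obtain ⟨ξ, hξ⟩ := D.bij.2 f.1
    refine ⟨(ξ, fun i => (f.2 i - ⟪X.J o i (ψ i), r i ξ (ψ i)⟫_ℝ) /
      ⟪X.J o i (ψ i), X.J o i (ψ i)⟫_ℝ), Prod.ext hξ (funext fun i => ?_)⟩
    show ⟪X.J o i (ψ i), r i ξ (ψ i) + ((f.2 i - ⟪X.J o i (ψ i), r i ξ (ψ i)⟫_ℝ) /
      ⟪X.J o i (ψ i), X.J o i (ψ i)⟫_ℝ) • X.J o i (ψ i)⟫_ℝ = _
    rw [inner_add_right, inner_smul_right, div_mul_cancel₀ _ (hJ i)]
    ring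
  · obtain ⟨B, hB⟩ := H.hasF q (v := (Q.pt y, ψ)) (H.base.mem _ hq.1)
    rw [hB.fderiv]
    let N' : (∀ i, X.K o i) →L[ℝ] h → ℝ :=
      ContinuousLinearMap.pi fun i => ((2 : ℝ) • innerSL ℝ (ψ i)) ∘L .proj i
    have h1 := ((Fr.tri' B d2 (fr_dgl fun i => H.fred q _ i ha hq)).prod
      (N' ∘L .snd ℝ _ _)).prod (N ∘L .snd ℝ _ _)
    let e : ((((Q.E o × Q.H o) × ∀ i, X.K o i) × (h → ℝ)) × (h → ℝ)) ≃L[ℝ]
        (Q.E o × (∀ i, X.K o i) × (h → ℝ)) × Q.H o × (h → ℝ) :=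
      { toFun := fun z => ((z.1.1.1.1, z.1.1.2, z.1.2), z.1.1.1.2, z.2)
        invFun := fun z => ((((z.1.1, z.2.1), z.1.2.1), z.1.2.2), z.2.2)
        map_add' := fun _ _ => rfl
        map_smul' := fun _ _ => rfl
        left_inv := fun _ => rfl
        right_inv := fun _ => rfl
        continuous_toFun := by fun_prop
        continuous_invFun := by fun_prop }
    refine (((Fr.equiv e).comp h1).cast ?_).congr fun u => rfl
    simp only [Module.finrank_fintype_fun_eq_card]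
    ring
  · have h1 : ∀ᶠ v : X.C o in 𝓝 (Q.pt y, ψ), ∀ i, v.2 i ≠ 0 := eventually_all.2 fun i =>
      (show ContinuousAt (fun v : X.C o => v.2 i) (Q.pt y, ψ) by fun_prop).eventually_ne (h0 i)
    filter_upwards [continuous_fst.continuousAt.eventually d3, h1] with v h2 h3 h4 h5
    rw [F_eq] at h4
    obtain ⟨y', h6, h7⟩ := h2 (congrArg Prod.fst h4) (congrArg Prod.fst h5)
    exact ⟨(y', v.2), Prod.ext h6 rfl, h7, h3⟩

omit H in
theorem sm_pr (o : Q.O) (i : h) : ContDiff ℝ ∞ fun v : X.C o => v.2 i :=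
  (ContinuousLinearMap.proj (R := ℝ) (φ := X.K o) i ∘L .snd ℝ (Q.C o) _).contDiff

omit H in
theorem sat_fst {o : Q.O} {a : X.C o}
    (ha : a ∈ sat (X.G o) (X.prob.pt '' {y | X.prob.In ⟨o, y⟩})) :
    a.1 ∈ sat (Q.G o) (Q.pt '' {y | Q.In ⟨o, y⟩}) := by
  obtain ⟨g, y, h1, h2⟩ := ha
  exact ⟨g.1, y.1, h1.1, congrArg Prod.fst h2⟩

theorem sm0' (o : Q.O) : ContDiffOn ℝ ∞ (X.prob.F0 o) (Q.U o ×ˢ univ) :=
  ((H.base.sm0 o).comp contDiffOn_fst fun _ hv => hv.1).prodMk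
    ((contDiffOn_pi.2 fun i => ((H.sm0 o i).comp contDiffOn_fst fun _ hv => hv.1).clm_apply
      (sm_pr (X := X) o i).contDiffOn).prodMk (contDiffOn_pi.2 fun i =>
        (((sm_pr (X := X) o i).norm_sq ℝ).sub contDiff_const).contDiffOn))

theorem smτ' (o : Q.O) (w : W) : ContDiffOn ℝ ∞ (X.prob.τ o w) (Q.U o ×ˢ univ) :=
  ((H.base.smτ o w).comp contDiffOn_fst fun _ hv => hv.1).prodMk
    ((contDiffOn_pi.2 fun i => ((H.smσ o i w).comp contDiffOn_fst fun _ hv => hv.1).clm_apply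
      (sm_pr (X := X) o i).contDiffOn).prodMk contDiffOn_const)

theorem act' (o : Q.O) (g : X.G o) (v : X.C o) (hv : v.1 ∈ Q.U o) :
    X.prob.Tw (o := o) (o' := o) (fun u => g • u) v :=
  tw (R := H.acI g) (H.base.act o g.1 v.1 hv) (by
    filter_upwards [(H.base.isOpen o).mem_nhds hv] with u hu i ψ
    have hu' := H.base.inv o g.1 u hu
    exact ⟨(phz_comm (H.J0 o i _ hu') _ _).trans (congrArg _ (H.act0 o i g.1 u hu ψ)), fun w =>
      (phz_comm (H.Jσ o i w _ hu') _ _).trans (congrArg _ (H.actσ o i w g.1 u hu ψ))⟩)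

theorem cl' (o : Q.O) : ClosedOrb (X.G o) (sat (X.G o) (X.prob.pt '' {y | X.prob.In ⟨o, y⟩})) := by
  intro x g a b _ ha hb h1 h2
  obtain ⟨φ, k, hφ, h3, h4⟩ := H.cl o (fun n => (x n).1) (fun n => (g n).1) a.1 b.1
    (sat_fst ha) (sat_fst hb) ((continuous_fst.tendsto a).comp h1)
    ((continuous_fst.tendsto b).comp h2)
  obtain ⟨η, χ, hχ, h5⟩ := CompactSpace.tendsto_subseq fun n => (g (φ n)).2
  refine ⟨(k, η), Prod.ext h3 (funext fun i => ?_)⟩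
  have hc := (sm_pr (X := X) o i).continuous
  have h6 := (hφ.comp hχ).tendsto_atTop
  refine tendsto_nhds_unique ?_ (((hc.tendsto b).comp h2).comp h6)
  have h7 : Continuous fun z : (h → Circle) × (X.K o i →L[ℝ] X.K o i) × X.K o i =>
      phz (X.J o i) (z.1 i) (z.2.1 z.2.2) :=
    ((continuous_phz _).comp (by fun_prop)).clm_apply (by fun_prop)
  have h8 := (h7.tendsto (η, X.rep o i k, a.2 i)).comp (h5.prodMk_nhds
    (((h4 i).comp hχ.tendsto_atTop).prodMk_nhds (((hc.tendsto a).comp h1).comp h6)))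
  exact h8

/-- **The extended problem satisfies the axioms.** -/
theorem ax : X.prob.Ax Adm where
  isOpen o := (H.base.isOpen o).prod isOpen_univ
  inv o g v hv := ⟨H.base.inv o g.1 v.1 hv.1, mem_univ _⟩
  sm0 := H.sm0'
  smτ := H.smτ'
  mem x hx := ⟨H.base.mem _ hx.1, mem_univ _⟩
  in_eqv x y e hx := by
    obtain ⟨T, R, -, h1, -⟩ := H.tr x y hx.1 e
    exact ⟨H.base.in_eqv _ _ (H.eqv x y e) hx.1, fun i => h1 i ▸ (R i).map_ne_zero_iff.2 (hx.2 i)⟩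
  cont o := ⟨fun g => by
    have := H.base.cont o
    exact ((continuous_const_smul g.1).comp continuous_fst).prodMk
      (continuous_pi fun i => (X.ac g i).continuous.comp (sm_pr (X := X) o i).continuous)⟩
  act o g v hv := H.act' o g v hv.1
  orb o y y' hy hy' := (H.orb o y.1 y'.1 y.2 y'.2 hy.1 hy'.1).trans
    ⟨fun ⟨g, h1, h2⟩ => by
      choose η hη using h2
      exact ⟨(g, η), Prod.ext h1 (funext fun i => (hη i).symm)⟩,
    fun ⟨g, h1⟩ => ⟨g.1, congrArg Prod.fst h1, fun i =>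
      ⟨g.2 i, (congrFun (congrArg Prod.snd h1) i).symm⟩⟩⟩
  tr x x' hx e := by
    obtain ⟨T, R, h1, h2, h3, h4, h5⟩ := H.tr x x' hx.1 e
    refine ⟨_, Prod.ext h1 (funext h2), tw (v := X.prob.pt x.2) h3 h4, fun y => ?_⟩
    obtain ⟨y', h6, h7⟩ := h5 y.1
    exact ⟨(y', fun i => R i (y.2 i)), Prod.ext h6 rfl, h7 y.2⟩
  slc := H.slc'
  cl := H.cl'

theorem reg_fst {q : W →₀ ℝ} {x : X.prob.X} (hx : Q.In (X.fst x)) (hr : X.prob.Reg q x) :
    Q.Reg q (X.fst x) := fun f => by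
  obtain ⟨B, hB⟩ := H.hasF q (v := X.prob.pt x.2) (H.base.mem _ hx)
  obtain ⟨u, hu⟩ := hr (f, 0, 0)
  rw [hB.fderiv] at hu
  exact ⟨u.1, congrArg Prod.fst hu⟩

/-- the universal linearisation is onto if it is onto for the base and for the rows -/
theorem onto [DecidableEq W] {q : W →₀ ℝ} {x : X.prob.X} (hx : X.prob.Sol q x) {J J' : Finset W}
    (h1 : Q.Onto q (X.fst x) J) (h2 : ∀ w ∈ J', Q.τ x.1 w (Q.pt x.2.1) = 0)
    (h3 : ∀ f : ∀ i, X.K x.1 i, ∃ (χ : ∀ i, X.K x.1 i) (c : J' → ℝ), ∀ i,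
      X.T x.1 i q (Q.pt x.2.1) (χ i) + ∑ w : J', c w • X.σ x.1 i w (Q.pt x.2.1) (x.2.2 i) = f i) :
    X.prob.Onto q x (J ∪ J') := by
  obtain ⟨o, y, ψ⟩ := x
  obtain ⟨hq, hψ⟩ := (X.sol_iff q _).1 hx
  obtain ⟨B, hB⟩ := H.hasF q (v := (Q.pt y, ψ)) (H.base.mem _ hq.1)
  rintro ⟨f, g, r⟩
  obtain ⟨u, c, hu⟩ := h1 f
  obtain ⟨χ, c', hc⟩ := h3 fun i => g i - B u i - ∑ w : J, c w • X.σ o i w (Q.pt y) (ψ i)
  have e : ∀ {F : Type} [AddCommGroup F] [Module ℝ F] (t : W → F),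
      ∑ w : (J ∪ J' : Finset W), (Fin93.ext0 J c + Fin93.ext0 J' c') w • t w =
        ∑ w : J, c w • t w + ∑ w : J', c' w • t w := fun t => by
    rw [← Fin93.ext0_sum (J ∪ J') (fun w => (Fin93.ext0 J c + Fin93.ext0 J' c') w) t,
      Fin93.ext0_restrict (Finsupp.support_add.trans (Finset.union_subset_union
        (Fin93.ext0_support J c) (Fin93.ext0_support J' c'))),
      Finsupp.sum_add_index' (h := fun w (a : ℝ) => a • t w) (fun _ => zero_smul _ _)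
        (fun _ _ _ => add_smul _ _ _), Fin93.ext0_sum, Fin93.ext0_sum]
  refine ⟨(u, fun i => χ i + (r i / 2 - ⟪ψ i, χ i⟫_ℝ) • ψ i),
    fun w => (Fin93.ext0 J c + Fin93.ext0 J' c') w, ?_⟩
  rw [e fun w => X.prob.τ o w (Q.pt y, ψ)]
  show fderiv ℝ (X.prob.F o q) (Q.pt y, ψ) _ + _ = _
  rw [hB.fderiv]
  refine Prod.ext ?_ (Prod.ext (funext fun i => ?_) (funext fun i => ?_))
  · have : ∑ w : J', c' w • Q.τ o w (Q.pt y) = 0 :=
      Finset.sum_eq_zero fun w _ => by rw [h2 w w.2, smul_zero]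
    simpa [Prod.fst_sum, this, -Finset.univ_eq_attach] using hu
  · have h4 := hc i
    have h5 := (hψ i).2
    simp only at h4 h5
    simp [Prod.fst_sum, Prod.snd_sum, h5, -Finset.univ_eq_attach]
    rw [← sub_eq_zero, ← sub_eq_zero.2 h4]
    abel
  · have h5 := (hψ i).1
    simp only at h5
    simp [Prod.snd_sum, inner_add_right, inner_smul_right, h5]
    ring

end Ax
end Ext
end Crest.Agent.X212.An
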